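import Vale.Agent.P221.H377.Reg

/-!
# P221 (helper377): the induction step, abstract form

`St D x e j s` : `s : A →+ B` is onto with kernel `W D x e j`, and the powers `x m ^ e m`, `m < j`, are
regular modulo `W D x e m`.
-/

namespace Vale.Agent.P221.H377

variable {A : Type*} [AddCommGroup A] {B : Type*} [AddCommGroup B] {C : Type*} [AddCommGroup C]

/-- the state of the induction -/
structure St (D : AddSubgroup A) (x : ℕ → AddMonoid.End A) (e : ℕ → ℕ) (j : ℕ) (s : A →+ B) :
    Prop where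
  surj : Function.Surjective s
  ker : ∀ a, s a = 0 ↔ a ∈ W D x e j
  pos : ∀ m < j, 1 ≤ e m
  reg : ∀ m < j, Rg (x m ^ e m : AddMonoid.End A) (W D x e m)
  good : ∀ m < j, ∀ d ∈ D, (x m ^ e m : AddMonoid.End A) d ∈ W D x e m

variable {D : AddSubgroup A} {x : ℕ → AddMonoid.End A} {e : ℕ → ℕ} {j : ℕ} {s : A →+ B}

theorem St.step (h : St D x e j s) {F : B →+ B} (hF : Function.Injective F) {g : B →+ C}
    (hg : Function.Surjective g) (hgF : ∀ b, g b = 0 ↔ ∃ b', F b' = b) {i : ℕ} (hi : 1 ≤ i)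
    (hK : ∀ a, F (s a) = s ((x j ^ i : AddMonoid.End A) a)) :
    St D x (upd e j i) (j + 1) (g.comp s) := by
  have hW : ∀ m ≤ j, W D x (upd e j i) m = W D x e m := fun m hm =>
    W_congr fun b hb => upd_ne e (by omega) i
  refine ⟨hg.comp h.surj, fun a => ?_, fun m hm => ?_, fun m hm => ?_, fun m hm => ?_⟩
  · rw [AddMonoidHom.comp_apply, hgF, mem_W_succ, upd_self, hW j le_rfl]
    constructor
    · rintro ⟨b', hb'⟩
      obtain ⟨a', rfl⟩ := h.surj b'
      rw [hK] at hb'
      refine ⟨a - (x j ^ i : AddMonoid.End A) a', ?_, a', sub_add_cancel _ _⟩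
      rw [← h.ker, map_sub, hb', sub_self]
    · rintro ⟨w, hw, u, rfl⟩
      refine ⟨s u, ?_⟩
      rw [map_add, (h.ker w).2 hw, zero_add, hK]
  · rcases Nat.lt_or_ge m j with h1 | h1
    · rw [upd_ne e (by omega)]
      exact h.pos m h1
    · obtain rfl : m = j := by omega
      rwa [upd_self]
  · rcases Nat.lt_or_ge m j with h1 | h1
    · rw [upd_ne e (by omega), hW m h1.le]
      exact h.reg m h1
    · obtain rfl : m = j := by omega
      rw [upd_self, hW m le_rfl]
      intro a ha
      rw [← h.ker] at ha ⊢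
      rw [← hK] at ha
      exact (injective_iff_map_eq_zero F).1 hF _ ha
  · rcases Nat.lt_or_ge m j with h1 | h1
    · rw [upd_ne e (by omega), hW m h1.le]
      exact h.good m h1
    · obtain rfl : m = j := by omega
      rw [upd_self, hW m le_rfl]
      intro d hd
      have h2 : s d = 0 := (h.ker d).2 (D_le_W m hd)
      rw [← h.ker, ← hK, h2, map_zero]

theorem St.zero {s : A →+ B} (hs : Function.Surjective s) (hD : ∀ a, s a = 0 ↔ a ∈ D) :
    St D x e 0 s :=
  ⟨hs, hD, fun _ h => absurd h (Nat.not_lt_zero _), fun _ h => absurd h (Nat.not_lt_zero _),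
    fun _ h => absurd h (Nat.not_lt_zero _)⟩

/-- the generators are regular -/
theorem St.reg_one {n : ℕ} (h : St D x e (n + 1) s) (hx : ∀ b c, Commute (x b) (x c))
    (hg1 : ∀ m ≤ n, ∀ d ∈ D, x m d ∈ W D x (fun _ => 1) m) :
    ∀ m ≤ n, Rg (x m) (W D x (fun _ => 1) m) :=
  reg_of_pow hx (fun m hm => h.pos m (by omega)) hg1 (fun m hm => h.good m (by omega))
    (fun m hm => h.reg m (by omega))

theorem St.ker_le {n : ℕ} (h : St D x e (n + 1) s) : ∀ a, s a = 0 → a ∈ W D x (fun _ => 1) (n + 1) :=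
  fun a ha => W_anti (fun b hb => h.pos b hb) ((h.ker a).1 ha)

end Vale.Agent.P221.H377
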