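import Vale.Agent.P221.H377.Hopf
import Vale.Agent.P221.H377.Step
import Mathlib.Algebra.DirectSum.Basic

/-!
# P221 (helper377): the operators `v_m` on `⨁_k A_k`

* `opA γ` : the operator of an operation `γ`; `xx m` : the one of `v_m`;
* `D0` : the kernel of the evaluation;
* `mem_W_iff` : `of k a ∈ W D0 xx 1 m ↔ ev a ∈ N_m`;
* `reg_of_st` : `Reg Z X` from the state of the induction.
-/

open MvPolynomial

set_option linter.unusedSectionVars false

namespace Vale.Agent.P221.H377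

open Vale.Agent.P221.T Vale.Agent.P221.T.H746 Vale.Agent.P221.H460

variable {p : ℕ} [hp : Fact p.Prime] {n : ℕ}

section op

variable {S : Src p n} (Y : Sys S)

/-- `⨁_k A_k` -/
abbrev AA : Type := DirectSum ℤ Y.A

/-- homogeneous elements -/
noncomputable abbrev ofA (k : ℤ) : Y.A k →+ AA Y := DirectSum.of Y.A k

/-- the operator of an operation -/
noncomputable def opA {m : ℤ} (γ : S.E m) : AddMonoid.End (AA Y) :=
  DirectSum.toAddMonoid fun k => (ofA Y (k + m)).comp ((Y.act (rfl : k + m = k + m)).flip γ)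

theorem opA_of {m k k' : ℤ} (h : k + m = k') (γ : S.E m) (a : Y.A k) :
    opA Y γ (ofA Y k a) = ofA Y k' (Y.act h a γ) := by
  subst h
  unfold opA
  exact DirectSum.toAddMonoid_of _ _ _

/-- the kernel of the evaluation -/
def D0 : AddSubgroup (AA Y) where
  carrier := {α | ∀ k, Y.ev k (α k) = 0}
  add_mem' := fun {α β} h h' k => by
    rw [DirectSum.add_apply, map_add, h k, h' k, add_zero]
  zero_mem' := fun k => by
    rw [DirectSum.zero_apply, map_zero]
  neg_mem' := fun {α} h k => by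
    have h1 : (-α) k = -(α k) := by
      have h2 : (-α + α) k = 0 := by rw [neg_add_cancel, DirectSum.zero_apply]
      rw [DirectSum.add_apply] at h2
      exact eq_neg_of_add_eq_zero_left h2
    rw [h1, map_neg, h k, neg_zero]

theorem mem_D0 {α : AA Y} : α ∈ D0 Y ↔ ∀ k, Y.ev k (α k) = 0 := Iff.rfl

theorem of_mem_D0 {k : ℤ} {a : Y.A k} : ofA Y k a ∈ D0 Y ↔ Y.ev k a = 0 := by
  classical
  rw [mem_D0]
  constructor
  · intro h
    have h1 := h k
    rwa [DirectSum.of_eq_same] at h1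
  · intro h k'
    by_cases hk : k' = k
    · subst hk
      rwa [DirectSum.of_eq_same]
    · rw [DirectSum.of_eq_of_ne _ _ _ hk, map_zero]

/-- elements of `⨁ A_k` are sums of homogeneous ones -/
theorem ind {Q : AA Y → Prop} (h0 : Q 0) (h1 : ∀ k (a : Y.A k), Q (ofA Y k a))
    (h2 : ∀ α β, Q α → Q β → Q (α + β)) (α : AA Y) : Q α :=
  DirectSum.induction_on α h0 h1 h2

/-- for elements of `D0` the homogeneous components are in `D0` -/
theorem ind_D0 {V : AddSubgroup (AA Y)} {c : AddMonoid.End (AA Y)}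
    (h : ∀ k (a : Y.A k), Y.ev k a = 0 → c (ofA Y k a) ∈ V) : ∀ d ∈ D0 Y, c d ∈ V := by
  classical
  intro d hd
  have h1 : d = ∑ k ∈ DFinsupp.support d, ofA Y k (d k) := (DirectSum.sum_support_of d).symm
  rw [h1, map_sum]
  exact AddSubgroup.sum_mem _ fun k _ => h k _ (hd k)

end op

variable {ld : Lead p n} {S : Src p n} {O : OpAlg ld S} {Y : Sys S} {M : Type} [AddCommGroup M]
  [Module (KK p) M] (Z : Ev O Y M) (X : OpX O)

include X in
/-- the operation `v_m` -/
noncomputable def gm (m : ℕ) : S.E (sV p m) := (X.mult _ _ (HK_vK m)).choose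

theorem T_gm (m : ℕ) (z : GG p) : O.T _ (gm X m) z = X.eta (vK p m) * z :=
  (X.mult _ _ (HK_vK m)).choose_spec z

/-- the operators `v_m` -/
noncomputable def xx (Y : Sys S) (m : ℕ) : AddMonoid.End (AA Y) := opA Y (gm X m)

theorem c_act_gm {m : ℕ} {k k' : ℤ} (h : k + sV p m = k') (a : Y.A k) (z : GG p) :
    Z.c k' (Y.act h a (gm X m)) z = Z.c k a (X.eta (vK p m) * z) := by
  rw [Z.act, LinearMap.comp_apply, T_gm]

include Z in
theorem xx_comm (b c : ℕ) : Commute (xx X Y b) (xx X Y c) := by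
  refine AddMonoidHom.ext fun α => ?_
  change xx X Y b (xx X Y c α) = xx X Y c (xx X Y b α)
  refine ind Y (Q := fun α => xx X Y b (xx X Y c α) = xx X Y c (xx X Y b α)) ?_ ?_ ?_ α
  · simp only [map_zero]
  · intro k a
    unfold xx
    rw [opA_of Y (rfl : k + sV p c = _), opA_of Y (rfl : k + sV p b = _),
      opA_of Y (rfl : k + sV p c + sV p b = _),
      opA_of Y (show k + sV p b + sV p c = k + sV p c + sV p b by ring)]
    congr 1
    apply Z.inj
    refine LinearMap.ext fun z => ?_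
    rw [c_act_gm, c_act_gm, c_act_gm, c_act_gm, ← mul_assoc, ← mul_assoc,
      mul_comm (X.eta (vK p c))]
  · intro α β h h'
    simp only [map_add, h, h']

/-- powers of the operators -/
theorem exists_xx_pow (m : ℕ) (e : ℕ) : ∀ {k k' : ℤ} (_ : k + e * sV p m = k') (a : Y.A k),
    ∃ a' : Y.A k', (xx X Y m ^ e : AddMonoid.End (AA Y)) (ofA Y k a) = ofA Y k' a' ∧
      ∀ z, Z.c k' a' z = Z.c k a (X.eta (vK p m) ^ e * z) := by
  induction e with
  | zero =>
    intro k k' h a
    obtain rfl : k = k' := by simpa using h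
    refine ⟨a, rfl, fun z => ?_⟩
    rw [pow_zero, one_mul]
  | succ e ih =>
    intro k k' h a
    obtain ⟨a', ha', hc⟩ := ih (rfl : k + e * sV p m = _) a
    have h1 : k + e * sV p m + sV p m = k' := by
      rw [← h]
      push_cast
      ring
    refine ⟨Y.act h1 a' (gm X m), ?_, fun z => ?_⟩
    · rw [pow_succ']
      change xx X Y m ((xx X Y m ^ e : AddMonoid.End (AA Y)) (ofA Y k a)) = _
      rw [ha', xx, opA_of Y h1]
    · rw [c_act_gm, hc, ← mul_assoc, ← pow_succ]

/-- the powers of the operators, with given elements -/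
theorem xx_pow_of (m : ℕ) (e : ℕ) {k k' : ℤ} (h : k + e * sV p m = k') (a : Y.A k) {a' : Y.A k'}
    (ha' : ∀ z, Z.c k' a' z = Z.c k a (X.eta (vK p m) ^ e * z)) :
    (xx X Y m ^ e : AddMonoid.End (AA Y)) (ofA Y k a) = ofA Y k' a' := by
  obtain ⟨a'', h1, h2⟩ := exists_xx_pow Z X m e h a
  rw [h1]
  congr 1
  apply Z.inj
  refine LinearMap.ext fun z => ?_
  rw [h2, ha']

/-- the evaluation of `∑ b_a v_a` -/
theorem e_ev_sum {m : ℕ} {k : ℤ} (b : ∀ a : Fin m, Y.A (k - sV p a)) :
    Z.e k (Y.ev k (∑ a : Fin m, Y.act (sub_add_cancel k (sV p a)) (b a) (gm X a))) =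
      ∑ a : Fin m, Z.c _ (b a) (X.eta (vK p a)) := by
  rw [Z.ev, map_sum, LinearMap.sum_apply]
  refine Finset.sum_congr rfl fun a _ => ?_
  rw [c_act_gm, mul_one]

/-- `N_m` as a subgroup of `⨁ A_k` -/
def NA (m : ℕ) : AddSubgroup (AA Y) where
  carrier := {α | ∀ k, Y.ev k (α k) ∈ Nm Z X m k}
  add_mem' := fun {α β} h h' k => by
    rw [DirectSum.add_apply, map_add]
    exact add_mem (h k) (h' k)
  zero_mem' := fun k => by
    rw [DirectSum.zero_apply, map_zero]
    exact zero_mem _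
  neg_mem' := fun {α} h k => by
    have h1 : (-α) k = -(α k) := by
      have h2 : (-α + α) k = 0 := by rw [neg_add_cancel, DirectSum.zero_apply]
      rw [DirectSum.add_apply] at h2
      exact eq_neg_of_add_eq_zero_left h2
    rw [h1, map_neg]
    exact neg_mem (h k)

theorem of_mem_NA {m : ℕ} {k : ℤ} {a : Y.A k} :
    ofA Y k a ∈ NA Z X m ↔ Y.ev k a ∈ Nm Z X m k := by
  classical
  constructor
  · intro h
    have h1 := h k
    rwa [DirectSum.of_eq_same] at h1
  · intro h k'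
    by_cases hk : k' = k
    · subst hk
      rwa [DirectSum.of_eq_same]
    · rw [DirectSum.of_eq_of_ne _ _ _ hk, map_zero]
      exact zero_mem _

theorem W_le_NA (m : ℕ) : W (D0 Y) (xx X Y) (fun _ => 1) m ≤ NA Z X m := by
  refine W_le (fun d hd k => ?_) fun b hb u => ?_
  · rw [hd k]
    exact zero_mem _
  · refine ind Y (Q := fun u => (xx X Y b ^ 1 : AddMonoid.End (AA Y)) u ∈ NA Z X m) ?_ ?_ ?_ u
    · rw [map_zero]
      exact zero_mem _
    · intro k a
      rw [pow_one, xx, opA_of Y (rfl : k + sV p b = _), of_mem_NA]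
      refine ⟨Pi.single (M := fun a : Fin m => Y.A (k + sV p b - sV p a)) ⟨b, hb⟩
        (Y.act (show k + 0 = k + sV p b - sV p b by ring) a (X.mult 0 1
          (isWeightedHomogeneous_one _ _)).choose), ?_⟩
      rw [Finset.sum_eq_single (⟨b, hb⟩ : Fin m)]
      · rw [Pi.single_eq_same, Z.ev, c_act_gm, mul_one, Z.act, LinearMap.comp_apply,
          (X.mult 0 1 (isWeightedHomogeneous_one _ _)).choose_spec, map_one, one_mul]
      · intro a _ hne
        rw [Pi.single_eq_of_ne hne, map_zero, LinearMap.zero_apply]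
      · intro h
        exact absurd (Finset.mem_univ _) h
    · intro α β h h'
      rw [map_add]
      exact add_mem h h'

/-- **the translation** -/
theorem mem_W_iff {m : ℕ} {k : ℤ} {a : Y.A k} :
    ofA Y k a ∈ W (D0 Y) (xx X Y) (fun _ => 1) m ↔ Y.ev k a ∈ Nm Z X m k := by
  constructor
  · intro h
    exact (of_mem_NA Z X).1 (W_le_NA Z X m h)
  · rintro ⟨b, hb⟩
    rw [← e_ev_sum] at hb
    have h1 := Z.e_inj k hb
    set a' : Y.A k := ∑ a : Fin m, Y.act (sub_add_cancel k (sV p a)) (b a) (gm X a) with ha'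
    have h2 : ofA Y k (a - a') ∈ D0 Y := by
      rw [of_mem_D0, map_sub, h1, sub_self]
    have h3 : ofA Y k a = ofA Y k (a - a') + ofA Y k a' := by
      rw [← map_add, sub_add_cancel]
    rw [h3]
    refine add_mem (D_le_W m h2) ?_
    rw [ha', map_sum]
    refine AddSubgroup.sum_mem _ fun i _ => ?_
    rw [← opA_of Y (sub_add_cancel k (sV p i))]
    have h4 := range_le_W (D := D0 Y) (x := xx X Y) (E := fun _ => 1) i.2 (ofA Y _ (b i))
    rw [pow_one] at h4
    exact h4

include Z in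
/-- (B1) -/
theorem good_one (hs : ∀ k, Function.Surjective (Y.ev k)) (m : ℕ) :
    ∀ d ∈ D0 Y, xx X Y m d ∈ W (D0 Y) (xx X Y) (fun _ => 1) m := by
  refine ind_D0 Y fun k a ha => ?_
  rw [xx, opA_of Y (rfl : k + sV p m = _), mem_W_iff Z X, mem_Nm, Z.ev, c_act_gm, mul_one]
  exact mem_NM_of_ev Z X hs m rfl a ha

/-- **`Reg Z X` from the state of the induction** -/
theorem reg_of_st (hs : ∀ k, Function.Surjective (Y.ev k))
    (hbdd : ∃ m₀ : ℤ, ∀ k < m₀, ∀ x : Y.Pi k, x = 0)
    (hcpl : ∀ (k : ℤ) (z : ℕ → Y.Pi k), (∀ i, z i = p • z (i + 1)) → ∀ i, z i = 0)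
    {B : ℤ → Type} [∀ k, AddCommGroup (B k)] (s : ∀ k, Y.A k →+ B k)
    (hfin : ∀ k, Finite (B k)) (hfin' : ∃ m₁ : ℤ, ∀ k, m₁ < k → ∀ y : B k, y = 0)
    {C : Type} [AddCommGroup C] {t : AA Y →+ C} {e : ℕ → ℕ} (ht : St (D0 Y) (xx X Y) e (n + 1) t)
    (hts : ∀ k a, s k a = 0 → t (ofA Y k a) = 0) : Reg Z X := by
  have hreg := ht.reg_one (xx_comm Z X) fun m _ => good_one Z X hs m
  have hker : ∀ k (a : Y.A k), s k a = 0 → Y.ev k a ∈ Nm Z X (n + 1) k := by
    intro k a ha
    rw [← mem_W_iff]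
    exact ht.ker_le _ (hts k a ha)
  refine ⟨hs, fun m _ k a ha => wd Z X hs m k a ha, ?_, hbdd, ?_, ?_, hcpl⟩
  · intro m hm k a x hx hxa
    rw [← mem_W_iff Z X]
    refine hreg m hm _ ?_
    rw [xx, opA_of Y (sub_add_cancel k (sV p m)), mem_W_iff Z X]
    have h1 : Y.ev k (Y.act (sub_add_cancel k (sV p m)) a (gm X m)) = x := by
      apply Z.e_inj
      rw [Z.ev, c_act_gm, mul_one, hxa]
    rwa [h1]
  · intro k
    -- a surjection from a subset of `B k`
    have h1 : Finite (Set.range (s k)) := by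
      have := hfin k
      infer_instance
    have h2 : ∀ x : Y.Pi k, ∃ a, Y.ev k a = x := hs k
    refine Finite.of_surjective (α := Set.range (s k))
      (fun y => (QuotientAddGroup.mk (Y.ev k y.2.choose) : Y.Pi k ⧸ Nm Z X (n + 1) k)) ?_
    intro q
    obtain ⟨x, rfl⟩ := QuotientAddGroup.mk_surjective q
    obtain ⟨a, rfl⟩ := hs k x
    refine ⟨⟨s k a, a, rfl⟩, ?_⟩
    rw [QuotientAddGroup.eq]
    have h3 : s k (Exists.choose (⟨a, rfl⟩ : ∃ a', s k a' = s k a)) = s k a :=
      Exists.choose_spec (⟨a, rfl⟩ : ∃ a', s k a' = s k a)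
    rw [← map_neg, ← map_add]
    apply hker
    rw [map_add, map_neg, h3, neg_add_cancel]
  · obtain ⟨m₁, hm₁⟩ := hfin'
    refine ⟨m₁, fun k hk x => ?_⟩
    obtain ⟨a, rfl⟩ := hs k x
    exact hker k a (hm₁ k hk _)

end Vale.Agent.P221.H377
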