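import Vale.Agent.P221.H377.TowerX

/-!
# P221 (helper377): Koszul complexes in large internal degrees

* `ev_ex_part` : if `x_0, …, x_{m-1}` is a regular sequence in large degrees, the Koszul complex of
  `x_0, …, x_{r-1}` is exact in homological degrees `> r - m` and large internal degrees;
* `ev_inB_pow` : surjectivity of powers.
-/

open Filter

set_option linter.unusedSectionVars false

namespace Vale.Agent.P221.H377

open Vale.Agent.P221.H626

variable {F : Type*} [AddCommGroup F] {x : ℕ → F →+ F} {gr : ℤ → AddSubgroup F} {dg : ℕ → ℤ}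
  (hx : ∀ a b z, x a (x b z) = x b (x a z))
  (hg : ∀ a k, ∀ z ∈ gr k, x a z ∈ gr (k + dg a))

include hx hg in
theorem ev_ex_of_reg {m : ℕ} (h : ∀ b < m, ∀ᶠ k in atTop, ∀ z ∈ gr k,
    InB x gr dg b (k + dg b) (x b z) → InB x gr dg b k z) : ∀ r ≤ m, ∀ᶠ t in atTop,
      ∀ s : ℤ, 1 ≤ s → Ex x gr dg r s t := by
  intro r
  induction r with
  | zero => exact fun _ => Eventually.of_forall fun t s hs => ex_gt (by push_cast; omega)
  | succ r ih =>
    intro hr
    have ih := ih (by omega)
    filter_upwards [ih, ev_sub ih (dg r), ev_sub (h r (by omega)) (dg r)] with t h1 h2 h3 s hs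
    refine ex_succ_iff' hx hg (fun z hz hd => ?_) fun z hz hd hu => ?_
    · rw [sub_add_cancel] at hz ⊢
      obtain ⟨y, hy, hy'⟩ := h1 s hs z hz hd
      exact ⟨0, AddSubgroup.zero_mem _, map_zero _, y, hy, by rw [map_zero, zero_add, hy']⟩
    · rcases eq_or_lt_of_le hs with h4 | h4
      · subst h4
        rw [sub_self] at hz hu ⊢
        obtain ⟨z₀, hz₀, rfl⟩ := exists_io hz
        rw [zero_add] at hu ⊢
        rw [kmap_io] at hu
        exact inB_iff.2 (h3 z₀ hz₀ (inB_iff.1 hu))
      · exact h2 _ (by omega) z hz hd

include hx hg in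
/-- **partial regularity** -/
theorem ev_ex_part {m : ℕ} (h : ∀ b < m, ∀ᶠ k in atTop, ∀ z ∈ gr k,
    InB x gr dg b (k + dg b) (x b z) → InB x gr dg b k z) (c : ℕ) : ∀ᶠ t in atTop,
      ∀ s : ℤ, c + 1 ≤ s → Ex x gr dg (m + c) s t := by
  induction c with
  | zero =>
    have h1 := ev_ex_of_reg hx hg h m le_rfl
    filter_upwards [h1] with t h2 s hs
    exact h2 s (by push_cast at hs; omega)
  | succ c ih =>
    filter_upwards [ih, ev_sub ih (dg (m + c))] with t h1 h2 s hs
    push_cast at hs
    exact ex_succ hx hg (h1 s (by omega)) (h2 (s - 1) (by omega))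

include hg in
/-- surjectivity of a power of one operator -/
theorem ev_inB_one {r j : ℕ} (hj : j < r) (hx : ∀ a b z, x a (x b z) = x b (x a z))
    (h : ∀ᶠ t in atTop, ∀ z ∈ gr t, InB x gr dg r t z) (i : ℕ) :
    ∀ᶠ t in atTop, ∀ z ∈ gr t, InB (Function.update x j (H626.pw (x j) (i + 1))) gr
      (Function.update dg j ((i + 1 : ℕ) * dg j)) r t z := by
  -- `z = ∑_{a ≠ j} x_a y_a + x_j ^ (i + 1) w`
  have key : ∀ i : ℕ, ∀ᶠ t in atTop, ∀ z ∈ gr t, ∃ y : ℕ → F,
      (∀ a < r, y a ∈ gr (t - if a = j then ((i + 1 : ℕ) : ℤ) * dg j else dg a)) ∧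
      z = ∑ a ∈ Finset.range r, if a = j then H626.pw (x j) (i + 1) (y a) else x a (y a) := by
    intro i
    induction i with
    | zero =>
      filter_upwards [h] with t ht z hz
      obtain ⟨y, hy, rfl⟩ := ht z hz
      refine ⟨y, fun a ha => ?_, Finset.sum_congr rfl fun a _ => ?_⟩
      · split_ifs with h1
        · subst h1
          have := hy a ha
          rwa [zero_add, Nat.cast_one, one_mul]
        · exact hy a ha
      · split_ifs with h1
        · subst h1
          rfl
        · rfl
    | succ i ih =>
      filter_upwards [ih, ev_sub h (((i + 1 : ℕ) : ℤ) * dg j)] with t h1 h2 z hz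
      obtain ⟨y, hy, rfl⟩ := h1 z hz
      have h3 := hy j hj
      rw [if_pos rfl] at h3
      obtain ⟨w, hw, hw'⟩ := h2 _ h3
      -- the terms `x_j ^ (i + 1) x_a w_a`
      refine ⟨fun a => if a = j then w j else y a + H626.pw (x j) (i + 1) (w a), fun a ha => ?_, ?_⟩
      · by_cases haj : a = j
        · subst haj
          simp only [if_true]
          have h4 := hw a ha
          have h5 : t - ((i + 1 : ℕ) : ℤ) * dg a - dg a = t - ((i + 1 + 1 : ℕ) : ℤ) * dg a := by
            push_cast
            ring
          rwa [h5] at h4
        · simp only [if_neg haj]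
          refine AddSubgroup.add_mem _ ?_ ?_
          · have h4 := hy a ha
            rwa [if_neg haj] at h4
          · have h4 := pw_mem (hg j) (i + 1) _ (hw a ha)
            have h5 : t - ((i + 1 : ℕ) : ℤ) * dg j - dg a + ((i + 1 : ℕ) : ℤ) * dg j = t - dg a := by
              ring
            rwa [h5] at h4
      · have h6 : H626.pw (x j) (i + 1) (y j) = ∑ a ∈ Finset.range r,
            (if a = j then H626.pw (x j) (i + 1 + 1) (w j) else x a (H626.pw (x j) (i + 1) (w a))) := by
          rw [hw', map_sum]
          refine Finset.sum_congr rfl fun a _ => ?_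
          split_ifs with haj
          · subst haj
            exact (pw_succ_apply' _ _ _).symm
          · exact pw_comm (fun z => (hx a j z).symm) _ _
        have h7 : ∑ a ∈ Finset.range r, (if a = j then H626.pw (x j) (i + 1) (y a) else x a (y a)) =
            H626.pw (x j) (i + 1) (y j) + ∑ a ∈ Finset.range r, (if a = j then 0 else x a (y a)) := by
          rw [← Finset.add_sum_erase _ _ (Finset.mem_range.2 hj), if_pos rfl]
          congr 1
          rw [← Finset.add_sum_erase _ _ (Finset.mem_range.2 hj), if_pos rfl, zero_add]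
          refine Finset.sum_congr rfl fun a ha => ?_
          rw [if_neg (Finset.ne_of_mem_erase ha), if_neg (Finset.ne_of_mem_erase ha)]
        rw [h7, h6, ← Finset.sum_add_distrib]
        refine Finset.sum_congr rfl fun a _ => ?_
        by_cases haj : a = j
        · subst haj
          simp only [if_true, add_zero]
        · simp only [if_neg haj]
          rw [map_add, add_comm]
  filter_upwards [key i] with t ht z hz
  obtain ⟨y, hy, rfl⟩ := ht z hz
  refine ⟨y, fun a ha => ?_, Finset.sum_congr rfl fun a _ => ?_⟩
  · have h1 := hy a ha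
    by_cases haj : a = j
    · subst haj
      rw [Function.update_self]
      rwa [if_pos rfl] at h1
    · rw [Function.update_of_ne haj]
      rwa [if_neg haj] at h1
  · by_cases haj : a = j
    · subst haj
      rw [Function.update_self, if_pos rfl]
    · rw [Function.update_of_ne haj, if_neg haj]

include hx hg in
/-- **powers** -/
theorem ev_inB_pow {r : ℕ} (h : ∀ᶠ t in atTop, ∀ z ∈ gr t, InB x gr dg r t z) (i : ℕ → ℕ) :
    ∀ᶠ t in atTop, ∀ z ∈ gr t, InB (fun a => H626.pw (x a) (i a + 1)) gr
      (fun a => (i a + 1 : ℕ) * dg a) r t z := by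
  -- the operators with index `< m` are replaced by their powers
  have key : ∀ m ≤ r, ∀ᶠ t in atTop, ∀ z ∈ gr t,
      InB (fun a => if a < m then H626.pw (x a) (i a + 1) else x a) gr
        (fun a => if a < m then (i a + 1 : ℕ) * dg a else dg a) r t z := by
    intro m
    induction m with
    | zero =>
      intro _
      filter_upwards [h] with t ht z hz
      exact (inB_congr (fun b _ => (if_neg (by omega)).symm)
        (fun b _ => (if_neg (by omega)).symm)).1 (ht z hz)
    | succ m ih =>
      intro hm
      have hcomm : ∀ a b z, (if a < m then H626.pw (x a) (i a + 1) else x a)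
          ((if b < m then H626.pw (x b) (i b + 1) else x b) z) =
          (if b < m then H626.pw (x b) (i b + 1) else x b)
          ((if a < m then H626.pw (x a) (i a + 1) else x a) z) := by
        intro a b z
        have h2 : ∀ z, H626.pw (x a) (i a + 1) (x b z) = x b (H626.pw (x a) (i a + 1) z) :=
          pw_comm (hx a b) _
        have h3 : ∀ z, H626.pw (x b) (i b + 1) (x a z) = x a (H626.pw (x b) (i b + 1) z) :=
          pw_comm (hx b a) _
        split_ifs
        · exact pw_comm (fun z => (h3 z).symm) _ z
        · exact h2 z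
        · exact (h3 z).symm
        · exact hx a b z
      have h4 := ev_inB_one (j := m) (gr := gr) (by
        intro a k z hz
        split_ifs
        · exact pw_mem (hg a) _ k hz
        · exact hg a k z hz) (by omega) hcomm (ih (by omega)) (i m)
      filter_upwards [h4] with t ht z hz
      refine (inB_congr (fun b _ => ?_) fun b _ => ?_).1 (ht z hz)
      · rcases lt_trichotomy b m with hb | hb | hb
        · rw [Function.update_of_ne (by omega), if_pos hb, if_pos (by omega)]
        · subst hb
          rw [Function.update_self, if_neg (by omega), if_pos (by omega)]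
        · rw [Function.update_of_ne (by omega), if_neg (by omega), if_neg (by omega)]
      · rcases lt_trichotomy b m with hb | hb | hb
        · rw [Function.update_of_ne (by omega), if_pos hb, if_pos (by omega)]
        · subst hb
          rw [Function.update_self, if_neg (by omega), if_pos (by omega)]
        · rw [Function.update_of_ne (by omega), if_neg (by omega), if_neg (by omega)]
  filter_upwards [key r le_rfl] with t ht z hz
  exact (inB_congr (fun b hb => if_pos hb) fun b hb => if_pos hb).1 (ht z hz)

end Vale.Agent.P221.H377
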