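import Vale.Agent.P221.H377.Tw
import Vale.Agent.P221.Loc.Cov

/-!
# P221 (helper377): dimension shift

`CC` is a class of sparse objects with covers: for `X` in `CC` there is a triangle
`X₁ ⟶ P₀ ⟶ X ⟶` in `CC` such that `v_0, …, v_n` is a regular sequence on `[P⟦*⟧, P₀]`.

* `ex_of_van` : if `[P⟦t + s⟧, X ⊗ V] = 0` then the Koszul complex of the powers of `v_0, …, v_n` on
  `[P⟦*⟧, X]` is exact in homological degree `s` and internal degree `t`;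
* `exHigh_of_van` : if `[P⟦t⟧, X ⊗ V] = 0` for large `t`, then the Koszul complex of `v_0, …, v_n` on
  `[P⟦*⟧, X]` is exact in high degrees.
-/

open CategoryTheory MonoidalCategory OnePoint Limits Pretriangulated MonObj

set_option linter.unusedSectionVars false

noncomputable section

namespace Vale.Agent.P221.H377

open Vale.Agent.P251 Vale.Agent.P251.S Vale.Agent.P251.T Vale.Agent.P251.M
  Vale.Agent.P251.St Vale.Agent.P251.St.SHCat Vale.Agent.P257.St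
open Vale.Agent.P221.St
open Vale.Agent.P221.T (BPS sV KK GG HK SrcT OpAlg Lead)
open Vale.Agent.P221.H460 (OpX Ev)
open Vale.Agent.P221.H626 (InB IsReg Ex ExHigh SE KC KG Wd pw_succ_apply pw_comm pw_mem ex_zero_iff
  ex_of_reg ex_of_zero ex_gt exHigh_root mem_KG_zero mem_KG_succ pr_ext)
open Vale.Agent.P221.H543 (grA xo mapA)

section gen

universe u

variable {𝒯 : Type u} [Category.{0} 𝒯] [Preadditive 𝒯] [HasZeroObject 𝒯]
    [HasShift 𝒯 ℤ] [∀ n : ℤ, (shiftFunctor 𝒯 n).Additive] [Pretriangulated 𝒯] [IsTriangulated 𝒯]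
    [MonoidalCategory 𝒯] [SymmetricCategory 𝒯] [TensorTriangulated 𝒯] [MonoidalClosed 𝒯]
    [HasCoproducts.{0} 𝒯] [HasProducts.{0} 𝒯] [StableCat 𝒯] {p n : ℕ} [hp : Fact p.Prime]
    {P : 𝒯} {Sc : SrcT p n P} {ld : Lead p n} {O : OpAlg ld Sc.src} (OX : OpX O)

theorem mapA_xe {X Y : 𝒯} (f : X ⟶ Y) (e : ℕ → ℕ) (a : ℕ) (z : AA (Sc.sys X)) :
    mapA (Sc.map0 f) (xe OX X e a z) = xe OX Y e a (mapA (Sc.map0 f) z) := by
  unfold xe
  induction e a + 1 with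
  | zero => rfl
  | succ i ih => rw [pw_succ_apply, pw_succ_apply, H543.mapA_xo, ih]

theorem mapA_map0 {X Y : 𝒯} (f : X ⟶ Y) {k : ℤ} (a : P⟦k⟧ ⟶ X) :
    mapA (Sc.map0 f) (ofA (Sc.sys X) k a) = ofA (Sc.sys Y) k (a ≫ f) := by
  have h1 := H543.mapA_of (Sc.map0 f) k (show (Sc.sys X).A k from a)
  have h2 := Sc.map0_f f k a
  exact h1.trans (congrArg (ofA (Sc.sys Y) k) h2)

theorem xe_mem {X : 𝒯} (e : ℕ → ℕ) (a : ℕ) (k : ℤ) (z : AA (Sc.sys X)) (h : z ∈ grA (Sc.sys X) k) :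
    xe OX X e a z ∈ grA (Sc.sys X) (k + de p e a) :=
  pw_mem (fun k z hz => H543.xo_mem a k z hz) _ k h

theorem xo_comm' {X : 𝒯} (hX : HasEv O X) (a b : ℕ) (z : AA (Sc.sys X)) :
    xo OX (Sc.sys X) a (xo OX (Sc.sys X) b z) = xo OX (Sc.sys X) b (xo OX (Sc.sys X) a z) := by
  obtain ⟨M, _, _, ⟨Z⟩⟩ := hX
  exact H543.xo_comm Z a b z

theorem xe_comm {X : 𝒯} (hX : HasEv O X) (e : ℕ → ℕ) (a b : ℕ) (z : AA (Sc.sys X)) :
    xe OX X e a (xe OX X e b z) = xe OX X e b (xe OX X e a z) := by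
  refine pw_comm (fun z => ?_) _ z
  exact (pw_comm (fun z => xo_comm' OX hX b a z) _ z).symm

theorem de_nonneg (e : ℕ → ℕ) (a : ℕ) : 0 ≤ de p e a := by
  have h1 := Vale.Agent.P221.T.H746.sV_nonneg (p := p) a
  unfold de
  positivity

variable {D : ℤ → Prop} (hD : Deg p n D)

theorem kg_zero {g₀ : ℕ} (hD : Deg p g₀ D) {X : 𝒯} (hX : ∀ t, ¬ D t → ∀ a : P⟦t⟧ ⟶ X, a = 0) (e : ℕ → ℕ) (r : ℕ) :
    ∀ (s t : ℤ), ¬ D t → ∀ z ∈ KG (grA (Sc.sys X)) (de p e) r s t, z = 0 := by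
  induction r with
  | zero =>
    intro s t ht z hz
    by_cases hs : s = 0
    · subst hs
      obtain ⟨a, rfl⟩ := H543.exists_of_mem_grA (show z ∈ grA (Sc.sys X) t from hz)
      have h1 : a = 0 := hX t ht a
      rw [h1, map_zero]
      rfl
    · exact mem_KG_zero hs hz
  | succ r ih =>
    intro s t ht z hz
    obtain ⟨h1, h2⟩ := mem_KG_succ.1 hz
    exact pr_ext (ih s t ht _ h1) (ih _ _ (fun h => ht ((hD.sub_de e r t).1 h)) _ h2)

/-- the short exact sequence of a triangle of sparse objects -/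
theorem se_of_tri (h1D : ∀ t, D t → ¬ D (t + 1)) {X₁ P₀ X : 𝒯} {i : X₁ ⟶ P₀} {q : P₀ ⟶ X}
    {δ : X ⟶ X₁⟦(1 : ℤ)⟧} (H : Triangle.mk i q δ ∈ distTriang 𝒯)
    (hX₁ : ∀ t, ¬ D t → ∀ a : P⟦t⟧ ⟶ X₁, a = 0) (hX : ∀ t, ¬ D t → ∀ a : P⟦t⟧ ⟶ X, a = 0)
    (c : ℤ) : SE (mapA (Sc.map0 i)) (mapA (Sc.map0 q)) (grA (Sc.sys X₁)) (grA (Sc.sys P₀))
      (grA (Sc.sys X)) c where
  mem_f _ _ h := H543.mapA_mem _ h
  mem_g _ _ h := H543.mapA_mem _ h
  comp k _ z hz := by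
    obtain ⟨a, rfl⟩ := H543.exists_of_mem_grA hz
    change P⟦k⟧ ⟶ X₁ at a
    rw [mapA_map0, mapA_map0, Category.assoc, dist_zero₁₂ H, comp_zero]
    exact map_zero (ofA (Sc.sys X) k)
  inj k _ z hz h := by
    obtain ⟨a, rfl⟩ := H543.exists_of_mem_grA hz
    change P⟦k⟧ ⟶ X₁ at a
    rw [mapA_map0] at h
    have h1 : a ≫ i = 0 := H543.ofA_inj (Y := Sc.sys P₀) k
      (h.trans (map_zero (ofA (Sc.sys P₀) k)).symm)
    have h2 : a = 0 := by
      by_cases hk : D k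
      · exact exists_bdry H (add_comm 1 k) a h1 (hX _ (h1D k hk))
      · exact hX₁ k hk a
    rw [h2]
    exact map_zero (ofA (Sc.sys X₁) k)
  ex k _ z hz h := by
    obtain ⟨a, rfl⟩ := H543.exists_of_mem_grA hz
    change P⟦k⟧ ⟶ P₀ at a
    rw [mapA_map0] at h
    have h1 : a ≫ q = 0 := H543.ofA_inj (Y := Sc.sys X) k
      (h.trans (map_zero (ofA (Sc.sys X) k)).symm)
    obtain ⟨y, hy⟩ := dist_co₂ H a h1
    refine ⟨ofA (Sc.sys X₁) k y, H543.of_mem_grA _ _ _, ?_⟩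
    rw [mapA_map0, ← hy]
  sur k _ z hz := by
    obtain ⟨a, rfl⟩ := H543.exists_of_mem_grA hz
    change P⟦k⟧ ⟶ X at a
    by_cases hk : D k
    · obtain ⟨w, -, hw⟩ := exists_conn' H (show 1 + (k - 1) = k by ring) a
      obtain ⟨y, rfl⟩ := hw (hX₁ _ (fun h => h1D _ h (by rwa [sub_add_cancel])) w)
      exact ⟨ofA (Sc.sys P₀) k y, H543.of_mem_grA _ _ _, mapA_map0 q y⟩
    · refine ⟨0, AddSubgroup.zero_mem _, ?_⟩
      rw [map_zero, hX k hk a]
      exact (map_zero (ofA (Sc.sys X) k)).symm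

/-- a class of sparse objects with covers -/
structure CovCl (D : ℤ → Prop) (CC : 𝒯 → Prop) : Prop where
  ev : ∀ {X : 𝒯}, CC X → HasEv O X
  van : ∀ {X : 𝒯}, CC X → ∀ t, ¬ D t → ∀ a : P⟦t⟧ ⟶ X, a = 0
  cov : ∀ {X : 𝒯}, CC X → ∃ (X₁ P₀ : 𝒯) (i : X₁ ⟶ P₀) (q : P₀ ⟶ X) (δ : X ⟶ X₁⟦(1 : ℤ)⟧),
    Triangle.mk i q δ ∈ distTriang 𝒯 ∧ CC X₁ ∧ CC P₀ ∧
      IsReg (xo OX (Sc.sys P₀)) (grA (Sc.sys P₀)) (Vale.Agent.P221.T.sV p) (n + 1)

variable {OX} {CC : 𝒯 → Prop}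

include hD in
/-- **dimension shift** -/
theorem ex_of_van (h1D : ∀ t, D t → ¬ D (t + 1)) (hC : CovCl OX D CC) {V : 𝒯} {i₀ : 𝟙_ 𝒯 ⟶ V}
    {e : ℕ → ℕ} (hS : ∀ X : 𝒯, (∀ t, ¬ D t → ∀ a : P⟦t⟧ ⟶ X, a = 0) → HasEv O X →
      Sp OX D (inc i₀ X) e (n + 1)) (s : ℕ) : ∀ {X : 𝒯}, CC X → ∀ {t t' : ℤ}, t + s = t' →
      (∀ z : P⟦t'⟧ ⟶ X ⊗ V, z = 0) → Ex (xe OX X e) (grA (Sc.sys X)) (de p e) (n + 1) s t := by
  induction s with
  | zero =>
    intro X hX t t' htt hz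
    obtain rfl : t = t' := by simpa using htt
    refine ex_zero_iff.2 fun z hz' => ?_
    obtain ⟨a, rfl⟩ := H543.exists_of_mem_grA hz'
    exact ((hS X (hC.van hX) (hC.ev hX)).ker le_rfl t a).1 (hz _)
  | succ s ih =>
    intro X hX t t' htt hz
    by_cases ht : D t
    · obtain ⟨X₁, P₀, i, q, δ, H, hX₁, hP₀, hR⟩ := hC.cov hX
      have hse := se_of_tri (Sc := Sc) h1D H (hC.van hX₁) (hC.van hX)
        (t - Wd (de p e) (n + 1))
      have hS₁ := hS X₁ (hC.van hX₁) (hC.ev hX₁)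
      have hS₀ := hS P₀ (hC.van hP₀) (hC.ev hP₀)
      have hR' : IsReg (xe OX P₀ e) (grA (Sc.sys P₀)) (de p e) (n + 1) :=
        isReg_pow (fun a b z => xo_comm' OX (hC.ev hP₀) a b z)
          (fun a k z hz => H543.xo_mem a k z hz) hR
      have hE₀ : ∀ s : ℤ, 1 ≤ s → Ex (xe OX P₀ e) (grA (Sc.sys P₀)) (de p e) (n + 1) s t :=
        fun s hs => ex_of_reg (fun a b z => xe_comm OX (hC.ev hP₀) e a b z)
          (fun a k z hz => xe_mem OX e a k z hz) hR' hs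
      -- the boundary map of the triangle `⊗ V`
      have hTV := dist_whiskerRight V H
      obtain ⟨δ', hTV⟩ : ∃ δ', Triangle.mk (i ▷ V) (q ▷ V) δ' ∈ distTriang 𝒯 := ⟨_, hTV⟩
      have hb : ∀ w : P⟦t + (s : ℤ)⟧ ⟶ X₁ ⊗ V, w ≫ (i ▷ V) = 0 → w = 0 := fun w hw => by
        refine exists_bdry hTV (k := t') (by rw [← htt]; push_cast; ring) w hw hz
      have hx' := fun a b z => xe_comm OX (hC.ev hP₀) e a b z
      cases s with
      | zero =>
        have h0 := hse.ex_one (x := xe OX X₁ e) (x' := xe OX P₀ e) (x'' := xe OX X e)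
          (dg := de p e) (r := n + 1) (t := t) (fun a => de_nonneg e a)
          (fun a k z hz => xe_mem OX e a k z hz) (fun a k z hz => xe_mem OX e a k z hz)
          (fun a z => mapA_xe OX i e a z) (fun a z => mapA_xe OX q e a z) hx'
          (by rw [sub_add_cancel]) (hE₀ 1 le_rfl) (fun z hz' hI => by
            obtain ⟨a, rfl⟩ := H543.exists_of_mem_grA hz'
            change P⟦t⟧ ⟶ X₁ at a
            rw [mapA_map0] at hI
            have h1 := (hS₀.ker le_rfl t (a ≫ i)).2 hI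
            rw [Category.assoc, ← inc_nat, ← Category.assoc] at h1
            refine (hS₁.ker le_rfl t a).1 ?_
            have h2 : t + ((0 : ℕ) : ℤ) = t := by push_cast; ring
            rw [h2] at hb
            exact hb _ h1)
        exact h0
      | succ s =>
        by_cases hs : s + 1 ≤ n
        · have h0 := hse.ex_right (x := xe OX X₁ e) (x' := xe OX P₀ e) (x'' := xe OX X e)
            (dg := de p e) (r := n + 1) (t := t) (s := ((s + 1 : ℕ) : ℤ)) (fun a => de_nonneg e a)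
            (fun a k z hz => xe_mem OX e a k z hz) (fun a k z hz => xe_mem OX e a k z hz)
            (fun a z => mapA_xe OX i e a z) (fun a z => mapA_xe OX q e a z) hx'
            (by rw [sub_add_cancel]) (hE₀ _ (by push_cast; omega)) (ih hX₁ rfl fun w => by
              refine hb w (hS₀.cov le_rfl hR' _ ?_ _)
              exact hD.gap t ht _ (by push_cast; omega) (by exact_mod_cast hs))
          have h2 : (((s + 1 : ℕ) : ℤ)) + 1 = ((s + 1 + 1 : ℕ) : ℤ) := by push_cast; ring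
          rw [h2] at h0
          exact h0
        · exact ex_gt (by push_cast; omega)
    · exact ex_of_zero (kg_zero hD (hC.van hX) e (n + 1) _ t ht)

include hD in
/-- **Koszul exactness in high degrees** -/
theorem exHigh_of_van (h1D : ∀ t, D t → ¬ D (t + 1)) (hC : CovCl OX D CC) {V : 𝒯}
    {i₀ : 𝟙_ 𝒯 ⟶ V} {e : ℕ → ℕ} (hS : ∀ X : 𝒯, (∀ t, ¬ D t → ∀ a : P⟦t⟧ ⟶ X, a = 0) →
      HasEv O X → Sp OX D (inc i₀ X) e (n + 1)) {X : 𝒯} (hX : CC X) {T₀ : ℤ}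
    (hz : ∀ t, T₀ ≤ t → ∀ z : P⟦t⟧ ⟶ X ⊗ V, z = 0) :
    ExHigh (xo OX (Sc.sys X)) (grA (Sc.sys X)) (Vale.Agent.P221.T.sV p) (n + 1) := by
  refine exHigh_root (i := e) (fun a b z => xo_comm' OX (hC.ev hX) a b z)
    (fun a k z hz => H543.xo_mem a k z hz) ⟨T₀, fun t ht s => ?_⟩
  by_cases hs : s < 0
  · exact H626.ex_neg hs
  · lift s to ℕ using not_lt.1 hs
    exact ex_of_van hD h1D hC hS s hX rfl (fun z => hz _ (by omega) z)

/-- no maps to objects without homotopy in high degrees -/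
theorem van_of_bdd {m : ℤ} (hP : BigCell 𝒯 m P) {Y : 𝒯} {N : ℤ}
    (hY : ∀ k : ℤ, N < |k| → ∀ y : (𝟙_ 𝒯)⟦k⟧ ⟶ Y, y = 0) :
    ∀ t, |N| + 1 - m ≤ t → ∀ z : P⟦t⟧ ⟶ Y, z = 0 := fun t ht z => by
  refine Vale.Agent.P221.Loc.hom_zero (hP.shift t (m + t) rfl) (fun j hj y => hY j ?_ y) z
  have h1 := le_abs_self N
  have h2 := le_abs_self j
  omega

end gen

end Vale.Agent.P221.H377
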