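import Vale.Agent.P221.H377.Sp

/-!
# P221 (helper377): the state `Sp` for generalised Moore spectra

* `mulLin` : the operations of the powers of `v_j`, with linearity;
* `sp_ind` : for a generalised Moore spectrum `V` of type `j` there are `i₀ : 𝟙 ⟶ V` and exponents `e`
  with `Sp OX D (inc i₀ X) e j` for all sparse `X`.
-/

open CategoryTheory MonoidalCategory OnePoint Limits Pretriangulated MonObj

set_option linter.unusedSectionVars false

noncomputable section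

namespace Vale.Agent.P221.H377

open Vale.Agent.P251 Vale.Agent.P251.S Vale.Agent.P251.T Vale.Agent.P251.M Vale.Agent.P251.F
  Vale.Agent.P251.I EvenSpheres Vale.Agent.P257.H702 Vale.Agent.P257.H80 Vale.Agent.P251.Q
  Vale.Agent.P251.St Vale.Agent.P251.St.SHCat Vale.Agent.P257.St Vale.Agent.P221.H746
  Vale.Agent.P093.N0
open Vale.Agent.P221.St
open Vale.Agent.P221.T (BPS sV KK GG HK SrcT OpAlg Lead PiM hat gc unit_hat zr IsLin fm)
open Vale.Agent.P221.H460 (OpX Ev Reg)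
open Vale.Agent.P221.H509 (VPhi)

section has

universe u

variable {𝒯 : Type u} [Category.{0} 𝒯] [Preadditive 𝒯] [HasZeroObject 𝒯]
    [HasShift 𝒯 ℤ] [∀ n : ℤ, (shiftFunctor 𝒯 n).Additive] [Pretriangulated 𝒯] [IsTriangulated 𝒯]
    [MonoidalCategory 𝒯] [SymmetricCategory 𝒯] [TensorTriangulated 𝒯] [MonoidalClosed 𝒯]
    [HasCoproducts.{0} 𝒯] [HasProducts.{0} 𝒯] [StableCat 𝒯] {p n : ℕ} [hp : Fact p.Prime]
    {P : 𝒯} {Sc : SrcT p n P} {ld : Lead p n}

/-- the system of `X` has coordinates -/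
def HasEv (O : OpAlg ld Sc.src) (X : 𝒯) : Prop :=
  ∃ (M : Type) (_ : AddCommGroup M) (_ : Module (KK p) M), Nonempty (Ev O (Sc.sys X) M)

end has

variable {T : SHCat} {S : Susp T} {p : ℕ} [hp : Fact p.Prime] {R : RingSp T} {φ : GHom S p R}
  {D₀ : MUData T.C} {b₀ : D₀.R ⟶ R.obj} [IsMonHom b₀]
  {Φ : MvPolynomial ℕ ℤ →+* HRing (stdEven T.C) R.obj} {Pc W₀ : T.C}
  (b : BPS p R.obj Pc W₀)

variable {n : ℕ} {ld : Lead p n} {Sc : SrcT p n Pc} {O : OpAlg ld Sc.src}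

/-- the operations of the powers of `v_j` -/
def MulLin (b : BPS p R.obj Pc W₀) (φ : GHom S p R) (OX : OpX O) : Prop :=
  ∀ (k j i : ℕ) (w : VPoly p k), (w : MvPolynomial ℕ ℤ) = vEl p j ^ i →
    ∃ g : Pc⟦2 * (k : ℤ)⟧ ⟶ Pc, IsLin b.MP b.MP g ∧
      Sc.u⟦2 * (k : ℤ)⟧' ≫ g = wcl (φ.val w) ≫ b.c ∧
      ∀ z, O.T (2 * (k : ℤ)) (toE Sc g) z = OX.eta (Vale.Agent.P221.T.vK p j) ^ i * z

theorem mulLin (hb : IsBPMon p b₀) (hΦ : lawOf b₀ = (haz p).map Φ) (hv : VPhi b Φ)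
    (hφ : ∀ (m : ℕ) (x : VPoly p m),
      Φ x = HRing.of (stdEven T.C) R.obj m ((isoE S m).inv ≫ φ m x))
    (hu : Sc.u = η[R.obj] ≫ b.c) (hT : ∀ (m : ℤ) (g : Pc⟦m⟧ ⟶ Pc), O.T m g = b.T g)
    (OX : OpX O) : MulLin b φ OX := by
  intro k j i w hw
  have A1 := b.specA1
  have B2 := Vale.Agent.P221.T.H609.specB2 b A1 (Vale.Agent.P221.T.H598.specB1 b A1)
  have h1 : MvPolynomial.map (Int.castRingHom ℤ_[p]) (w : MvPolynomial ℕ ℤ) =
      Vale.Agent.P221.T.vK p j ^ i := by rw [hw, map_pow, map_vEl]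
  have hf : HK p (2 * (k : ℤ)) (Vale.Agent.P221.T.vK p j ^ i) := by
    have h2 := (show MvPolynomial.IsWeightedHomogeneous (fun i => Vale.Agent.P221.T.sV p (i + 1))
      (Vale.Agent.P221.T.vK p j) (Vale.Agent.P221.T.sV p j) from HK_vK j).pow i
    have h3 : i • Vale.Agent.P221.T.sV p j = 2 * (k : ℤ) := by
      rw [degree_sV w hw, nsmul_eq_mul]
    rw [h3] at h2
    exact h2
  refine ⟨b.mult (2 * (k : ℤ)) (Vale.Agent.P221.T.vK p j ^ i), ?_, ?_, fun z => ?_⟩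
  · refine b.isLin_of_c b.cP ?_
    rw [Vale.Agent.P221.T.H598.c_mult]
    exact Vale.Agent.P221.T.hat_isLin _ _
  · rw [hu, Functor.map_comp, Category.assoc, Vale.Agent.P221.T.H598.c_mult, unit_hat, ← h1]
    exact cls_eq b hb hΦ hv hφ w (by rw [h1]; exact hf)
  · have h4 : O.T (2 * (k : ℤ)) (toE Sc (b.mult (2 * (k : ℤ)) (Vale.Agent.P221.T.vK p j ^ i))) =
        b.T (b.mult (2 * (k : ℤ)) (Vale.Agent.P221.T.vK p j ^ i)) := hT _ _
    rw [h4, Vale.Agent.P221.T.H598.T_mult b A1 _ _ hf, map_pow,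
      eta_eq b A1 B2 hT OX (HK_vK j)]

variable {b} {OX : OpX O} {D : ℤ → Prop} (hD : Deg p n D)

theorem inc_comp {V W X : T.C} (i₀ : 𝟙_ T.C ⟶ V) (g : V ⟶ W) :
    inc i₀ X ≫ (X ◁ g) = inc (i₀ ≫ g) X := by
  unfold inc
  rw [Category.assoc, MonoidalCategory.whiskerLeft_comp]

theorem gc_pw' {A X : T.C} {a k : ℤ} (h : (0 : ℤ) + k = k) (y : A⟦k⟧ ⟶ X) :
    gc h y (pw X a) = a • y := by
  rw [pw, Vale.Agent.P221.T.gc_zero_shift, Preadditive.comp_zsmul, Category.comp_id]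

include hD in
/-- **the induction** -/
theorem sp_ind (hu : Sc.u = η[R.obj] ≫ b.c) (hmul : MulLin b φ OX) {j : ℕ} {V : T.C}
    (hV : IsGenMoore φ j V) : H395.PComplete p (Pc ⊗ V) ∧
      ∃ (i₀ : 𝟙_ T.C ⟶ V) (e : ℕ → ℕ), ∀ X : T.C,
        (∀ t, ¬ D t → ∀ a : Pc⟦t⟧ ⟶ X, a = 0) → HasEv O X → Sp OX D (inc i₀ X) e j := by
  induction hV with
  | @base i V g h hi hT =>
    obtain ⟨i, rfl⟩ : ∃ i', i = i' + 1 := ⟨i - 1, by omega⟩
    refine ⟨?_, g, upd (fun _ => 0) 0 i, fun X hX ⟨M, _, _, ⟨Z⟩⟩ => ?_⟩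
    · obtain ⟨δ, hδ⟩ := base_tri hT Pc
      exact H395.PComplete.ext₃ _ hδ (b.cP.shift 0) b.cP
    · obtain ⟨δ, hδ⟩ := base_tri hT X
      have h1 := (Sp.zero (OX := OX) hX (fun _ => 0)).step hD hX (i := i) (d := 0)
        (by simp [Vale.Agent.P221.T.sV]) hδ (fun {k k'} h' a => by
          obtain rfl : k = k' := by omega
          refine ⟨(p ^ (i + 1) : ℕ) • a, ?_, ?_⟩
          · rw [Category.comp_id, Category.comp_id, gc_pw', ← natCast_zsmul]
            push_cast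
            rfl
          · have h0 : Vale.Agent.P221.T.sV p 0 = 0 := by simp [Vale.Agent.P221.T.sV]
            refine (pw_eq_pow (xx OX (Sc.sys X) 0) (upd (fun _ => 0) 0 i 0 + 1) _).trans ?_
            rw [upd_self]
            refine xx_pow_of Z OX 0 (i + 1) (by rw [h0]; ring)
              (show (Sc.sys X).A k from a) (a' := (p ^ (i + 1) : ℕ) • (show (Sc.sys X).A k from a))
              fun z => ?_
            have h1 : OX.eta (Vale.Agent.P221.T.vK p 0) = ((p : ℕ) : GG p) := map_natCast OX.eta p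
            rw [map_nsmul, LinearMap.smul_apply, h1, ← Nat.cast_pow, ← nsmul_eq_mul, map_nsmul])
      rw [Category.id_comp] at h1
      exact h1
  | @step j k i V W f g h w hV hi hw hf hT ih =>
    obtain ⟨i, rfl⟩ : ∃ i', i = i' + 1 := ⟨i - 1, by omega⟩
    obtain ⟨hPV, i₀, e, ih⟩ := ih
    refine ⟨?_, i₀ ≫ g, upd e j i, fun X hX hE => ?_⟩
    · obtain ⟨δ, hδ⟩ := self_tri hT Pc
      exact H395.PComplete.ext₃ _ hδ (hPV.shift _) hPV
    · obtain ⟨M, _, _, ⟨Z⟩⟩ := id hE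
      obtain ⟨δ, hδ⟩ := self_tri hT X
      obtain ⟨q, hq1, hq2, hq3⟩ := hmul k j (i + 1) w hw
      rw [hu] at hq2
      have hq4 := inc_mult b hPV i₀ (induces_unit hf i₀) hq1 hq2
      have h1 := (ih X hX hE).step hD hX (degree_sV w hw) hδ (fun {k₁ k₂} h' a =>
        ⟨gc (show k₁ + 2 * (k : ℤ) = k₂ by omega) q a,
          gc_inc_fm i₀ (signProp_two_mul (T := T.C) k) hq4 h' _ a,
          xe_of OX Z (by rw [de, upd_self]; exact degree_sV w hw)
            (by rw [upd_self]; exact hq3) _ a⟩)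
      rw [inc_comp] at h1
      exact h1

end Vale.Agent.P221.H377
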