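import Vale.Agent.P221.H377.TwrG
import Vale.Agent.P221.H626.HZ
import Vale.Agent.P221.H626.High
import Vale.Agent.P221.H626.CovCl
import Vale.Agent.P221.H626.EnvSt

/-!
# P221 (helper377): Koszul exactness in high degrees, from a tower

`exHigh_of_tower` : `X` is `p`-complete, bounded below, with finitely generated homotopy concentrated
in `D`; `V_0 = S, V_1, …, V_{n+1}` the stages of a generalised Moore spectrum with `π_* (X ⊗ V_{n+1})`
bounded above, `π_* (X ⊗ V_j)`, `j ≤ m`, concentrated in `D` in high degrees; `D` is periodic modulo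
`2 p - 2`, consists of even numbers and has gaps of length `g ≥ 1`, `n ≤ m + g + 1`. Then the Koszul
complex of `v_0, …, v_n` on `[P, X]` is exact in high degrees.
-/

open CategoryTheory MonoidalCategory OnePoint Limits Pretriangulated MonObj Filter

set_option linter.unusedSectionVars false

noncomputable section

namespace Vale.Agent.P221.H377

open Vale.Agent.P251 Vale.Agent.P251.S Vale.Agent.P251.T Vale.Agent.P251.M Vale.Agent.P251.F
  Vale.Agent.P251.I EvenSpheres Vale.Agent.P257.H702 Vale.Agent.P257.H80 Vale.Agent.P251.Q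
  Vale.Agent.P251.St Vale.Agent.P251.St.SHCat Vale.Agent.P257.St Vale.Agent.P221.H746
  Vale.Agent.P093.N0
open Vale.Agent.P221.St
open Vale.Agent.P221.T (BPS sV KK GG HK SrcT Src Sys OpAlg Lead FinZp)
open Vale.Agent.P221.H460 (OpX Ev Reg Nm)
open Vale.Agent.P221.H543 (Reg0 finite_quot p_mem_Nm grA xo cpl_of_pc)
open Vale.Agent.P221.H626 (ExHigh EnvX CS QSt SpPi ev_surj exists_Ev van_high inB_of_reg0 covCl)

section abs

variable {p : ℕ} [hp : Fact p.Prime] {n : ℕ} {ld : Lead p n} {S : Src p n} {O : OpAlg ld S}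
  {X : OpX O} {Y : Sys S} {M : Type} [AddCommGroup M] [Module (KK p) M] (Z : Ev O Y M)

/-- `Reg0` from generation in large degrees -/
theorem reg0_of_top (hs : ∀ k, Function.Surjective (Y.ev k))
    (hbdd : ∃ m₀ : ℤ, ∀ k < m₀, ∀ x : Y.Pi k, x = 0)
    (hcpl : ∀ (k : ℤ) (z : ℕ → Y.Pi k), (∀ i, z i = p • z (i + 1)) → ∀ i, z i = 0)
    (hfin : ∀ k, FinZp p (Y.Pi k))
    (hK : ∀ᶠ t : ℤ in atTop, ∀ a : Y.A t, ofA Y t a ∈ W (D0 Y) (xx X Y) (fun _ => 1) (n + 1)) :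
    Reg0 Z X where
  surj := hs
  wd m _ k a ha := wd Z X hs m k a ha
  bdd := hbdd
  fin k := finite_quot (hfin k) _ fun x => p_mem_Nm Z hs x (by omega)
  fin' := by
    obtain ⟨t₀, ht₀⟩ := eventually_atTop.1 hK
    refine ⟨t₀, fun k hk x => ?_⟩
    obtain ⟨a, rfl⟩ := hs k x
    exact (mem_W_iff Z X).1 (ht₀ k hk.le a)
  cpl := hcpl

end abs

section pc

universe u

variable {𝒯 : Type u} [Category.{0} 𝒯] [Preadditive 𝒯] [HasZeroObject 𝒯]
    [HasShift 𝒯 ℤ] [∀ n : ℤ, (shiftFunctor 𝒯 n).Additive] [Pretriangulated 𝒯] [IsTriangulated 𝒯]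
    [MonoidalCategory 𝒯] [SymmetricCategory 𝒯] [TensorTriangulated 𝒯] [MonoidalClosed 𝒯]
    [HasCoproducts.{0} 𝒯] [HasProducts.{0} 𝒯] [StableCat 𝒯] {p n : ℕ} [hp : Fact p.Prime]
    {P : 𝒯} {Sc : SrcT p n P} {ld : Lead p n} {O : OpAlg ld Sc.src} {OX : OpX O}

/-- completeness of the stages -/
theorem Twr.pc {e : ℕ → ℕ} {L : ℕ → Lv 𝒯} {N : ℕ} (hT : Twr OX e L N) {X : 𝒯}
    (hX : H395.PComplete p X) : ∀ j ≤ N, H395.PComplete p (X ⊗ (L j).V) := by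
  intro j
  induction j with
  | zero =>
    intro _
    have := hT.iso X
    exact hX.of_iso (asIso (inc (L 0).i X))
  | succ j ih =>
    intro hj
    obtain ⟨d, g, -, -, h⟩ := hT.step j (by omega)
    obtain ⟨F, δ, H, -⟩ := h X
    exact H395.PComplete.ext₃ _ H ((ih (by omega)).shift d) (ih (by omega))

end pc

variable {T : SHCat} {S : Susp T} {p n : ℕ} [hp : Fact p.Prime] {R : RingSp T} {φ : GHom S p R}
  {B : T.C}

/-- **Koszul exactness in high degrees** -/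
theorem exHigh_of_tower (E : EnvX S p n φ B) {D : ℤ → Prop} {g m : ℕ} (hD : Deg p g D)
    (hg : 1 ≤ g) (hev : ∀ k, D k → (2 : ℤ) ∣ k) (hn : n ≤ m + g + 1) {X : T.C}
    (hX : CS p D X) (hfin : ∀ k : ℤ, FinZp p ((𝟙_ T.C)⟦k⟧ ⟶ X))
    (hF : ∀ (j : ℕ) (W : T.C), IsGenMoore φ j W → ∀ t : ℤ, Finite ((𝟙_ T.C)⟦t⟧ ⟶ X ⊗ W))
    {V : T.C} (hV : STw φ (fun j W => j ≤ m → ∀ᶠ t : ℤ in atTop, ¬ D t →
      ∀ z : (𝟙_ T.C)⟦t⟧ ⟶ X ⊗ W, z = 0) (n + 1) V)
    (hb : ∀ᶠ t : ℤ in atTop, ∀ z : (𝟙_ T.C)⟦t⟧ ⟶ X ⊗ V, z = 0) :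
    ExHigh (xo E.OX (E.Sc.sys X)) (grA (E.Sc.sys X)) (Vale.Agent.P221.T.sV p) (n + 1) := by
  have := E.mon
  have hQ : QSt p D := fun k j => by
    rw [mul_comm]
    exact hD.per k j
  obtain ⟨-, L, e, hT, rfl, hL, hG⟩ := twr_of_stw E.hu E.hmul hV
  have hC := covCl E.β E.β.specA2 E.O E.hu E.hT E.OX E.hD E.hA E.hb hQ hev (𝒯 := T.C)
  have hE := hC.ev hX
  have hpi : ∀ j ≤ m, j ≤ n + 1 → Van (𝟙_ T.C) D 0 (L j) X := fun j hj hj' => by
    rcases Nat.lt_or_ge j (n + 1) with h | h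
    · exact Van.of_con (hL j h hj)
    · obtain rfl : j = n + 1 := by omega
      exact Van.of_con (hb.mono fun t ht _ => ht)
  -- `[P, X ⊗ V_j]`
  have hP : ∀ (A : ℤ → Prop), QSt p A → ∀ j ≤ n + 1, (∀ᶠ t : ℤ in atTop, ¬ A t →
      ∀ z : (𝟙_ T.C)⟦t⟧ ⟶ X ⊗ (L j).V, z = 0) → ∀ᶠ t : ℤ in atTop, ¬ A t →
      ∀ z : E.Pc⟦t⟧ ⟶ X ⊗ (L j).V, z = 0 := by
    intro A hA j hj h
    obtain ⟨c, hc⟩ := eventually_atTop.1 h
    filter_upwards [eventually_ge_atTop c] with t ht hAt z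
    exact van_high E.β E.hD E.hb hA (hT.pc hX.pc j hj) (fun k hk hAk y => hc k hk hAk y) ht hAt z
  have hcl : Cl n E.Pc D L (CS p D) m X := ⟨hX, fun j hj hj' =>
    Van.of_con (hP D hQ j hj' (hpi j hj hj').con)⟩
  have hs := ev_surj E.β E.hu E.hD E.hb (hX.ee hev)
  obtain ⟨M, _, _, ⟨Z⟩⟩ := id hE
  have h1 := w_top hT hD hg hE hs hX.sp hpi hn (fun h t => hF n _ (hG n h (by omega)) t) hb
  have h2 := reg0_of_top Z hs hX.bb (cpl_of_pc hX.pc) hfin h1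
  exact exHigh_weak hT hD hg hC hn hcl ((hP (fun _ => False) (fun _ _ => Iff.rfl) (n + 1) le_rfl
    (hb.mono fun t ht _ => ht)).mono fun t ht => ht id) (inB_of_reg0 h2)

end Vale.Agent.P221.H377
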