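import Vale.Agent.P221.H377.Shift

/-!
# P221 (helper377): Koszul exactness in high degrees for sparse objects

`exHigh_of_genMoore` : for `X` in a class of sparse objects with covers and a generalised Moore
spectrum `V` of type `n + 1` with `π_* (X ⊗ V)` finite, the Koszul complex of `v_0, …, v_n` on
`[P⟦*⟧, X]` is exact in high degrees.
-/

open CategoryTheory MonoidalCategory OnePoint Limits Pretriangulated MonObj

set_option linter.unusedSectionVars false

noncomputable section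

namespace Vale.Agent.P221.H377

open Vale.Agent.P251 Vale.Agent.P251.S Vale.Agent.P251.T Vale.Agent.P251.M
  Vale.Agent.P251.St Vale.Agent.P251.St.SHCat Vale.Agent.P257.St
open Vale.Agent.P221.St
open Vale.Agent.P221.T (BPS KK GG HK SrcT OpAlg Lead)
open Vale.Agent.P221.H460 (OpX Ev)
open Vale.Agent.P221.H626 (ExHigh)
open Vale.Agent.P221.H543 (grA xo)

variable {T : SHCat} {S : Susp T} {p : ℕ} [hp : Fact p.Prime] {R : RingSp T} {φ : GHom S p R}
  {Pc W₀ : T.C} {b : BPS p R.obj Pc W₀} {n : ℕ} {ld : Lead p n} {Sc : SrcT p n Pc}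
  {O : OpAlg ld Sc.src} {OX : OpX O} {D : ℤ → Prop} (hD : Deg p n D)
  (h1D : ∀ t, D t → ¬ D (t + 1)) {CC : T.C → Prop}

include hD h1D in
/-- **Koszul exactness in high degrees** -/
theorem exHigh_of_genMoore (hu : Sc.u = η[R.obj] ≫ b.c) (hmul : MulLin b φ OX)
    (hC : CovCl OX D CC) {m : ℤ} (hP : BigCell T.C m Pc) {V : T.C}
    (hV : IsGenMoore φ (n + 1) V) {X : T.C} (hX : CC X) {N : ℤ}
    (hN : ∀ k : ℤ, N < |k| → ∀ y : (𝟙_ T.C)⟦k⟧ ⟶ X ⊗ V, y = 0) :
    ExHigh (xo OX (Sc.sys X)) (grA (Sc.sys X)) (Vale.Agent.P221.T.sV p) (n + 1) := by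
  obtain ⟨-, i₀, e, hS⟩ := sp_ind hD hu hmul hV
  exact exHigh_of_van hD h1D hC hS hX (van_of_bdd hP hN)

end Vale.Agent.P221.H377
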