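import Vale.Agent.P221.H626.Kos

/-!
# P221 (helper377): powers of regular sequences

* `isReg_pow` : if `x 0, x 1, …` is a regular sequence, so is `x 0 ^ e 0, x 1 ^ e 1, …`.
-/

namespace Vale.Agent.P221.H377

open Vale.Agent.P221.H626

variable {F : Type*} [AddCommGroup F] {x : ℕ → F →+ F} {gr : ℤ → AddSubgroup F} {dg : ℕ → ℤ}

theorem kmap_id {r : ℕ} (z : KC F r) : kmap (AddMonoidHom.id F) r z = z := by
  induction r with
  | zero => rfl
  | succ r ih => exact pr_ext (ih _) (ih _)

section pw

variable {y : F →+ F} {e : ℤ} (hy : ∀ a z, x a (y z) = y (x a z))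
  (hye : ∀ k, ∀ z ∈ gr k, y z ∈ gr (k + e))

include hy hye in
theorem injH_pow {r : ℕ} {s : ℤ} (h : ∀ t, InjH x gr dg y e r s t) (i : ℕ) (t : ℤ) :
    InjH x gr dg (pw y i) (i * e) r s t := by
  induction i with
  | zero =>
    intro z hz hd ⟨u, hu, hu'⟩
    refine ⟨u, ?_, hu'.trans (kmap_id z)⟩
    have h1 : t + ((0 : ℕ) : ℤ) * e = t := by push_cast; ring
    rwa [h1] at hu
  | succ i ih =>
    intro z hz hd ⟨u, hu, hu'⟩
    rw [kmap_pw_succ] at hu'
    have h2 : t + ((i + 1 : ℕ) : ℤ) * e = t + i * e + e := by push_cast; ring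
    rw [h2] at hu
    exact ih z hz hd (h (t + i * e) _ (kmap_mem (fun k z hz => pw_mem hye i k hz) hz) (by
      rw [kd_pw hy, hd, map_zero]) ⟨u, hu, hu'⟩)

include hy hye in
theorem surH_pow {r : ℕ} {s : ℤ} (h : ∀ t, SurH x gr dg y e r s t) (i : ℕ) (t : ℤ) :
    SurH x gr dg (pw y i) (i * e) r s t := by
  induction i with
  | zero =>
    intro z hz hd
    have h1 : t + ((0 : ℕ) : ℤ) * e = t := by push_cast; ring
    rw [h1] at hz ⊢
    refine ⟨z, hz, hd, 0, AddSubgroup.zero_mem _, ?_⟩
    rw [map_zero, add_zero]
    exact (kmap_id z).symm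
  | succ i ih =>
    intro z hz hd
    have h2 : t + ((i + 1 : ℕ) : ℤ) * e = t + i * e + e := by push_cast; ring
    rw [h2] at hz ⊢
    obtain ⟨w, hw, hwd, u, hu, rfl⟩ := h (t + i * e) z hz hd
    obtain ⟨w', hw', hwd', u', hu', rfl⟩ := ih w hw hwd
    refine ⟨w', hw', hwd', kmap y r u' + u, AddSubgroup.add_mem _ (kmap_mem hye hu') hu, ?_⟩
    rw [map_add, map_add, kmap_pw_succ, ← kmap_kd (x := x) (x' := x) (f := y)
      (fun a z => (hy a z).symm), add_assoc]

end pw

/-- one power -/
theorem ex_pow_one {i : ℕ} (k : ℕ) : ∀ (j r : ℕ) (_ : j + k + 1 = r) (x : ℕ → F →+ F)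
    (dg : ℕ → ℤ) (_ : ∀ a b z, x a (x b z) = x b (x a z))
    (_ : ∀ a k, ∀ z ∈ gr k, x a z ∈ gr (k + dg a)),
    (∀ s, 1 ≤ s → ∀ t, Ex x gr dg r s t) → ∀ s, 1 ≤ s → ∀ t,
    Ex (Function.update x j (pw (x j) (i + 1))) gr
      (Function.update dg j ((i + 1 : ℕ) * dg j)) r s t := by
  induction k with
  | zero =>
    intro j r hr x dg hx hg hE s hs t
    have hr' : r = j + 1 := by omega
    subst hr'
    have hxx : ∀ b < j, Function.update x j (pw (x j) (i + 1)) b = x b := fun b hb =>
      Function.update_of_ne (by omega) _ _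
    have hdd : ∀ b < j, Function.update dg j ((i + 1 : ℕ) * dg j) b = dg b := fun b hb =>
      Function.update_of_ne (by omega) _ _
    have hcomm : ∀ a b z, Function.update x j (pw (x j) (i + 1)) a
        (Function.update x j (pw (x j) (i + 1)) b z) =
        Function.update x j (pw (x j) (i + 1)) b
          (Function.update x j (pw (x j) (i + 1)) a z) := by
      intro a b z
      by_cases ha : a = j
      · by_cases hb : b = j
        · rw [ha, hb]
        · subst ha
          rw [Function.update_self, Function.update_of_ne hb]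
          exact pw_comm (fun z => hx a b z) _ z
      · by_cases hb : b = j
        · subst hb
          rw [Function.update_self, Function.update_of_ne ha]
          exact (pw_comm (fun z => hx b a z) _ z).symm
        · rw [Function.update_of_ne ha, Function.update_of_ne hb]
          exact hx a b z
    have hgg : ∀ a k, ∀ z ∈ gr k, Function.update x j (pw (x j) (i + 1)) a z ∈
        gr (k + Function.update dg j ((i + 1 : ℕ) * dg j) a) := by
      intro a k z hz
      by_cases ha : a = j
      · subst ha
        rw [Function.update_self, Function.update_self]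
        exact pw_mem (hg a) _ k hz
      · rw [Function.update_of_ne ha, Function.update_of_ne ha]
        exact hg a k z hz
    refine ex_succ_iff' hcomm hgg ?_ ?_
    · have h1 := surH_pow (fun a z => hx a j z) (hg j) (r := j) (s := s)
        (fun t => surH_of_ex (hE s hs (t + dg j))) (i + 1)
        (t - Function.update dg j ((i + 1 : ℕ) * dg j) j)
      unfold SurH at h1 ⊢
      simp only [Function.update_self, KG_congr hdd, kd_congr hxx] at h1 ⊢
      exact h1
    · have h1 := injH_pow (fun a z => hx a j z) (hg j) (r := j) (s := s - 1)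
        (fun t => injH_of_ex (by rw [sub_add_cancel]; exact hE s hs (t + dg j))) (i + 1)
        (t - Function.update dg j ((i + 1 : ℕ) * dg j) j)
      unfold InjH at h1 ⊢
      simp only [Function.update_self, KG_congr hdd, kd_congr hxx] at h1 ⊢
      exact h1
  | succ k ih =>
    intro j r hr x dg hx hg hE s hs t
    have hr' : r = j + 2 + k := by omega
    subst hr'
    have h2 := ih (j + 1) (j + 2 + k) (by omega) (x ∘ tr j) (dg ∘ tr j)
      (fun a b z => hx _ _ z) (fun a k z hz => hg _ k z hz) (fun s hs t => (hE s hs t).swap) s hs t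
    have h3 := h2.swap
    rw [← update_tr, ← update_tr, comp_tr_tr, comp_tr_tr, Function.comp_apply,
      Function.comp_apply, tr_succ] at h3
    exact h3

/-- **powers** -/
theorem ex_pow {i : ℕ → ℕ} {r : ℕ} (hx : ∀ a b z, x a (x b z) = x b (x a z))
    (hg : ∀ a k, ∀ z ∈ gr k, x a z ∈ gr (k + dg a)) (h : ∀ s, 1 ≤ s → ∀ t, Ex x gr dg r s t) :
    ∀ s, 1 ≤ s → ∀ t,
      Ex (fun a => pw (x a) (i a + 1)) gr (fun a => (i a + 1 : ℕ) * dg a) r s t := by
  -- the operators with index `< m` are replaced by their powers
  have key : ∀ m ≤ r, ∀ s, 1 ≤ s → ∀ t, Ex (fun a => if a < m then pw (x a) (i a + 1) else x a) gr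
      (fun a => if a < m then (i a + 1 : ℕ) * dg a else dg a) r s t := by
    intro m
    induction m with
    | zero =>
      intro _ s hs t
      exact (h s hs t).congr (fun b _ => (if_neg (by omega)).symm)
        (fun b _ => (if_neg (by omega)).symm)
    | succ m ih =>
      intro hm s hs t
      have hcomm : ∀ a b z, (if a < m then pw (x a) (i a + 1) else x a)
          ((if b < m then pw (x b) (i b + 1) else x b) z) =
          (if b < m then pw (x b) (i b + 1) else x b)
          ((if a < m then pw (x a) (i a + 1) else x a) z) := by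
        intro a b z
        have h2 : ∀ z, pw (x a) (i a + 1) (x b z) = x b (pw (x a) (i a + 1) z) :=
          pw_comm (hx a b) _
        have h3 : ∀ z, pw (x b) (i b + 1) (x a z) = x a (pw (x b) (i b + 1) z) :=
          pw_comm (hx b a) _
        split_ifs
        · exact pw_comm (fun z => (h3 z).symm) _ z
        · exact h2 z
        · exact (h3 z).symm
        · exact hx a b z
      have h4 := ex_pow_one (i := i m) (r - (m + 1)) m r (by omega) _ _ hcomm (gr := gr) (by
        intro a k z hz
        split_ifs
        · exact pw_mem (hg a) _ k hz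
        · exact hg a k z hz) (ih (by omega)) s hs t
      refine h4.congr (fun b _ => ?_) fun b _ => ?_
      · rcases lt_trichotomy b m with hb | hb | hb
        · rw [Function.update_of_ne (by omega), if_pos hb, if_pos (by omega)]
        · subst hb
          rw [Function.update_self, if_neg (by omega), if_pos (by omega)]
        · rw [Function.update_of_ne (by omega), if_neg (by omega), if_neg (by omega)]
      · rcases lt_trichotomy b m with hb | hb | hb
        · rw [Function.update_of_ne (by omega), if_pos hb, if_pos (by omega)]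
        · subst hb
          rw [Function.update_self, if_neg (by omega), if_pos (by omega)]
        · rw [Function.update_of_ne (by omega), if_neg (by omega), if_neg (by omega)]
  intro s hs t
  exact (key r le_rfl s hs t).congr (fun b hb => if_pos hb) fun b hb => if_pos hb

/-- regular sequences from the Koszul complexes -/
theorem isReg_of_ex {r : ℕ} (h : ∀ b < r, ∀ t, Ex x gr dg (b + 1) 1 t) : IsReg x gr dg r := by
  intro b hb k z hz hI
  have h0 : Ex x gr dg (b + 1) (0 + 1) (k + dg b) := h b hb (k + dg b)
  have h1 : InjH x gr dg (x b) (dg b) b 0 k := injH_of_ex h0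
  have h2 := h1 (io b z) (io_mem hz) (kd_io z)
  rw [zero_add, kmap_io] at h2
  exact inB_iff.1 (h2 (inB_iff.2 hI))

/-- **powers of regular sequences** -/
theorem isReg_pow {i : ℕ → ℕ} {r : ℕ} (hx : ∀ a b z, x a (x b z) = x b (x a z))
    (hg : ∀ a k, ∀ z ∈ gr k, x a z ∈ gr (k + dg a)) (h : IsReg x gr dg r) :
    IsReg (fun a => pw (x a) (i a + 1)) gr (fun a => (i a + 1 : ℕ) * dg a) r :=
  isReg_of_ex fun b hb t => ex_pow hx hg
    (fun _ hs _ => ex_of_reg hx hg (r := b + 1) (fun c hc => h c (by omega)) hs) 1 le_rfl t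

end Vale.Agent.P221.H377
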