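import Vale.Agent.P221.T.Form
import Vale.Agent.P221.T.H520.T2
import Vale.Agent.P221.H395.Fp.Bdd

/-!
# P221 (helper377): exact sequences on `⨁_k π_k`, for objects with even homotopy

`EvenH Y` : `π_k Y = 0` for odd `k`. For a distinguished triangle `Y⟦d⟧ ⟶ Y ⟶ C ⟶` with `d` even:

* `EvenH.of_tri` : if `C` is even, `Y` bounded below and `d > 0`, then `Y` is even;
* `exact_of_tri` : if `C` and `Y` are even, `π_* Y ⟶ π_* Y ⟶ π_* C` is short exact.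
-/

open CategoryTheory MonoidalCategory MonObj Limits Pretriangulated
open Vale.Agent.P251.T Vale.Agent.P251.M Vale.Agent.P251.S

set_option linter.unusedSectionVars false

universe u

namespace Vale.Agent.P221.H377

open Vale.Agent.P221.T
open Vale.Agent.P221.H395.Fp (BBd)

variable {𝒯 : Type u} [Category.{0} 𝒯] [Preadditive 𝒯] [HasZeroObject 𝒯]
    [HasShift 𝒯 ℤ] [∀ n : ℤ, (shiftFunctor 𝒯 n).Additive] [Pretriangulated 𝒯] [IsTriangulated 𝒯]
    [MonoidalCategory 𝒯] [SymmetricCategory 𝒯] [TensorTriangulated 𝒯] [MonoidalClosed 𝒯]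
    [HasCoproducts.{0} 𝒯] [HasProducts.{0} 𝒯] [StableCat 𝒯]

/-- `π_k Y = 0` for odd `k` -/
def EvenH (Y : 𝒯) : Prop := ∀ k : ℤ, Odd k → ∀ y : (𝟙_ 𝒯)⟦k⟧ ⟶ Y, y = 0

section PiM

variable {Y Z : 𝒯}

theorem PiM_ind {Q : PiM Y → Prop} (h0 : Q 0) (h1 : ∀ k (y : (𝟙_ 𝒯)⟦k⟧ ⟶ Y), Q (PiM.of Y k y))
    (h2 : ∀ α β, Q α → Q β → Q (α + β)) (α : PiM Y) : Q α := DirectSum.induction_on α h0 h1 h2

theorem map0_apply (f : Y ⟶ Z) (α : PiM Y) (k : ℤ) : (PiM.map0 f α) k = α k ≫ f := by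
  classical
  refine PiM_ind (Q := fun α => (PiM.map0 f α) k = α k ≫ f) ?_ ?_ ?_ α
  · rw [map_zero, DirectSum.zero_apply, DirectSum.zero_apply, zero_comp]
  · intro l y
    rw [PiM.map0_of]
    by_cases h : k = l
    · subst h
      rw [PiM.of, PiM.of, DirectSum.of_eq_same, DirectSum.of_eq_same]
    · rw [PiM.of, PiM.of, DirectSum.of_eq_of_ne _ _ _ h, DirectSum.of_eq_of_ne _ _ _ h, zero_comp]
  · intro α β hα hβ
    rw [map_add, DirectSum.add_apply, DirectSum.add_apply, hα, hβ, Preadditive.add_comp]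

theorem map_apply {j k k' : ℤ} (h : j + k = k') (f : Y⟦j⟧ ⟶ Z) (α : PiM Y) :
    (PiM.map f α) k' = gc h (α k) f := by
  classical
  refine PiM_ind (Q := fun α => (PiM.map f α) k' = gc h (α k) f) ?_ ?_ ?_ α
  · rw [map_zero, DirectSum.zero_apply, DirectSum.zero_apply, gc_zero_left]
  · intro l y
    rw [PiM.map_of f (rfl : j + l = j + l)]
    by_cases hl : k = l
    · subst hl
      subst h
      rw [PiM.of, PiM.of, DirectSum.of_eq_same, DirectSum.of_eq_same]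
    · rw [PiM.of, PiM.of, DirectSum.of_eq_of_ne _ _ _ hl,
        DirectSum.of_eq_of_ne _ _ _ (by omega), gc_zero_left]
  · intro α β hα hβ
    rw [map_add, DirectSum.add_apply, DirectSum.add_apply, hα, hβ, gc_add_left]

theorem PiM_ext {α β : PiM Y} (h : ∀ k, α k = β k) : α = β := DFinsupp.ext h

end PiM

/-- changing the first object of a triangle -/
theorem dist_iso₁ {A A' Y C : 𝒯} {f : A ⟶ Y} {g : Y ⟶ C} {h : C ⟶ A⟦(1 : ℤ)⟧}
    (H : Triangle.mk f g h ∈ distTriang 𝒯) (e : A' ≅ A) :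
    Triangle.mk (e.hom ≫ f) g (h ≫ e.inv⟦(1 : ℤ)⟧') ∈ distTriang 𝒯 := by
  refine isomorphic_distinguished _ H _ (Triangle.isoMk _ _ e (Iso.refl _) (Iso.refl _) ?_ ?_ ?_)
  · change (e.hom ≫ f) ≫ 𝟙 Y = e.hom ≫ f
    rw [Category.comp_id]
  · change g ≫ 𝟙 C = 𝟙 Y ≫ g
    rw [Category.comp_id, Category.id_comp]
  · change (h ≫ e.inv⟦(1 : ℤ)⟧') ≫ e.hom⟦(1 : ℤ)⟧' = 𝟙 C ≫ h
    rw [Category.assoc, ← Functor.map_comp, Iso.inv_hom_id, CategoryTheory.Functor.map_id,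
      Category.comp_id, Category.id_comp]

section tri

variable {Y C : 𝒯} {d : ℤ} {F : Y⟦d⟧ ⟶ Y} {G : Y ⟶ C} {δ : C ⟶ (Y⟦d⟧)⟦(1 : ℤ)⟧}
  (H : Triangle.mk F G δ ∈ distTriang 𝒯)

include H

/-- the elements killed by `G` -/
theorem exists_gc_of_comp_eq_zero {k k' : ℤ} (h : d + k' = k) (y : (𝟙_ 𝒯)⟦k⟧ ⟶ Y)
    (hy : y ≫ G = 0) : ∃ y' : (𝟙_ 𝒯)⟦k'⟧ ⟶ Y, gc h y' F = y := by
  obtain ⟨c, hc⟩ := dist_co₂ H y hy
  obtain ⟨w, hw⟩ := gc_surj h c
  refine ⟨w, ?_⟩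
  rw [gc_eq, hw, ← hc]

theorem gc_F_comp_G {k k' : ℤ} (h : d + k' = k) (y : (𝟙_ 𝒯)⟦k'⟧ ⟶ Y) : gc h y F ≫ G = 0 := by
  rw [← gc_comp, dist_zero₁₂ H, gc_zero_right]

/-- if `C` is even, so is `Y` -/
theorem EvenH.of_tri (hC : EvenH C) (hd : Even d) (hd0 : 0 < d) (hb : BBd Y) : EvenH Y := by
  obtain ⟨K, hK⟩ := hb
  have key : ∀ N : ℕ, ∀ k : ℤ, k < K + N → Odd k → ∀ y : (𝟙_ 𝒯)⟦k⟧ ⟶ Y, y = 0 := by
    intro N
    induction N with
    | zero =>
      intro k hk _ y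
      exact hK k (by simpa using hk) y
    | succ N ih =>
      intro k hk hodd y
      obtain ⟨y', hy'⟩ := exists_gc_of_comp_eq_zero H (show d + (k - d) = k by ring) y
        (hC k hodd _)
      rw [← hy', ih (k - d) (by push_cast at hk; omega) (hodd.sub_even hd) y', gc_zero_left]
  intro k hodd y
  exact key (k - K + 1).toNat k (by omega) hodd y

/-- `π_* F` is injective -/
theorem gc_F_injective (hC : EvenH C) (hY : EvenH Y) (hd : Even d) {k k' : ℤ} (h : d + k' = k)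
    (y : (𝟙_ 𝒯)⟦k'⟧ ⟶ Y) (hy : gc h y F = 0) : y = 0 := by
  rcases Int.even_or_odd k' with hk' | hk'
  · rw [gc_eq] at hy
    have h1 : Odd (k + 1) := by
      rw [← h]
      exact (hd.add hk').add_one
    have h2 := tri_inj H (gc h y (𝟙 (Y⟦d⟧))) (fun z => ⟨0, by rw [zero_comp, hC _ h1 z]⟩) hy
    exact gc_inj h (h2.trans (gc_zero_left _ _).symm)
  · exact hY k' hk' y

/-- `π_* G` is onto -/
theorem comp_G_surjective (hC : EvenH C) (hY : EvenH Y) (hd : Even d) (k : ℤ)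
    (z : (𝟙_ 𝒯)⟦k⟧ ⟶ C) : ∃ y : (𝟙_ 𝒯)⟦k⟧ ⟶ Y, y ≫ G = z := by
  rcases Int.even_or_odd k with hk | hk
  · obtain ⟨w, hw⟩ := gc_surj (show (1 : ℤ) + (k - 1) = k by ring) (z ≫ δ)
    obtain ⟨w', hw'⟩ := gc_surj (show d + (k - 1 - d) = k - 1 by ring) w
    have h1 : Odd (k - 1 - d) := by
      have := (hk.sub_odd odd_one)
      exact this.sub_even hd
    have h2 : w = 0 := by
      rw [← hw', hY _ h1 w', gc_zero_left]
    rw [h2, gc_zero_left] at hw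
    obtain ⟨y, hy⟩ := dist_co₃ H z hw.symm
    exact ⟨y, hy.symm⟩
  · exact ⟨0, by rw [zero_comp, hC k hk z]⟩

/-- **the short exact sequence** -/
theorem exact_of_tri (hC : EvenH C) (hY : EvenH Y) (hd : Even d) :
    Function.Injective (PiM.map F) ∧ Function.Surjective (PiM.map0 G) ∧
      ∀ β : PiM Y, PiM.map0 G β = 0 ↔ ∃ α, PiM.map F α = β := by
  classical
  refine ⟨?_, ?_, fun β => ⟨fun hβ => ?_, ?_⟩⟩
  · refine (injective_iff_map_eq_zero _).2 fun α hα => PiM_ext fun k => ?_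
    have h1 := map_apply (rfl : d + k = d + k) F α
    rw [hα, DirectSum.zero_apply] at h1
    rw [DirectSum.zero_apply]
    exact gc_F_injective H hC hY hd rfl _ h1.symm
  · intro γ
    refine PiM_ind (Q := fun γ => ∃ β, PiM.map0 G β = γ) ⟨0, map_zero _⟩ ?_ ?_ γ
    · intro k z
      obtain ⟨y, rfl⟩ := comp_G_surjective H hC hY hd k z
      exact ⟨PiM.of Y k y, PiM.map0_of _ _ _⟩
    · rintro _ _ ⟨α, rfl⟩ ⟨β, rfl⟩
      exact ⟨α + β, map_add _ _ _⟩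
  · have h1 : ∀ k, ∃ y' : (𝟙_ 𝒯)⟦k - d⟧ ⟶ Y, gc (show d + (k - d) = k by ring) y' F = β k := by
      intro k
      refine exists_gc_of_comp_eq_zero H _ _ ?_
      rw [← map0_apply, hβ, DirectSum.zero_apply]
    choose y hy using h1
    refine ⟨∑ k ∈ DFinsupp.support β, PiM.of Y (k - d) (y k), ?_⟩
    rw [map_sum]
    conv_rhs => rw [← DirectSum.sum_support_of β]
    refine Finset.sum_congr rfl fun k _ => ?_
    rw [PiM.map_of F (show d + (k - d) = k by ring), hy]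
  · rintro ⟨α, rfl⟩
    refine PiM_ext fun k => ?_
    rw [map0_apply, map_apply (show d + (k - d) = k by ring), gc_F_comp_G H, DirectSum.zero_apply]

end tri

end Vale.Agent.P221.H377
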