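import Vale.Agent.P221.H460.Reg
import Vale.Agent.P221.T.H924.FreeAlg

/-!
# P221 (helper377): multiplication by `v_m` on `π_* X / (v_0, …, v_{m-1})`

`wd` : if `ev a = 0`, then `ev (a · v_m)` lies in `N_m = ∑_{a < m} ev (A · v_a)`: the coefficients of
`η_R (v_m)` at `t^E`, `E ≠ 0`, lie in `(v_0, …, v_{m-1})`.
-/

open MvPolynomial

set_option linter.unusedSectionVars false

namespace Vale.Agent.P221.H377

open Vale.Agent.P221.T Vale.Agent.P221.T.H746 Vale.Agent.P221.H460

variable {p : ℕ} [hp : Fact p.Prime] {n : ℕ}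

theorem HK_vK (m : ℕ) : HK p (sV p m) (vK p m) := by
  cases m with
  | zero =>
    have h : sV p 0 = 0 := by simp [sV]
    rw [h]
    have h1 : (vK p 0 : KK p) = C (p : ℤ_[p]) := by
      change ((p : ℕ) : KK p) = _
      rw [map_natCast]
    rw [h1]
    exact isWeightedHomogeneous_C _ _
  | succ m => exact isWeightedHomogeneous_X _ _ _

theorem vK_Ip (m : ℕ) : vK p m ∈ Ip p 1 := by
  rw [Ip_one]
  cases m with
  | zero => exact p_mem_II p
  | succ m => exact X_mem_II p m

theorem weight_nonneg (E : ℕ →₀ ℕ) : 0 ≤ Finsupp.weight (fun i => sV p (i + 1)) E := by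
  rw [Finsupp.weight_apply]
  exact Finsupp.sum_nonneg fun j _ => smul_nonneg (Nat.zero_le _) (sV_nonneg p _)

/-- homogeneous elements of `(p, v_1, …)` of degree `< |v_m|` are combinations of
`v_0, …, v_{m-1}` -/
theorem exists_comb {m : ℕ} {k : ℤ} (hk : k < sV p m) {f : KK p} (hf : HK p k f)
    (hI : f ∈ Ip p 1) :
    ∃ g : Fin m → KK p, (∀ a : Fin m, HK p (k - sV p a) (g a)) ∧ f = ∑ a : Fin m, vK p a * g a := by
  classical
  rw [f.as_sum]
  refine Finset.sum_induction (fun E => monomial E (coeff E f)) (fun f => ∃ g : Fin m → KK p,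
    (∀ a : Fin m, HK p (k - sV p a) (g a)) ∧ f = ∑ a : Fin m, vK p a * g a) ?_ ?_ ?_
  · rintro _ _ ⟨g, hg, rfl⟩ ⟨g', hg', rfl⟩
    refine ⟨fun a => g a + g' a, fun a => (hg a).add (hg' a), ?_⟩
    rw [← Finset.sum_add_distrib]
    exact Finset.sum_congr rfl fun a _ => (mul_add _ _ _).symm
  · refine ⟨fun _ => 0, fun a => HK_zero _, ?_⟩
    simp
  · intro E hE
    have hE' : Finsupp.weight (fun i => sV p (i + 1)) E = k := hf (mem_support_iff.1 hE)
    -- a general construction
    have key : ∀ (a : ℕ) (ha : a < m) (g : KK p), HK p (k - sV p a) g →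
        monomial E (coeff E f) = vK p a * g → ∃ g : Fin m → KK p,
          (∀ a : Fin m, HK p (k - sV p a) (g a)) ∧ monomial E (coeff E f) = ∑ a : Fin m, vK p a * g a := by
      intro a ha g hg he
      refine ⟨Pi.single ⟨a, ha⟩ g, fun b => ?_, ?_⟩
      · by_cases hb : b = ⟨a, ha⟩
        · subst hb
          rw [Pi.single_eq_same]
          exact hg
        · rw [Pi.single_eq_of_ne hb]
          exact HK_zero _
      · rw [Finset.sum_eq_single (⟨a, ha⟩ : Fin m)]
        · rw [Pi.single_eq_same]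
          exact he
        · intro b _ hb
          rw [Pi.single_eq_of_ne hb, mul_zero]
        · intro h
          exact absurd (Finset.mem_univ _) h
    by_cases h0 : E = 0
    · subst h0
      rw [map_zero] at hE'
      subst hE'
      have hm : 0 < m := by
        rcases Nat.eq_zero_or_pos m with rfl | h
        · have : sV p 0 = 0 := by simp [sV]
          omega
        · exact h
      obtain ⟨c, hc⟩ := (mem_Ip_iff p).1 hI 0
      have e1 : (1 : ℤ).toNat - (0 : ℕ →₀ ℕ).degree = 1 := by
        rw [map_zero]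
        rfl
      rw [e1, pow_one] at hc
      refine key 0 hm (C c) ?_ ?_
      · have h : (0 : ℤ) - sV p 0 = 0 := by simp [sV]
        rw [h]
        exact isWeightedHomogeneous_C _ _
      · rw [hc]
        change C ((p : ℤ_[p]) * c) = ((p : ℕ) : KK p) * C c
        rw [map_mul, map_natCast]
    · obtain ⟨i, hi⟩ : ∃ i, E i ≠ 0 := by
        by_contra hall
        push Not at hall
        exact h0 (Finsupp.ext hall)
      have h3 : E = (E - Finsupp.single i 1) + Finsupp.single i 1 := by
        rw [tsub_add_cancel_of_le]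
        rw [Finsupp.single_le_iff]
        omega
      have h4 : Finsupp.weight (fun i => sV p (i + 1)) (E - Finsupp.single i 1) =
          k - sV p (i + 1) := by
        rw [h3, map_add, Finsupp.weight_single, one_smul] at hE'
        omega
      have h5 := weight_nonneg (p := p) (E - Finsupp.single i 1)
      have h6 : i + 1 < m := by
        by_contra hcon
        push Not at hcon
        have : sV p m ≤ sV p (i + 1) := by
          rcases Nat.eq_or_lt_of_le hcon with h | h
          · rw [h]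
          · exact (sV_lt p h).le
        omega
      refine key (i + 1) h6 (monomial (E - Finsupp.single i 1) (coeff E f)) ?_ ?_
      · exact isWeightedHomogeneous_monomial _ _ _ h4
      · change _ = X i * _
        rw [X, monomial_mul, one_mul, add_comm, ← h3]

variable {ld : Lead p n} {S : Src p n} {O : OpAlg ld S}

theorem eta_homog (X : OpX O) {k : ℤ} {f : KK p} (hf : HK p k f) (E : ℕ →₀ ℕ) :
    HK p (k - dT p E) (coeff E (X.eta f)) := by
  obtain ⟨γ, hγ⟩ := X.mult k f hf
  have h1 := O.homog k γ 0 E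
  rw [hγ, dT_zero, add_zero] at h1
  have h2 : (monomial 0 1 : GG p) = 1 := rfl
  rwa [h2, mul_one] at h1

theorem eta_Ip (X : OpX O) {k t : ℤ} {f : KK p} (hf : HK p k f) (ht : f ∈ Ip p t)
    (E : ℕ →₀ ℕ) : coeff E (X.eta f) ∈ Ip p t := by
  obtain ⟨γ, hγ⟩ := X.mult k f hf
  have h1 : γ ∈ S.F t k := mem_F_of_coord X fun E' => by
    rw [hγ, coeff_mul_monomial']
    split_ifs with h
    · have h0 : E' = 0 := Finsupp.ext fun i => Nat.le_zero.1 (h i)
      subst h0
      rw [tsub_zero, mul_one, X.eta_zero]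
      exact ht
    · exact Ideal.zero_mem _
  have h2 := O.T_mem t k γ h1 0 E
  rw [hγ] at h2
  have h3 : (monomial 0 1 : GG p) = 1 := rfl
  rwa [h3, mul_one] at h2

theorem dT_pos {E : ℕ →₀ ℕ} (hE : E ≠ 0) : 0 < dT p E := by
  obtain ⟨i, hi⟩ : ∃ i, E i ≠ 0 := by
    by_contra hall
    push Not at hall
    exact hE (Finsupp.ext hall)
  have h3 : E = (E - Finsupp.single i 1) + Finsupp.single i 1 := by
    rw [tsub_add_cancel_of_le]
    rw [Finsupp.single_le_iff]
    omega
  have h4 : dT p (Finsupp.single i 1) = sV p (i + 1) := by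
    unfold dT
    rw [Finsupp.weight_single, one_smul]
  rw [h3, dT_add, h4]
  have h5 := sV_pos p i
  have h6 := dT_nonneg (p := p) (E - Finsupp.single i 1)
  omega

/-- `η_R (v_m)` is invariant modulo `(v_0, …, v_{m-1})` -/
theorem eta_comb (X : OpX O) (m : ℕ) {E : ℕ →₀ ℕ} (hE : E ≠ 0) :
    ∃ g : Fin m → KK p, (∀ a : Fin m, HK p (sV p m - dT p E - sV p a) (g a)) ∧
      coeff E (X.eta (vK p m)) = ∑ a : Fin m, vK p a * g a := by
  refine exists_comb ?_ (eta_homog X (HK_vK m) E) (eta_Ip X (HK_vK m) (vK_Ip m) E)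
  have := dT_pos (p := p) hE
  omega

/-! ### the subgroup `N_m` -/

variable {Y : Sys S} {M : Type} [AddCommGroup M] [Module (KK p) M] (Z : Ev O Y M) (X : OpX O)

/-- the image of `N_m` in `M` -/
def NM (m : ℕ) (k : ℤ) : AddSubgroup M where
  carrier := {y | ∃ b : ∀ a : Fin m, Y.A (k - sV p a),
    y = ∑ a : Fin m, Z.c _ (b a) (X.eta (vK p a))}
  add_mem' := by
    rintro x y ⟨b, hb⟩ ⟨b', hb'⟩
    refine ⟨fun a => b a + b' a, ?_⟩
    rw [hb, hb', ← Finset.sum_add_distrib]
    refine Finset.sum_congr rfl fun a _ => ?_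
    rw [map_add (Z.c _), LinearMap.add_apply]
  zero_mem' := ⟨fun _ => 0, by
    refine (Finset.sum_eq_zero fun a _ => ?_).symm
    rw [map_zero (Z.c _), LinearMap.zero_apply]⟩
  neg_mem' := by
    rintro x ⟨b, hb⟩
    refine ⟨fun a => -b a, ?_⟩
    rw [hb, ← Finset.sum_neg_distrib]
    refine Finset.sum_congr rfl fun a _ => ?_
    rw [map_neg (Z.c _), LinearMap.neg_apply]

theorem mem_Nm {m : ℕ} {k : ℤ} {x : Y.Pi k} : x ∈ Nm Z X m k ↔ Z.e k x ∈ NM Z X m k := Iff.rfl

/-- products with homogeneous elements -/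
theorem exists_mul {k m k' : ℤ} (h : k + m = k') (a : Y.A k) {f : KK p} (hf : HK p m f) :
    ∃ a' : Y.A k', ∀ z, Z.c k' a' z = Z.c k a (X.eta f * z) := by
  obtain ⟨γ, hγ⟩ := X.mult m f hf
  refine ⟨Y.act h a γ, fun z => ?_⟩
  rw [Z.act, LinearMap.comp_apply, hγ]

theorem sum_mem_NM {m : ℕ} {k : ℤ} {ι : Type} (s : Finset ι) (f : ι → M)
    (h : ∀ i ∈ s, f i ∈ NM Z X m k) : ∑ i ∈ s, f i ∈ NM Z X m k :=
  AddSubgroup.sum_mem _ h

/-- the values of `c a` at `η_R (v_m)` -/
theorem mem_NM_of_low (hs : ∀ k, Function.Surjective (Y.ev k)) (m : ℕ) {k' k : ℤ}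
    (hk : k' + sV p m = k) : ∀ (N : ℕ) (c₀ : ℤ), 1 ≤ c₀ → sV p m < c₀ + N → ∀ a : Y.A k',
      (∀ E, dT p E < c₀ → Z.c k' a (monomial E 1) = 0) →
        Z.c k' a (X.eta (vK p m)) ∈ NM Z X m k := by
  classical
  -- the value at `η f` as a sum
  have hval : ∀ a : Y.A k', Z.c k' a (X.eta (vK p m)) =
      ∑ E ∈ (X.eta (vK p m)).support, coeff E (X.eta (vK p m)) • Z.c k' a (monomial E 1) := by
    intro a
    conv_lhs => rw [(X.eta (vK p m)).as_sum, map_sum]
    refine Finset.sum_congr rfl fun E _ => ?_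
    have h3 : (monomial E (coeff E (X.eta (vK p m))) : GG p) =
        coeff E (X.eta (vK p m)) • monomial E 1 := by
      rw [smul_monomial, smul_eq_mul, _root_.mul_one]
    rw [h3, map_smul]
  have hsupp : ∀ E ∈ (X.eta (vK p m)).support, dT p E ≤ sV p m := by
    intro E hE
    by_contra hcon
    push Not at hcon
    have h1 := HK_neg_eq_zero (p := p) (k := sV p m - dT p E) (by omega)
      (eta_homog X (HK_vK m) E)
    exact (mem_support_iff.1 hE) h1
  intro N
  induction N with
  | zero =>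
    intro c₀ _ hc a ha
    rw [hval, Finset.sum_eq_zero]
    · exact AddSubgroup.zero_mem _
    · intro E hE
      have h1 := hsupp E hE
      rw [ha E (by push_cast at hc; omega), smul_zero]
  | succ N ih =>
    intro c₀ hc0 hc a ha
    -- the lowest coordinates
    have h1 : ∀ E, ∃ b : Y.A (k' + c₀), dT p E = c₀ →
        Z.c _ b 1 = Z.c k' a (monomial E 1) := by
      intro E
      by_cases hE : dT p E = c₀
      · obtain ⟨x, hx⟩ := Z.low k' c₀ a ha E hE
        obtain ⟨b, hb⟩ := hs _ x
        refine ⟨b, fun _ => ?_⟩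
        rw [← Z.ev, hb, hx]
      · exact ⟨0, fun h => absurd h hE⟩
    choose b hb using h1
    -- the operations
    have h2 : ∀ E, ∃ ρ : S.E (-c₀), dT p E = c₀ →
        (∀ E', coeff 0 (O.T _ ρ (monomial E' 1)) = if E' = E then 1 else 0) ∧
        (∀ E', dT p E' < c₀ → O.T _ ρ (monomial E' 1) = 0) ∧
        ∀ E', dT p E' = c₀ → O.T _ ρ (monomial E' 1) = if E' = E then 1 else 0 := by
      intro E
      by_cases hE : dT p E = c₀
      · obtain ⟨ρ, -, hρ⟩ := X.ex (-c₀) 0 (fun E' => if E' = E then 1 else 0)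
          (fun E' => by
            split_ifs with h
            · subst h
              rw [hE, neg_add_cancel]
              exact isWeightedHomogeneous_one _ _
            · exact HK_zero _)
          (fun E' => Ip_of_nonpos p le_rfl _)
        have hlow := X.low (-c₀) c₀ ρ (fun E' hE' => by
          rw [hρ, if_neg]
          rintro rfl
          omega)
        refine ⟨ρ, fun _ => ⟨hρ, hlow.1, fun E' hE' => ?_⟩⟩
        rw [hlow.2 E' hE', hρ]
        split_ifs
        · exact map_one _
        · exact map_zero _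
      · exact ⟨0, fun h => absurd h hE⟩
    choose ρ hρ using h2
    -- the set of the exponents of degree `c₀`
    obtain ⟨s, hs'⟩ : ∃ s : Finset (ℕ →₀ ℕ), ∀ E, E ∈ s ↔ dT p E = c₀ := by
      refine ⟨(Vale.Agent.P221.T.H924.finite_dT p c₀).toFinset.filter fun E => dT p E = c₀,
        fun E => ?_⟩
      rw [Finset.mem_filter, Set.Finite.mem_toFinset]
      exact ⟨fun h => h.2, fun h => ⟨h.le, h⟩⟩
    have hdeg : k' + c₀ + -c₀ = k' := by omega
    set a' : Y.A k' := a - ∑ E ∈ s, Y.act hdeg (b E) (ρ E) with ha'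
    have hca' : ∀ z, Z.c k' a' z = Z.c k' a z - ∑ E ∈ s, Z.c _ (b E) (O.T _ (ρ E) z) := by
      intro z
      rw [ha', map_sub, LinearMap.sub_apply, map_sum, LinearMap.sum_apply]
      congr 1
      refine Finset.sum_congr rfl fun E _ => ?_
      rw [Z.act, LinearMap.comp_apply]
    have h3 : ∀ E', dT p E' < c₀ + 1 → Z.c k' a' (monomial E' 1) = 0 := by
      intro E' hE'
      rw [hca']
      by_cases hE : dT p E' = c₀
      · rw [Finset.sum_eq_single E']
        · rw [((hρ E' hE).2.2 E' hE), if_pos rfl, hb E' hE, sub_self]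
        · intro E hEs hne
          rw [((hρ E ((hs' E).1 hEs)).2.2 E' hE), if_neg hne.symm, map_zero]
        · intro h
          exact absurd ((hs' E').2 hE) h
      · have hE2 : dT p E' < c₀ := by omega
        rw [ha E' hE2, Finset.sum_eq_zero, sub_zero]
        intro E hEs
        rw [(hρ E ((hs' E).1 hEs)).2.1 E' hE2, map_zero]
    have h4 := ih (c₀ + 1) (by omega) (by push_cast at hc ⊢; omega) a' h3
    have h5 : Z.c k' a (X.eta (vK p m)) = Z.c k' a' (X.eta (vK p m)) +
        ∑ E ∈ s, Z.c _ (b E) (O.T _ (ρ E) (X.eta (vK p m))) := by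
      rw [hca', sub_add_cancel]
    rw [h5]
    refine AddSubgroup.add_mem _ h4 (sum_mem_NM Z X _ _ fun E hEs => ?_)
    have hE := (hs' E).1 hEs
    have hE0 : E ≠ 0 := by
      rintro rfl
      rw [dT_zero] at hE
      omega
    obtain ⟨γ, hγ⟩ := X.mult _ _ (HK_vK m)
    obtain ⟨ε, hε⟩ := X.comp (show -c₀ + sV p m = sV p m - c₀ by ring) (ρ E) γ
    have h6 : O.T _ (ρ E) (X.eta (vK p m)) = O.T _ ε 1 := by
      rw [hε, LinearMap.comp_apply, hγ, mul_one]
    have h7 : coeff 0 (O.T _ ε 1) = coeff E (X.eta (vK p m)) := by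
      rw [← h6]
      conv_lhs => rw [(X.eta (vK p m)).as_sum, map_sum, coeff_sum]
      have h8 : ∀ E' ∈ (X.eta (vK p m)).support,
          coeff 0 (O.T _ (ρ E) (monomial E' (coeff E' (X.eta (vK p m))))) =
            if E' = E then coeff E (X.eta (vK p m)) else 0 := by
        intro E' _
        have h9 : (monomial E' (coeff E' (X.eta (vK p m))) : GG p) =
            coeff E' (X.eta (vK p m)) • monomial E' 1 := by
          rw [smul_monomial, smul_eq_mul, _root_.mul_one]
        rw [h9, map_smul, coeff_smul, (hρ E hE).1 E']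
        split_ifs with h
        · rw [h, smul_eq_mul, mul_one]
        · rw [smul_zero]
      rw [Finset.sum_congr rfl h8, Finset.sum_ite_eq']
      split_ifs with h
      · rfl
      · exact (notMem_support_iff.1 h).symm
    have h10 : O.T _ ε 1 = X.eta (coeff E (X.eta (vK p m))) := by
      have h11 := (X.low _ 0 ε fun E' hE' => absurd (dT_nonneg (p := p) E') (by omega)).2 0
        (dT_zero (p := p))
      have h12 : (monomial 0 1 : GG p) = 1 := rfl
      rw [h12] at h11
      rw [h11, h7]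
    rw [h6, h10]
    obtain ⟨g, hg, hg'⟩ := eta_comb X m hE0
    choose b' hb' using fun i : Fin m => exists_mul Z X
      (show k' + c₀ + (sV p m - dT p E - sV p i) = k - sV p i by omega) (b E) (hg i)
    refine ⟨b', ?_⟩
    rw [hg', map_sum, map_sum]
    refine Finset.sum_congr rfl fun i _ => ?_
    rw [hb', map_mul, mul_comm]

/-- **(B1)** multiplication by `v_m` is well defined modulo `N_m` -/
theorem mem_NM_of_ev (hs : ∀ k, Function.Surjective (Y.ev k)) (m : ℕ) {k' k : ℤ}
    (hk : k' + sV p m = k) (a : Y.A k') (ha : Y.ev _ a = 0) :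
    Z.c k' a (X.eta (vK p m)) ∈ NM Z X m k := by
  refine mem_NM_of_low Z X hs m hk ((sV p m).toNat + 1) 1 le_rfl ?_ a ?_
  · push_cast
    have := sV_nonneg p m
    omega
  · intro E hE
    have h0 : E = 0 := by
      by_contra h
      have := dT_pos (p := p) h
      omega
    subst h0
    have h1 := Z.ev _ a
    rw [ha, map_zero] at h1
    exact h1.symm

/-- `ev` of products -/
theorem exists_ev_mul {k m k' : ℤ} (h : k + m = k') (a : Y.A k) {f : KK p} (hf : HK p m f) :
    ∃ x : Y.Pi k', Z.e k' x = Z.c k a (X.eta f) := by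
  obtain ⟨a', ha'⟩ := exists_mul Z X h a hf
  refine ⟨Y.ev _ a', ?_⟩
  rw [Z.ev, ha', mul_one]

theorem wd (hs : ∀ k, Function.Surjective (Y.ev k)) (m : ℕ) (k : ℤ) (a : Y.A (k - sV p m))
    (ha : Y.ev _ a = 0) : ∃ x ∈ Nm Z X m k, Z.e k x = Z.c _ a (X.eta (vK p m)) := by
  obtain ⟨x, hx⟩ := exists_ev_mul Z X (show k - sV p m + sV p m = k by ring) a (HK_vK m)
  refine ⟨x, ?_, hx⟩
  rw [mem_Nm, hx]
  exact mem_NM_of_ev Z X hs m (by ring) a ha

end Vale.Agent.P221.H377
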