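import Vale.Agent.P221.T.H817.Comm
import Vale.Agent.P221.T.SrcDef

/-!
# P221 (helper377): self maps of `V` and multiplications on `[Σ^k P, X]`

For `f : V⟦d⟧ ⟶ V` which induces the multiplication by `w ∈ π_d R` on the class of `ι : 𝟙 ⟶ V`, and
`a : P⟦k⟧ ⟶ X`, the map `X ⊗ f` maps the class of `ev a` in `π_k (X ⊗ V)` to the class of
`ev (a · w)` (`key`).
-/

open CategoryTheory MonoidalCategory MonObj Limits Pretriangulated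
open Vale.Agent.P251.T Vale.Agent.P251.M Vale.Agent.P251.S

set_option linter.unusedSectionVars false

universe u

namespace Vale.Agent.P221.H377

open Vale.Agent.P221.T

variable {𝒯 : Type u} [Category.{0} 𝒯] [Preadditive 𝒯] [HasZeroObject 𝒯]
    [HasShift 𝒯 ℤ] [∀ n : ℤ, (shiftFunctor 𝒯 n).Additive] [Pretriangulated 𝒯] [IsTriangulated 𝒯]
    [MonoidalCategory 𝒯] [SymmetricCategory 𝒯] [TensorTriangulated 𝒯] [MonoidalClosed 𝒯]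
    [HasCoproducts.{0} 𝒯] [HasProducts.{0} 𝒯] [StableCat 𝒯]

theorem rsh_rightUnitor (k : ℤ) (P : 𝒯) :
    (rsh k P (𝟙_ 𝒯)).hom ≫ ((ρ_ P).hom)⟦k⟧' = (ρ_ (P⟦k⟧)).hom := by
  rw [rsh_eq]
  simp only [Category.assoc]
  rw [← Functor.map_comp, braiding_rightUnitor, csh_leftUnitor, braiding_leftUnitor]

theorem fm_tensorRight (V : 𝒯) {P Q : 𝒯} {m : ℤ} (a : P⟦m⟧ ⟶ Q) :
    fm (tensorRight V) a = (rsh m P V).inv ≫ a ▷ V := rfl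

/-- the inclusion `X ⟶ X ⊗ V` -/
noncomputable def inc {V : 𝒯} (ι : 𝟙_ 𝒯 ⟶ V) (X : 𝒯) : X ⟶ X ⊗ V := (ρ_ X).inv ≫ X ◁ ι

theorem inc_nat {V : 𝒯} (ι : 𝟙_ 𝒯 ⟶ V) {X Y : 𝒯} (f : X ⟶ Y) :
    inc ι X ≫ f ▷ V = f ≫ inc ι Y := by
  unfold inc
  rw [Category.assoc, whisker_exchange, rightUnitor_inv_naturality_assoc]

theorem inc_one {V : 𝒯} (ι : 𝟙_ 𝒯 ⟶ V) : inc ι (𝟙_ 𝒯) = ι ≫ (λ_ V).inv := by
  unfold inc
  rw [leftUnitor_inv_naturality, unitors_inv_equal]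

/-- (L1) -/
theorem inc_fm {V : 𝒯} (ι : 𝟙_ 𝒯 ⟶ V) {P X : 𝒯} {k : ℤ} (a : P⟦k⟧ ⟶ X) :
    (inc ι P)⟦k⟧' ≫ fm (tensorRight V) a = a ≫ inc ι X := by
  have h1 : (inc ι P)⟦k⟧' ≫ (rsh k P V).inv = inc ι (P⟦k⟧) := by
    rw [Iso.comp_inv_eq]
    unfold inc
    rw [Category.assoc, rsh_nat_right, Functor.map_comp, ← Category.assoc]
    congr 1
    rw [Iso.eq_inv_comp, ← rsh_rightUnitor, Category.assoc, ← Functor.map_comp, Iso.hom_inv_id,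
      CategoryTheory.Functor.map_id, Category.comp_id]
  rw [fm_tensorRight, ← Category.assoc, h1, inc_nat]

/-- (L2) the interchange -/
theorem gc_fm_interchange {V V' P X : 𝒯} {d k k' : ℤ} (hd : SignProp 𝒯 d 1) (h : d + k = k')
    (h' : k + d = k') (a : P⟦k⟧ ⟶ X) (f : V⟦d⟧ ⟶ V') :
    gc h (fm (tensorRight V) a) (fm (tensorLeft X) f) =
      gc h' (fm (tensorLeft P) f) (fm (tensorRight V') a) := by
  rw [fm_tensorRight, fm_tensorRight, fm_tensorLeft, fm_tensorLeft]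
  unfold gc
  simp only [Functor.map_comp, Category.assoc]
  have h1 : (a ▷ V)⟦d⟧' ≫ (csh X d V).inv ≫ X ◁ f =
      (csh (P⟦k⟧) d V).inv ≫ (P⟦k⟧) ◁ f ≫ a ▷ V' := by
    rw [csh_inv_tlMap_assoc, whisker_exchange]
  have h2 : (P ◁ f)⟦k⟧' ≫ (rsh k P V').inv ≫ a ▷ V' =
      (rsh k P (V⟦d⟧)).inv ≫ (P⟦k⟧) ◁ f ≫ a ▷ V' := by
    rw [← Category.assoc, ← Category.assoc]
    congr 1
    rw [Iso.comp_inv_eq, Category.assoc, rsh_nat_right, Iso.inv_hom_id_assoc]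
  rw [h1, h2]
  have h3 := csh_tensorRight hd k P V
  have h4 : (shiftFunctorAdd' 𝒯 k d k' (by omega)).hom.app (P ⊗ V) =
      (shiftFunctorAdd' 𝒯 d k k' (by omega)).hom.app (P ⊗ V) ≫
        (shiftFunctorComm 𝒯 d k).hom.app (P ⊗ V) := by
    rw [shiftFunctorComm_eq 𝒯 d k k' (by omega)]
    exact (Iso.hom_inv_id_app_assoc _ _ _).symm
  have h5 : ((rsh k P V).inv)⟦d⟧' ≫ (csh (P⟦k⟧) d V).inv =
      (shiftFunctorComm 𝒯 k d).hom.app (P ⊗ V) ≫ ((csh P d V).inv)⟦k⟧' ≫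
        (rsh k P (V⟦d⟧)).inv := by
    rw [← cancel_epi (((rsh k P V).hom)⟦d⟧'), ← Functor.map_comp_assoc, Iso.hom_inv_id,
      CategoryTheory.Functor.map_id, Category.id_comp, ← cancel_epi ((csh (P⟦k⟧) d V).hom),
      Iso.hom_inv_id]
    have h6 := congrArg (fun z => z ≫ ((csh P d V).inv)⟦k⟧' ≫ (rsh k P (V⟦d⟧)).inv) h3
    simp only [Category.assoc] at h6
    rw [← h6, ← Functor.map_comp_assoc, Iso.hom_inv_id, CategoryTheory.Functor.map_id,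
      Category.id_comp, Iso.hom_inv_id]
  have h7 := congrArg (fun z => (shiftFunctorAdd' 𝒯 k d k' (by omega)).hom.app (P ⊗ V) ≫ z ≫
    (P⟦k⟧) ◁ f ≫ a ▷ V') h5
  simp only [Category.assoc] at h7
  refine h7.trans ?_
  rw [h4]
  simp only [Category.assoc]
  rw [reassoc_of% (comm_comm d k (P ⊗ V))]
  rfl

/-- (L3) -/
theorem unit_fm {V V' P : 𝒯} (g : 𝟙_ 𝒯 ⟶ P) {d : ℤ} (f : V⟦d⟧ ⟶ V') :
    ((λ_ V).inv ≫ g ▷ V)⟦d⟧' ≫ fm (tensorLeft P) f = f ≫ (λ_ V').inv ≫ g ▷ V' := by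
  rw [fm_tensorLeft, Functor.map_comp, Category.assoc, csh_inv_tlMap_assoc]
  have h1 : ((λ_ V).inv)⟦d⟧' ≫ (csh (𝟙_ 𝒯) d V).inv = (λ_ (V⟦d⟧)).inv := by
    rw [Iso.comp_inv_eq, Iso.eq_inv_comp, ← csh_leftUnitor, Category.assoc, ← Functor.map_comp,
      Iso.hom_inv_id, CategoryTheory.Functor.map_id, Category.comp_id]
  rw [reassoc_of% h1, ← whisker_exchange, leftUnitor_inv_naturality_assoc]

section key

variable {p : ℕ} [Fact p.Prime] {R P W : 𝒯} [MonObj R] [IsCommMonObj R] (b : BPS p R P W)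

/-- **the key lemma** -/
theorem key {V : 𝒯} (ι : 𝟙_ 𝒯 ⟶ V) {d : ℤ} (hd : SignProp 𝒯 d 1) {f : V⟦d⟧ ⟶ V}
    {w : (𝟙_ 𝒯)⟦d⟧ ⟶ R}
    (hf : (ι⟦d⟧' ≫ f) ≫ (λ_ V).inv ≫ η[R] ▷ V = w ≫ inc ι R)
    {X : 𝒯} {k k' : ℤ} (h : d + k = k') (h' : k + d = k') (a : P⟦k⟧ ⟶ X) :
    gc h (((η[R] ≫ b.c)⟦k⟧' ≫ a) ≫ inc ι X) (fm (tensorLeft X) f) =
      gc h' (w ≫ b.c) a ≫ inc ι X := by
  have h1 : ((η[R] ≫ b.c)⟦k⟧' ≫ a) ≫ inc ι X =
      (ι ≫ (λ_ V).inv ≫ (η[R] ≫ b.c) ▷ V)⟦k⟧' ≫ fm (tensorRight V) a := by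
    rw [Category.assoc, ← inc_fm, ← Functor.map_comp_assoc, ← inc_nat, inc_one, Category.assoc]
  have h2 : (ι ≫ (λ_ V).inv ≫ (η[R] ≫ b.c) ▷ V)⟦d⟧' ≫ fm (tensorLeft P) f =
      (w ≫ b.c) ≫ inc ι P := by
    rw [Functor.map_comp, Category.assoc, unit_fm, comp_whiskerRight, ← Category.assoc,
      ← Category.assoc, ← Category.assoc, Category.assoc (ι⟦d⟧' ≫ f), hf, Category.assoc,
      Category.assoc, inc_nat]
  rw [h1, ← comp_gc, gc_fm_interchange hd h h', comp_gc, h2, gc_map, inc_fm, gc_comp]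

end key

end Vale.Agent.P221.H377
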