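import Vale.Agent.P221.H377.Sys
import Vale.Agent.P221.H377.Key
import Vale.Agent.P221.H377.Exact
import Vale.Agent.P221.H395.Fp.Main
import Vale.Agent.P221.T.Src

/-!
# P221 (helper377): the induction over generalised Moore spectra

* `even_ind` : if `X ⊗ V` is even, so is `X`;
* `st_ind` : the state of the induction;
* `reg_of_genMoore` : `Reg Z X`.
-/

open CategoryTheory MonoidalCategory OnePoint Limits Pretriangulated MonObj
open Vale.Agent.P251.St Vale.Agent.P251.St.SHCat Vale.Agent.P257.St Vale.Agent.P251.T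
  Vale.Agent.P251.M Vale.Agent.P251.S Vale.Agent.P257.H702 Vale.Agent.P221.St
open Vale.Agent.P251.M.EvenSpheres
open Vale.Agent.P221.H395.Fp

set_option linter.unusedSectionVars false

noncomputable section

namespace Vale.Agent.P221.H377

open Vale.Agent.P221.T hiding Thick
open Vale.Agent.P221.H460

variable {T : SHCat} {S : Susp T} {R : RingSp T} {p : ℕ}

/-- the self map in the form `V⟦2k⟧ ⟶ V` -/
def fV {k : ℕ} {V : T.C} (f : Hom (ten (S.obj (Cn k)) V) V) : V⟦2 * (k : ℤ)⟧ ⟶ V :=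
  (((stdEven T.C).shiftNat (Iso.refl _) (k : ℤ)).app V).inv ≫ selfMap f

/-- the class of `w` -/
def wcl {k : ℕ} (w : Hom (S.obj (Cn k)) R.obj) : (𝟙_ T.C)⟦2 * (k : ℤ)⟧ ⟶ R.obj :=
  (stdSph (k : ℤ)).inv ≫ (isoE S k).inv ≫ w

theorem inc_selfMap {k : ℕ} {V : T.C} (f : Hom (ten (S.obj (Cn k)) V) V) (ι : 𝟙_ T.C ⟶ V) :
    ι⟦2 * (k : ℤ)⟧' ≫ fV f =
      ((stdSph (k : ℤ)).inv ≫ (isoE S k).inv) ≫ inc ι (S.obj (Cn k)) ≫ f := by
  have h1 : ι⟦2 * (k : ℤ)⟧' ≫ (((stdEven T.C).shiftNat (Iso.refl _) (k : ℤ)).app V).inv =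
      (((stdEven T.C).shiftNat (Iso.refl _) (k : ℤ)).app (𝟙_ T.C)).inv ≫
        ι ▷ (stdEven T.C).S k :=
    ((stdEven T.C).shiftNat (Iso.refl _) (k : ℤ)).inv.naturality ι
  have h2 : (((stdEven T.C).shiftNat (Iso.refl _) (k : ℤ)).app (𝟙_ T.C)).inv =
      (stdSph (k : ℤ)).inv ≫ (λ_ _).inv := by
    have h3 : (stdSph (T := T.C) (k : ℤ)).inv =
      (((stdEven T.C).shiftNat (Iso.refl _) (k : ℤ)).app (𝟙_ T.C)).inv ≫ (λ_ _).hom := rfl
    rw [h3, Category.assoc, Iso.hom_inv_id, Category.comp_id]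
  have h4 : (λ_ _).inv ≫ ι ▷ (stdEven T.C).S k ≫ selfMap f =
      (isoE S k).inv ≫ inc ι (S.obj (Cn k)) ≫ f := by
    unfold selfMap inc
    rw [← whisker_exchange_assoc, ← leftUnitor_inv_naturality_assoc]
    congr 1
    rw [Category.assoc, BraidedCategory.braiding_naturality_left_assoc]
    have h5 : (λ_ (S.obj (Cn k))).inv ≫ (β_ (𝟙_ T.C) (S.obj (Cn k))).hom =
        (ρ_ (S.obj (Cn k))).inv := by
      rw [← cancel_mono (ρ_ (S.obj (Cn k))).hom, Category.assoc, braiding_rightUnitor,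
        Iso.inv_hom_id, Iso.inv_hom_id]
    rw [reassoc_of% h5]
  rw [fV, reassoc_of% h1, h2, Category.assoc, h4, Category.assoc]

/-- `InducesMul` at the unit -/
theorem induces_unit {k : ℕ} {V : T.C} {w : Hom (S.obj (Cn k)) R.obj}
    {f : Hom (ten (S.obj (Cn k)) V) V} (h : InducesMul w f) (ι : 𝟙_ T.C ⟶ V) :
    (ι⟦2 * (k : ℤ)⟧' ≫ fV f) ≫ (λ_ V).inv ≫ η[R.obj] ▷ V = wcl w ≫ inc ι R.obj := by
  rw [inc_selfMap]
  set z : (𝟙_ T.C)⟦2 * (k : ℤ)⟧ ⟶ S.obj (Cn k) := (stdSph (k : ℤ)).inv ≫ (isoE S k).inv with hz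
  have h1 := h (2 * (k : ℤ)) (z ≫ inc ι (S.obj (Cn k)) ≫
    (λ_ (S.obj (Cn k) ⊗ V)).inv ≫ η[R.obj] ▷ (S.obj (Cn k) ⊗ V))
  change (z ≫ inc ι (S.obj (Cn k)) ≫
    (λ_ (S.obj (Cn k) ⊗ V)).inv ≫ η[R.obj] ▷ (S.obj (Cn k) ⊗ V)) ≫ R.obj ◁ f =
    (z ≫ inc ι (S.obj (Cn k)) ≫
      (λ_ (S.obj (Cn k) ⊗ V)).inv ≫ η[R.obj] ▷ (S.obj (Cn k) ⊗ V)) ≫
      (α_ R.obj (S.obj (Cn k)) V).inv ≫ ((𝟙 R.obj ⊗ₘ w) ≫ μ[R.obj]) ▷ V at h1
  simp only [Category.assoc] at h1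
  rw [← whisker_exchange, ← leftUnitor_inv_naturality_assoc] at h1
  have h2 : (λ_ (S.obj (Cn k) ⊗ V)).inv ≫ η[R.obj] ▷ (S.obj (Cn k) ⊗ V) ≫
      (α_ R.obj (S.obj (Cn k)) V).inv ≫ ((𝟙 R.obj ⊗ₘ w) ≫ μ[R.obj]) ▷ V = w ▷ V := by
    rw [associator_inv_naturality_left_assoc]
    have h3 : (λ_ (S.obj (Cn k) ⊗ V)).inv ≫ (α_ (𝟙_ T.C) (S.obj (Cn k)) V).inv =
        (λ_ (S.obj (Cn k))).inv ▷ V := by simp
    rw [reassoc_of% h3, ← comp_whiskerRight, ← comp_whiskerRight]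
    congr 1
    rw [id_tensorHom, ← whisker_exchange_assoc, MonObj.one_mul,
      ← leftUnitor_inv_naturality_assoc, Iso.inv_hom_id, Category.comp_id]
  rw [h2] at h1
  simp only [Category.assoc]
  rw [h1, inc_nat, hz, wcl]
  simp only [Category.assoc]

/-- the triangle of a self map, tensored with `X` -/
theorem self_tri {k : ℕ} {V W : T.C} {f : Hom (ten (S.obj (Cn k)) V) V} {g : Hom V W}
    {h : Hom W (sus (ten (S.obj (Cn k)) V))} (hT : Dist f g h) (X : T.C) :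
    ∃ δ, Triangle.mk (fm (tensorLeft X) (fV f)) (X ◁ g) δ ∈ distTriang T.C := by
  obtain ⟨h', hT'⟩ := selfMap_dist hT
  have h2 := dist_iso₁ hT' (((stdEven T.C).shiftNat (Iso.refl _) (k : ℤ)).app V).symm
  have h3 := dist_whiskerLeft X h2
  have h4 := dist_iso₁ h3 (csh X (2 * (k : ℤ)) V).symm
  exact ⟨_, h4⟩

/-- the map `p ^ i` -/
def pw (X : T.C) (a : ℤ) : X⟦(0 : ℤ)⟧ ⟶ X := (shiftFunctorZero T.C ℤ).hom.app X ≫ (a • 𝟙 X)

/-- the triangle of `p ^ i`, tensored with `X` -/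
theorem base_tri {a : ℤ} {V : T.C} {g : Hom T.one V} {h : Hom V (sus T.one)}
    (hT : Dist (zmul a (ident T.one)) g h) (X : T.C) :
    ∃ δ, Triangle.mk (pw X a) (inc g X) δ ∈ distTriang T.C := by
  have h3 := dist_whiskerLeft X hT
  let e : X⟦(0 : ℤ)⟧ ≅ X ⊗ 𝟙_ T.C := (shiftFunctorZero T.C ℤ).app X ≪≫ (ρ_ X).symm
  refine ⟨(X ◁ h ≫ ((tensorLeft X).commShiftIso (1 : ℤ)).hom.app _) ≫ e.inv⟦(1 : ℤ)⟧',
    isomorphic_distinguished _ h3 _ (Triangle.isoMk _ _ e (ρ_ X).symm (Iso.refl _) ?_ ?_ ?_)⟩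
  · change ((shiftFunctorZero T.C ℤ).hom.app X ≫ (a • 𝟙 X)) ≫ (ρ_ X).inv =
      ((shiftFunctorZero T.C ℤ).hom.app X ≫ (ρ_ X).inv) ≫ X ◁ (a • 𝟙 (𝟙_ T.C))
    have h4 : X ◁ (a • 𝟙 (𝟙_ T.C)) = a • 𝟙 (X ⊗ 𝟙_ T.C) := by
      have h5 := map_zsmul ((tensorLeft X).mapAddHom (X := 𝟙_ T.C) (Y := 𝟙_ T.C)) a (𝟙 _)
      change X ◁ (a • 𝟙 (𝟙_ T.C)) = a • (X ◁ 𝟙 (𝟙_ T.C)) at h5
      rw [h5, MonoidalCategory.whiskerLeft_id]
    rw [h4, Preadditive.comp_zsmul, Preadditive.comp_zsmul, Preadditive.zsmul_comp]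
    congr 1
    rw [Category.comp_id, Category.assoc]
    congr 1
    exact Category.id_comp _
  · change inc g X ≫ 𝟙 _ = (ρ_ X).inv ≫ X ◁ g
    rw [Category.comp_id]
    rfl
  · change ((X ◁ h ≫ ((tensorLeft X).commShiftIso (1 : ℤ)).hom.app _) ≫ e.inv⟦(1 : ℤ)⟧') ≫
      e.hom⟦(1 : ℤ)⟧' = 𝟙 _ ≫ (X ◁ h ≫ ((tensorLeft X).commShiftIso (1 : ℤ)).hom.app _)
    rw [Category.assoc, ← Functor.map_comp, Iso.inv_hom_id, CategoryTheory.Functor.map_id,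
      Category.id_comp]
    exact Category.comp_id _

theorem gc_pw {X : T.C} {a k : ℤ} (h : (0 : ℤ) + k = k) (y : (𝟙_ T.C)⟦k⟧ ⟶ X) :
    gc h y (pw X a) = a • y := by
  rw [pw, gc_zero_shift, Preadditive.comp_zsmul, Category.comp_id]

/-! ### `X` is even -/

/-- **evenness** -/
theorem even_ind_aux (hp : p.Prime) {φ : GHom S p R} {j : ℕ} {V : T.C} (hV : IsGenMoore φ j V) :
    (∀ N : T.C, BBd N → BBd (N ⊗ V)) ∧ 1 ≤ j ∧
      ∀ X : T.C, H395.PComplete p X → BBd X → EvenH (X ⊗ V) → EvenH X := by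
  induction hV with
  | @base i V g h hi hT =>
    refine ⟨?_, le_refl _, ?_⟩
    · intro N hN
      exact BBd.whisker hT (hN.of_iso (ρ_ N).symm) (hN.of_iso (ρ_ N).symm)
    · intro X hX _ hev k hk
      obtain ⟨δ, hδ⟩ := base_tri hT X
      obtain ⟨C, i', δ', hC⟩ := distinguished_cocone_triangle ((p : ℤ) • 𝟙 (𝟙_ T.C))
      refine hX.hom_eq_zero_of_div hC fun y => ?_
      obtain ⟨y', hy'⟩ := exists_gc_of_comp_eq_zero hδ (zero_add k) y (hev k hk _)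
      refine ⟨(p : ℤ) ^ (i - 1) • y', ?_⟩
      rw [← hy', gc_pw, smul_smul, ← pow_succ', Nat.sub_add_cancel hi]
  | @step j k i V W f g h w hV hi hw hf hT ih =>
    obtain ⟨hbd, hj, ih⟩ := ih
    obtain ⟨h', hT'⟩ := selfMap_dist hT
    refine ⟨?_, by omega, ?_⟩
    · intro N hN
      exact BBd.whisker hT' ((hbd N hN).tensS k) (hbd N hN)
    · intro X hX hb hev
      refine ih X hX hb ?_
      obtain ⟨δ, hδ⟩ := self_tri hT X
      have hk := degree_eq hp w hw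
      have hpj : 1 < p ^ j := Nat.one_lt_pow (by omega) hp.one_lt
      have hd : 0 < k := by
        rw [hk]
        exact Nat.mul_pos hi (by omega)
      exact EvenH.of_tri hδ hev (even_two_mul _) (by positivity) (hbd X hb)

/-- **evenness** -/
theorem even_of_genMoore (hp : p.Prime) {φ : GHom S p R} {j : ℕ} {V : T.C}
    (hV : IsGenMoore φ j V) {X : T.C} (hX : H395.PComplete p X) (hb : BBd X)
    (hev : EvenH (X ⊗ V)) : EvenH X := (even_ind_aux hp hV).2.2 X hX hb hev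

end Vale.Agent.P221.H377
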