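import Vale.Agent.P221.H377.Ind

/-!
# P221 (helper377): the state of the induction over generalised Moore spectra

* `st_ind` : the state of the induction, for the map `⨁ A_k ⟶ π_* (X ⊗ V)`;
* `reg_of_genMoore` : `Reg Z X`.
-/

open CategoryTheory MonoidalCategory OnePoint Limits Pretriangulated MonObj
open Vale.Agent.P251.St Vale.Agent.P251.St.SHCat Vale.Agent.P257.St Vale.Agent.P251.T
  Vale.Agent.P251.M Vale.Agent.P251.S Vale.Agent.P257.H702 Vale.Agent.P221.St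
open Vale.Agent.P251.M.EvenSpheres
open Vale.Agent.P221.H395.Fp

set_option linter.unusedSectionVars false

noncomputable section

namespace Vale.Agent.P221.H377

open Vale.Agent.P221.T hiding Thick
open Vale.Agent.P221.H460

section gen

universe u

variable {𝒯 : Type u} [Category.{0} 𝒯] [Preadditive 𝒯] [HasZeroObject 𝒯]
    [HasShift 𝒯 ℤ] [∀ n : ℤ, (shiftFunctor 𝒯 n).Additive] [Pretriangulated 𝒯] [IsTriangulated 𝒯]
    [MonoidalCategory 𝒯] [SymmetricCategory 𝒯] [TensorTriangulated 𝒯] [MonoidalClosed 𝒯]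
    [HasCoproducts.{0} 𝒯] [HasProducts.{0} 𝒯] [StableCat 𝒯] {p n : ℕ} [hp : Fact p.Prime]
    {P : 𝒯} (Sc : SrcT p n P) (X : 𝒯)

/-- elements of `A k` as morphisms -/
def toH {k : ℤ} (a : (Sc.sys X).A k) : P⟦k⟧ ⟶ X := a

/-- morphisms as operations -/
def toE {m : ℤ} (γ : P⟦m⟧ ⟶ P) : Sc.src.E m := γ

/-- the evaluation -/
def uev (k : ℤ) : (Sc.sys X).A k →+ ((𝟙_ 𝒯)⟦k⟧ ⟶ X) := (Sc.sys X).ev k

theorem uev_eq (k : ℤ) (a : (Sc.sys X).A k) : uev Sc X k a = Sc.u⟦k⟧' ≫ toH Sc X a := rfl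

theorem uev_act {k m k' : ℤ} (h : k + m = k') (a : (Sc.sys X).A k) (γ : P⟦m⟧ ⟶ P) :
    uev Sc X k' ((Sc.sys X).act h a (toE Sc γ)) = gc h (Sc.u⟦m⟧' ≫ γ) (toH Sc X a) :=
  comp_gc h Sc.u γ (toH Sc X a)

/-- the evaluation `⨁ A_k ⟶ π_* X` -/
def s0 : AA (Sc.sys X) →+ PiM X :=
  DirectSum.toAddMonoid fun k => (PiM.of X k).comp (uev Sc X k)

theorem s0_of (k : ℤ) (a : (Sc.sys X).A k) :
    s0 Sc X (ofA (Sc.sys X) k a) = PiM.of X k (uev Sc X k a) :=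
  DirectSum.toAddMonoid_of _ _ _

theorem s0_apply (α : AA (Sc.sys X)) (k : ℤ) : (s0 Sc X α) k = uev Sc X k (α k) := by
  classical
  refine ind (Sc.sys X) (Q := fun α => (s0 Sc X α) k = uev Sc X k (α k)) ?_ ?_ ?_ α
  · rw [map_zero, DirectSum.zero_apply, DirectSum.zero_apply, map_zero]
  · intro l a
    rw [s0_of]
    by_cases h : k = l
    · subst h
      rw [PiM.of, ofA, DirectSum.of_eq_same, DirectSum.of_eq_same]
    · rw [PiM.of, ofA, DirectSum.of_eq_of_ne _ _ _ h, DirectSum.of_eq_of_ne _ _ _ h, map_zero]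
  · intro α β h h'
    rw [map_add, DirectSum.add_apply, DirectSum.add_apply, h, h', map_add]

theorem mem_D0' {α : AA (Sc.sys X)} : α ∈ D0 (Sc.sys X) ↔ ∀ k, uev Sc X k (α k) = 0 := Iff.rfl

theorem s0_eq_zero (α : AA (Sc.sys X)) : s0 Sc X α = 0 ↔ α ∈ D0 (Sc.sys X) := by
  rw [mem_D0']
  constructor
  · intro h k
    rw [← s0_apply, h, DirectSum.zero_apply]
  · intro h
    refine PiM_ext fun k => ?_
    rw [s0_apply, h k, DirectSum.zero_apply]

theorem s0_surjective (hs : ∀ k, Function.Surjective ((Sc.sys X).ev k)) :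
    Function.Surjective (s0 Sc X) := by
  intro γ
  refine PiM_ind (Q := fun γ => ∃ α, s0 Sc X α = γ) ⟨0, map_zero _⟩ ?_ ?_ γ
  · intro k x
    obtain ⟨a, rfl⟩ := hs k x
    exact ⟨_, s0_of Sc X k a⟩
  · rintro _ _ ⟨α, rfl⟩ ⟨β, rfl⟩
    exact ⟨α + β, map_add _ _ _⟩

theorem map0_comp {X Y Z : 𝒯} (f : X ⟶ Y) (g : Y ⟶ Z) (α : PiM X) :
    PiM.map0 g (PiM.map0 f α) = PiM.map0 (f ≫ g) α := by
  refine PiM_ext fun k => ?_
  rw [map0_apply, map0_apply, map0_apply, Category.assoc]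

/-- the map `⨁ A_k ⟶ π_* (X ⊗ V)` -/
def sV {V : 𝒯} (ι : 𝟙_ 𝒯 ⟶ V) : AA (Sc.sys X) →+ PiM (X ⊗ V) :=
  (PiM.map0 (inc ι X)).comp (s0 Sc X)

theorem sV_of {V : 𝒯} (ι : 𝟙_ 𝒯 ⟶ V) (k : ℤ) (a : (Sc.sys X).A k) :
    sV Sc X ι (ofA (Sc.sys X) k a) = PiM.of (X ⊗ V) k (uev Sc X k a ≫ inc ι X) := by
  rw [sV, AddMonoidHom.comp_apply, s0_of, PiM.map0_of]

end gen

variable {T : SHCat} {S : Susp T} {R : RingSp T} {p : ℕ} [hp : Fact p.Prime]
  {Pc W₀ : T.C} (b : BPS p R.obj Pc W₀) {n : ℕ} {ld : Lead p n} {Sc : SrcT p n Pc}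
  {O : OpAlg ld Sc.src} (X : T.C) {M : Type} [AddCommGroup M] [Module (KK p) M]
  (Z : Ev O (Sc.sys X) M) (OX : OpX O)

/-- the compatibility of the classes of the powers of `v_j` with the operations -/
def MulHyp (b : BPS p R.obj Pc W₀) (φ : GHom S p R) (OX : OpX O) : Prop :=
  ∀ (k j i : ℕ) (w : VPoly p k), (w : MvPolynomial ℕ ℤ) = vEl p j ^ i →
    ∃ γ : Pc⟦2 * (k : ℤ)⟧ ⟶ Pc, Sc.u⟦2 * (k : ℤ)⟧' ≫ γ = wcl (φ.val w) ≫ b.c ∧
      ∀ z, O.T (2 * (k : ℤ)) (toE Sc γ) z = OX.eta (Vale.Agent.P221.T.vK p j) ^ i * z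

variable {b X}

theorem degree_sV {j k i : ℕ} (w : VPoly p k) (hw : (w : MvPolynomial ℕ ℤ) = vEl p j ^ i) :
    2 * (k : ℤ) = i * Vale.Agent.P221.T.sV p j := by
  have h1 := degree_eq hp.out w hw
  have h2 : 1 ≤ p ^ j := Nat.one_le_pow _ _ hp.out.pos
  rw [h1, Vale.Agent.P221.T.sV]
  push_cast [Nat.cast_sub h2]
  ring

include Z in
/-- compatibility of the self map with the multiplication -/
theorem map_sV (hu : Sc.u = η[R.obj] ≫ b.c) {φ : GHom S p R} (hmul : MulHyp b φ OX) {j k i : ℕ}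
    {V : T.C} {f : Hom (ten (S.obj (Cn k)) V) V} {w : VPoly p k}
    (hw : (w : MvPolynomial ℕ ℤ) = vEl p j ^ i) (hf : InducesMul (φ.val w) f) (ι : 𝟙_ T.C ⟶ V)
    (α : AA (Sc.sys X)) : PiM.map (fm (tensorLeft X) (fV f)) (sV Sc X ι α) =
      sV Sc X ι ((xx OX (Sc.sys X) j ^ i : AddMonoid.End (AA (Sc.sys X))) α) := by
  refine ind (Sc.sys X) (Q := fun α => PiM.map (fm (tensorLeft X) (fV f)) (sV Sc X ι α) =
      sV Sc X ι ((xx OX (Sc.sys X) j ^ i : AddMonoid.End (AA (Sc.sys X))) α)) ?_ ?_ ?_ α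
  · simp only [map_zero]
  · intro l a
    obtain ⟨γ, h1, h2⟩ := hmul k j i w hw
    have hd := degree_sV w hw
    have h' : l + 2 * (k : ℤ) = l + 2 * (k : ℤ) := rfl
    have h : 2 * (k : ℤ) + l = l + 2 * (k : ℤ) := add_comm _ _
    rw [xx_pow_of Z OX j i (show l + i * Vale.Agent.P221.T.sV p j = l + 2 * (k : ℤ) by rw [hd]) a
      (a' := (Sc.sys X).act h' a (toE Sc γ)) (fun z => by
        rw [Z.act, LinearMap.comp_apply, h2])]
    rw [sV_of, sV_of, uev_act, h1, uev_eq, hu]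
    exact (PiM.map_of _ h _).trans (congrArg (PiM.of (X ⊗ V) (l + 2 * (k : ℤ)))
      (key b ι (signProp_two_mul (T := T.C) k) (induces_unit hf ι) h h' (toH Sc X a)))
  · intro α β h h'
    simp only [map_add, h, h']

include Z in
/-- compatibility for `p ^ i` -/
theorem map_s0 (i : ℕ) (α : AA (Sc.sys X)) : PiM.map (pw X ((p : ℤ) ^ i)) (s0 Sc X α) =
    s0 Sc X ((xx OX (Sc.sys X) 0 ^ i : AddMonoid.End (AA (Sc.sys X))) α) := by
  refine ind (Sc.sys X) (Q := fun α => PiM.map (pw X ((p : ℤ) ^ i)) (s0 Sc X α) =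
    s0 Sc X ((xx OX (Sc.sys X) 0 ^ i : AddMonoid.End (AA (Sc.sys X))) α)) ?_ ?_ ?_ α
  · simp only [map_zero]
  · intro l a
    have h0 : Vale.Agent.P221.T.sV p 0 = 0 := by simp [Vale.Agent.P221.T.sV]
    rw [xx_pow_of Z OX 0 i (show l + i * Vale.Agent.P221.T.sV p 0 = l by rw [h0]; ring) a
      (a' := (p ^ i : ℕ) • a) (fun z => by
        have h1 : OX.eta (Vale.Agent.P221.T.vK p 0) = ((p : ℕ) : GG p) := map_natCast OX.eta p
        rw [map_nsmul, LinearMap.smul_apply, h1, ← Nat.cast_pow, ← nsmul_eq_mul, map_nsmul])]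
    rw [s0_of, s0_of, PiM.map_of _ (zero_add l), gc_pw, map_nsmul, ← natCast_zsmul]
    push_cast
    rfl
  · intro α β h h'
    simp only [map_add, h, h']

include Z in
/-- **the induction** -/
theorem st_ind (hu : Sc.u = η[R.obj] ≫ b.c) {φ : GHom S p R} (hmul : MulHyp b φ OX)
    (hb : BBd X) (hev : EvenH X)
    (hs : ∀ k, Function.Surjective ((Sc.sys X).ev k)) {j : ℕ} {V : T.C}
    (hV : IsGenMoore φ j V) : EvenH (X ⊗ V) → ∃ (ι : 𝟙_ T.C ⟶ V) (e : ℕ → ℕ),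
      St (D0 (Sc.sys X)) (xx OX (Sc.sys X)) e j (sV Sc X ι) := by
  induction hV with
  | @base i V g h hi hT =>
    intro hXV
    obtain ⟨δ, hδ⟩ := base_tri hT X
    obtain ⟨h1, h2, h3⟩ := exact_of_tri hδ hXV hev Even.zero
    exact ⟨g, _, (St.zero (x := xx OX (Sc.sys X)) (e := fun _ => 1)
      (s0_surjective Sc X hs) (s0_eq_zero Sc X)).step h1 h2 h3 hi (fun α => map_s0 Z OX i α)⟩
  | @step j k i V W f g h w hV hi hw hf hT ih =>
    intro hXW
    obtain ⟨δ, hδ⟩ := self_tri hT X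
    have hbd := (even_ind_aux hp.out hV).1
    have hj := (even_ind_aux hp.out hV).2.1
    have hk := degree_eq hp.out w hw
    have hpj : 1 < p ^ j := Nat.one_lt_pow (by omega) hp.out.one_lt
    have hd : 0 < k := by
      rw [hk]
      exact Nat.mul_pos hi (by omega)
    have hXV : EvenH (X ⊗ V) :=
      EvenH.of_tri hδ hXW (even_two_mul _) (by positivity) (hbd X hb)
    obtain ⟨ι, e, hst⟩ := ih hXV
    obtain ⟨h1, h2, h3⟩ := exact_of_tri hδ hXW hXV (even_two_mul _)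
    have h4 := hst.step h1 h2 h3 hi (fun α => map_sV Z OX hu hmul hw hf ι α)
    have h5 : (PiM.map0 (X ◁ g)).comp (sV Sc X ι) = sV Sc X (ι ≫ g) := by
      refine AddMonoidHom.ext fun α => ?_
      rw [AddMonoidHom.comp_apply, sV, sV, AddMonoidHom.comp_apply, AddMonoidHom.comp_apply,
        map0_comp]
      congr 2
      unfold inc
      rw [Category.assoc, MonoidalCategory.whiskerLeft_comp]
    refine ⟨ι ≫ g, upd e j i, ?_⟩
    rw [← h5]
    exact h4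

/-- **regularity** -/
theorem reg_of_genMoore (hu : Sc.u = η[R.obj] ≫ b.c) {φ : GHom S p R} (hmul : MulHyp b φ OX)
    (hX : H395.PComplete p X) (hb : BBd X)
    (hs : ∀ k, Function.Surjective ((Sc.sys X).ev k)) {V : T.C}
    (hV : IsGenMoore φ (n + 1) V) (hXV : EvenH (X ⊗ V)) (hfin : TotallyFinite (ten X V)) :
    Reg Z OX := by
  have hev := even_of_genMoore hp.out hV hX hb hXV
  obtain ⟨ι, e, hst⟩ := st_ind Z OX hu hmul hb hev hs hV hXV
  obtain ⟨C, i', δ', hC⟩ := distinguished_cocone_triangle ((p : ℤ) • 𝟙 (𝟙_ T.C))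
  have hcpl : ∀ (k : ℤ) (z : ℕ → ((𝟙_ T.C)⟦k⟧ ⟶ X)), (∀ i, z i = p • z (i + 1)) →
      ∀ i, z i = 0 := fun k z hz => hX.eq_zero_of_compat hC z fun i => by
    rw [natCast_zsmul]
    exact hz i
  refine reg_of_st Z OX hs hb hcpl (B := fun k => (𝟙_ T.C)⟦k⟧ ⟶ X ⊗ V)
    (fun k => (Preadditive.rightComp _ (inc ι X)).comp (uev Sc X k)) hfin.1 ?_ hst
    (fun k a ha => ?_)
  · obtain ⟨N, hN⟩ := hfin.2
    exact ⟨N, fun k hk y => hN k (lt_of_lt_of_le hk (le_abs_self k)) y⟩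
  · change uev Sc X k a ≫ inc ι X = 0 at ha
    rw [sV_of, ha, map_zero]

end Vale.Agent.P221.H377
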