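import Vale.Agent.P221.H377.EvK

/-!
# P221 (helper377): Koszul exactness in high degrees, with one gap less

`D` has gaps of length `g ≥ 1`, `[P⟦t⟧, X ⊗ V_j] = 0` for `¬ D t`, `j ≤ m`, in large degrees, and
`n ≤ m + g + 1`.

* `kz` : exactness in homological degrees `1, …, g + 1`;
* `kz_top` : exactness in homological degree `g + 2`, from exactness in homological degree `0`;
* `kz_part` : exactness in homological degrees `≥ g + 3`;
* `exHigh_weak` : the Koszul complex of `v_0, …, v_n` on `[P, X]` is exact in high degrees.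
-/

open CategoryTheory MonoidalCategory MonObj Limits Pretriangulated Filter
open Vale.Agent.P251.T Vale.Agent.P251.M Vale.Agent.P251.S

set_option linter.unusedSectionVars false

universe u

noncomputable section

namespace Vale.Agent.P221.H377

open Vale.Agent.P221.T hiding Thick
open Vale.Agent.P221.H460
open Vale.Agent.P221.H626 (InB IsReg Ex ExHigh SE KC KG Wd inB_zero inB_succ ex_of_reg ex_of_zero
  ex_gt ex_neg exHigh_root ex_zero_iff)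
open Vale.Agent.P221.H543 (grA xo mapA)

section gen

variable {𝒯 : Type u} [Category.{0} 𝒯] [Preadditive 𝒯] [HasZeroObject 𝒯]
    [HasShift 𝒯 ℤ] [∀ n : ℤ, (shiftFunctor 𝒯 n).Additive] [Pretriangulated 𝒯] [IsTriangulated 𝒯]
    [MonoidalCategory 𝒯] [SymmetricCategory 𝒯] [TensorTriangulated 𝒯] [MonoidalClosed 𝒯]
    [HasCoproducts.{0} 𝒯] [HasProducts.{0} 𝒯] [StableCat 𝒯] {p n : ℕ} [hp : Fact p.Prime]
    {P : 𝒯} {Sc : SrcT p n P} {ld : Lead p n} {O : OpAlg ld Sc.src}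

variable {OX : OpX O} {D : ℤ → Prop} {e : ℕ → ℕ} {L : ℕ → Lv 𝒯} {CC : 𝒯 → Prop} {m g : ℕ}

variable (P D L n CC m) in
/-- the class of objects -/
structure Cl (X : 𝒯) : Prop where
  cc : CC X
  con : ∀ j ≤ m, j ≤ n + 1 → Van P D 0 (L j) X

variable (hT : Twr OX e L (n + 1)) (hD : Deg p g D) (hg : 1 ≤ g) (hC : CovCl OX D CC)

include hD hg in
theorem Deg.one : ∀ t, D t → ¬ D (t + 1) := fun t ht => hD.gap t ht 1 le_rfl (by omega)

section cov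

variable (h1D : ∀ t, D t → ¬ D (t + 1)) {X₁ P₀ X : 𝒯} {i : X₁ ⟶ P₀} {q : P₀ ⟶ X}
  {δ : X ⟶ X₁⟦(1 : ℤ)⟧} (H : Triangle.mk i q δ ∈ distTriang 𝒯)

include h1D H in
/-- maps lift -/
theorem lift_of_tri (hX₁ : ∀ t, ¬ D t → ∀ a : P⟦t⟧ ⟶ X₁, a = 0)
    (hX : ∀ t, ¬ D t → ∀ a : P⟦t⟧ ⟶ X, a = 0) {k : ℤ} (a : P⟦k⟧ ⟶ X) :
    ∃ a' : P⟦k⟧ ⟶ P₀, a' ≫ q = a := by
  by_cases hk : D k
  · obtain ⟨w, -, hw⟩ := exists_conn' H (show 1 + (k - 1) = k by ring) a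
    exact hw (hX₁ _ (fun h => h1D _ h (by rwa [sub_add_cancel])) w)
  · exact ⟨0, by rw [zero_comp, hX k hk a]⟩

end cov

variable (OX e L D n CC m) in
/-- a cover with its properties -/
structure Cvd {X₁ P₀ X : 𝒯} (i : X₁ ⟶ P₀) (q : P₀ ⟶ X) (δ : X ⟶ X₁⟦(1 : ℤ)⟧) : Prop where
  H : Triangle.mk i q δ ∈ distTriang 𝒯
  cl₁ : Cl n P D L CC m X₁
  ev₁ : HasEv O X₁
  van₁ : ∀ t, ¬ D t → ∀ a : P⟦t⟧ ⟶ X₁, a = 0
  ev₀ : HasEv O P₀
  van₀ : ∀ t, ¬ D t → ∀ a : P⟦t⟧ ⟶ P₀, a = 0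
  vanX : ∀ t, ¬ D t → ∀ a : P⟦t⟧ ⟶ X, a = 0
  lift : ∀ {k : ℤ} (a : P⟦k⟧ ⟶ X), ∃ a' : P⟦k⟧ ⟶ P₀, a' ≫ q = a
  sur₀ : ∀ j ≤ n + 1, Sur P D (L j) P₀
  ker₀ : ∀ j ≤ n + 1, Ker OX e j (L j) P₀
  con₀ : ∀ j ≤ n + 1, Van P D 0 (L j) P₀
  sur₁ : ∀ j ≤ n + 1, j ≤ m + g + 1 → Sur P D (L j) X₁
  ker₁ : ∀ j ≤ n + 1, j ≤ m + g + 2 → Ker OX e j (L j) X₁
  ex₀ : ∀ s : ℤ, 1 ≤ s → ∀ t, Ex (xe OX P₀ e) (grA (Sc.sys P₀)) (de p e) (n + 1) s t

include hT hD hg hC in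
/-- **covers** -/
theorem Cl.cover {X : 𝒯} (hX : Cl n P D L CC m X) : ∃ (X₁ P₀ : 𝒯) (i : X₁ ⟶ P₀) (q : P₀ ⟶ X)
    (δ : X ⟶ X₁⟦(1 : ℤ)⟧), Cvd n OX D e L CC m (g := g) i q δ := by
  have h1D := hD.one hg
  obtain ⟨X₁, P₀, i, q, δ, H, hX₁, hP₀, hR⟩ := hC.cov hX.cc
  have hE₀ := hC.ev hP₀
  have hE₁ := hC.ev hX₁
  have hl : ∀ {k : ℤ} (a : P⟦k⟧ ⟶ X), ∃ a' : P⟦k⟧ ⟶ P₀, a' ≫ q = a := fun a =>
    lift_of_tri h1D H (hC.van hX₁) (hC.van hX.cc) a
  have hR' : IsReg (xe OX P₀ e) (grA (Sc.sys P₀)) (de p e) (n + 1) :=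
    isReg_pow (fun a b z => xo_comm' OX hE₀ a b z) (fun a k z hz => H543.xo_mem a k z hz) hR
  have h0 := reg_data hT hD h1D hE₀ (hC.van hP₀) le_rfl hR'
  have hx := x_data hT hD hg (hC.ev hX.cc) (hC.van hX.cc) hX.con
  have h1 := syz_data hT hD h1D H hl hE₁ (hC.van hX₁) (N₀ := m + g)
    (fun j hj hj' => (hx j hj').1 hj) (fun j hj => (h0 j hj).2.2)
  refine ⟨X₁, P₀, i, q, δ, H, ⟨hX₁, fun j hj hj' => ?_⟩, hE₁, hC.van hX₁, hE₀, hC.van hP₀,
    hC.van hX.cc, hl, fun j hj => (h0 j hj).1, fun j hj => (h0 j hj).2.1,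
    fun j hj => (h0 j hj).2.2, fun j hj hj' => (h1 j hj).1 (by omega),
    fun j hj hj' => (h1 j hj).2 (by omega), fun s hs t => ?_⟩
  · exact Van.syz H hl (h0 j hj').2.2 (hX.con j hj hj') ((hx j hj').1 (by omega))
  · exact ex_of_reg (fun a b z => xe_comm OX hE₀ e a b z)
      (fun a k z hz => xe_mem OX e a k z hz) hR' hs

section use

variable {X₁ P₀ X : 𝒯} {i : X₁ ⟶ P₀} {q : P₀ ⟶ X} {δ : X ⟶ X₁⟦(1 : ℤ)⟧}
  (C : Cvd n OX D e L CC m (g := g) i q δ)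

include C in
/-- the boundary map of `⊗ V` -/
theorem Cvd.bdry {V : 𝒯} {k l : ℤ} (h : 1 + l = k) (hz : ∀ z : P⟦k⟧ ⟶ X ⊗ V, z = 0)
    (w : P⟦l⟧ ⟶ X₁ ⊗ V) (hw : w ≫ (i ▷ V) = 0) : w = 0 := by
  have hTV := dist_whiskerRight V C.H
  obtain ⟨δ', hTV⟩ : ∃ δ', Triangle.mk (i ▷ V) (q ▷ V) δ' ∈ distTriang 𝒯 := ⟨_, hTV⟩
  exact exists_bdry hTV h w hw hz

include hD hg C in
theorem Cvd.se (c : ℤ) : SE (mapA (Sc.map0 i)) (mapA (Sc.map0 q)) (grA (Sc.sys X₁))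
    (grA (Sc.sys P₀)) (grA (Sc.sys X)) c :=
  se_of_tri (hD.one hg) C.H C.van₁ C.vanX c

include hD hg C in
/-- one step, in homological degree `1` -/
theorem Cvd.ex_one (hn : n ≤ m + g + 1)
    (hz : ∀ᶠ t in atTop, D t → ∀ z : P⟦t + 1⟧ ⟶ X ⊗ (L (n + 1)).V, z = 0) :
    ∀ᶠ t in atTop, Ex (xe OX X e) (grA (Sc.sys X)) (de p e) (n + 1) 1 t := by
  filter_upwards [hz, C.ker₀ (n + 1) le_rfl, C.ker₁ (n + 1) le_rfl (by omega)] with t h1 h2 h3
  by_cases ht : D t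
  · refine (C.se hD hg (t - Wd (de p e) (n + 1))).ex_one (x := xe OX X₁ e)
      (x' := xe OX P₀ e) (x'' := xe OX X e) (dg := de p e) (r := n + 1) (t := t)
      (fun a => de_nonneg e a) (fun a k z hz => xe_mem OX e a k z hz)
      (fun a k z hz => xe_mem OX e a k z hz) (fun a z => mapA_xe OX i e a z)
      (fun a z => mapA_xe OX q e a z) (fun a b z => xe_comm OX C.ev₀ e a b z)
      (by rw [sub_add_cancel]) (C.ex₀ 1 le_rfl t) (fun z hz' hI => ?_)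
    obtain ⟨a, rfl⟩ := H543.exists_of_mem_grA hz'
    change P⟦t⟧ ⟶ X₁ at a
    rw [mapA_map0] at hI
    have h4 := (h2 (a ≫ i)).2 hI
    rw [Category.assoc, ← inc_nat, ← Category.assoc] at h4
    exact (h3 a).1 (C.bdry (by ring) (h1 ht) _ h4)
  · exact ex_of_zero (kg_zero hD C.vanX e (n + 1) _ t ht)

include hD hg C in
/-- one step, in homological degrees `≥ 1` -/
theorem Cvd.ex_succ {s : ℤ} (hs : 1 ≤ s) {t : ℤ}
    (h : Ex (xe OX X₁ e) (grA (Sc.sys X₁)) (de p e) (n + 1) s t) :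
    Ex (xe OX X e) (grA (Sc.sys X)) (de p e) (n + 1) (s + 1) t :=
  (C.se hD hg (t - Wd (de p e) (n + 1))).ex_right (x := xe OX X₁ e)
    (x' := xe OX P₀ e) (x'' := xe OX X e) (dg := de p e) (r := n + 1) (t := t)
    (fun a => de_nonneg e a) (fun a k z hz => xe_mem OX e a k z hz)
    (fun a k z hz => xe_mem OX e a k z hz) (fun a z => mapA_xe OX i e a z)
    (fun a z => mapA_xe OX q e a z) (fun a b z => xe_comm OX C.ev₀ e a b z)
    (by rw [sub_add_cancel]) (C.ex₀ _ (by omega) t) h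

end use

include hT hD hg hC in
/-- **homological degrees `1, …, g + 1`** -/
theorem kz (hn : n ≤ m + g + 1) (s : ℕ) : s ≤ g → ∀ {X : 𝒯}, Cl n P D L CC m X →
    (∀ᶠ t in atTop, D t → ∀ z : P⟦t + ((s + 1 : ℕ) : ℤ)⟧ ⟶ X ⊗ (L (n + 1)).V, z = 0) →
    ∀ᶠ t in atTop, Ex (xe OX X e) (grA (Sc.sys X)) (de p e) (n + 1) ((s + 1 : ℕ) : ℤ) t := by
  induction s with
  | zero =>
    intro _ X hX hz
    obtain ⟨X₁, P₀, i, q, δ, C⟩ := hX.cover hT hD hg hC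
    exact C.ex_one hD hg hn hz
  | succ s ih =>
    intro hs X hX hz
    obtain ⟨X₁, P₀, i, q, δ, C⟩ := hX.cover hT hD hg hC
    have h1 := ih (by omega) C.cl₁ (by
      filter_upwards [hz, ev_add (C.con₀ (n + 1) le_rfl).con ((s + 1 : ℕ) : ℤ)] with t h1 h2 ht w
      refine C.bdry (by push_cast; ring) (h1 ht) w (h2 ?_ _)
      exact hD.gap t ht _ (by push_cast; omega) (by exact_mod_cast hs))
    filter_upwards [h1] with t h2
    have h3 := C.ex_succ hD hg (by push_cast; omega) h2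
    push_cast at h3 ⊢
    exact h3

include hT hD hg hC in
/-- **homological degree `g + 2`** -/
theorem kz_top (hn : n ≤ m + g + 1) {X : 𝒯} (hX : Cl n P D L CC m X)
    (hz : ∀ᶠ t : ℤ in atTop, ∀ z : P⟦t⟧ ⟶ X ⊗ (L (n + 1)).V, z = 0)
    (h0 : ∀ᶠ t in atTop, ∀ z ∈ grA (Sc.sys X) t,
      InB (xe OX X e) (grA (Sc.sys X)) (de p e) (n + 1) t z) :
    ∀ᶠ t in atTop, Ex (xe OX X e) (grA (Sc.sys X)) (de p e) (n + 1) ((g : ℤ) + 1 + 1) t := by
  obtain ⟨Y, P₀, i, q, δ, C⟩ := hX.cover hT hD hg hC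
  -- `[P, Y] ⟶ [P, Y ⊗ V]` is onto
  have h1 : ∀ᶠ t : ℤ in atTop, ∀ w : P⟦t⟧ ⟶ Y ⊗ (L (n + 1)).V, ∃ c : P⟦t⟧ ⟶ Y,
      c ≫ inc (L (n + 1)).i Y = w := by
    filter_upwards [C.sur₀ (n + 1) le_rfl, C.ker₀ (n + 1) le_rfl, (C.con₀ (n + 1) le_rfl).con,
      ev_add hz 1, h0] with t h1 h2 h3 h4 h5 w
    by_cases ht : D t
    · obtain ⟨a, ha⟩ := h1 ht (w ≫ (i ▷ (L (n + 1)).V))
      obtain ⟨y, hy, hy'⟩ := h5 _ (H543.of_mem_grA (Sc.sys X) t (a ≫ q))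
      -- lifts
      have hse := C.se hD hg (t - ∑ b ∈ Finset.range (n + 1), de p e b)
      have hle : ∀ b < n + 1, t - ∑ b ∈ Finset.range (n + 1), de p e b ≤ t - de p e b :=
        fun b hb => by
          have := Finset.single_le_sum (f := de p e) (fun b _ => de_nonneg e b)
            (Finset.mem_range.2 hb)
          linarith
      have h6 : ∀ b, ∃ y' : AA (Sc.sys P₀), b < n + 1 → y' ∈ grA (Sc.sys P₀) (t - de p e b) ∧
          mapA (Sc.map0 q) y' = y b := by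
        intro b
        by_cases hb : b < n + 1
        · obtain ⟨y', h7, h8⟩ := hse.sur _ (hle b hb) _ (hy b hb)
          exact ⟨y', fun _ => ⟨h7, h8⟩⟩
        · exact ⟨0, fun h => absurd h hb⟩
      choose y' hy'' using h6
      have h7 : ofA (Sc.sys P₀) t a - ∑ b ∈ Finset.range (n + 1), xe OX P₀ e b (y' b) ∈
          grA (Sc.sys P₀) t := by
        refine AddSubgroup.sub_mem _ (H543.of_mem_grA _ _ _) (AddSubgroup.sum_mem _ fun b hb => ?_)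
        have h8 := xe_mem OX e b _ _ (hy'' b (Finset.mem_range.1 hb)).1
        rwa [sub_add_cancel] at h8
      have h8 : mapA (Sc.map0 q) (ofA (Sc.sys P₀) t a -
          ∑ b ∈ Finset.range (n + 1), xe OX P₀ e b (y' b)) = 0 := by
        rw [map_sub, mapA_map0, map_sum, sub_eq_zero]
        refine hy'.trans (Finset.sum_congr rfl fun b hb => ?_)
        rw [mapA_xe, (hy'' b (Finset.mem_range.1 hb)).2]
      have h9 : t - ∑ b ∈ Finset.range (n + 1), de p e b ≤ t := by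
        have := Finset.sum_nonneg (f := de p e) (s := Finset.range (n + 1))
          fun b _ => de_nonneg e b
        omega
      obtain ⟨c', hc', hc''⟩ := hse.ex t h9 _ h7 h8
      obtain ⟨c, rfl⟩ := H543.exists_of_mem_grA hc'
      change P⟦t⟧ ⟶ Y at c
      rw [mapA_map0] at hc''
      refine ⟨c, ?_⟩
      have h10 : (a - c ≫ i) ≫ inc (L (n + 1)).i P₀ = 0 := by
        refine (h2 _).2 ?_
        have h11 : ofA (Sc.sys P₀) t (show (Sc.sys P₀).A t from a - c ≫ i) =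
            (ofA (Sc.sys P₀) t) a - (ofA (Sc.sys P₀) t) (c ≫ i) := map_sub (ofA (Sc.sys P₀) _) _ _
        have h12 : ofA (Sc.sys P₀) t (show (Sc.sys P₀).A t from a - c ≫ i) =
            ∑ b ∈ Finset.range (n + 1), xe OX P₀ e b (y' b) := by
          rw [h11, hc'', sub_sub_cancel]
        refine ⟨y', fun b hb => (hy'' b hb).1, h12⟩
      have h13 : (w - c ≫ inc (L (n + 1)).i Y) ≫ (i ▷ (L (n + 1)).V) = 0 := by
        rw [Preadditive.sub_comp, ← ha, Category.assoc, inc_nat, ← Category.assoc,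
          ← Preadditive.sub_comp, h10]
      have h14 := C.bdry (show 1 + t = t + 1 by ring) h4 _ h13
      exact (sub_eq_zero.1 h14).symm
    · refine ⟨0, ?_⟩
      rw [zero_comp]
      exact (C.bdry (show 1 + t = t + 1 by ring) h4 w (h3 ht _)).symm
  obtain ⟨Y₁, Q₀, i', q', δ', C'⟩ := C.cl₁.cover hT hD hg hC
  obtain ⟨s, rfl⟩ : ∃ s, g = s + 1 := ⟨g - 1, by omega⟩
  have h2 := kz hT hD hg hC hn s (by omega) C'.cl₁ (by
    filter_upwards [ev_add h1 (((s + 1 : ℕ) : ℤ) + 1),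
      ev_add (C'.con₀ (n + 1) le_rfl).con ((s + 1 : ℕ) : ℤ)] with t h2 h3 ht w
    refine bdry_zero C'.H C'.lift (i₀ := (L (n + 1)).i)
      (show 1 + (t + ((s + 1 : ℕ) : ℤ)) = t + (((s + 1 : ℕ) : ℤ) + 1) by ring) h2 w (h3 ?_ _)
    exact hD.gap t ht _ (by push_cast; omega) le_rfl)
  filter_upwards [h2] with t h3
  exact C.ex_succ hD hg (by push_cast; omega) (C'.ex_succ hD hg (by push_cast; omega) h3)

section part

/-- the self map is injective if the cofibre has no maps in the next degree -/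
theorem inj_of_van {Y C : 𝒯} {d : ℤ} {F : Y⟦d⟧ ⟶ Y} {G : Y ⟶ C} {δ : C ⟶ (Y⟦d⟧)⟦(1 : ℤ)⟧}
    (H : Triangle.mk F G δ ∈ distTriang 𝒯) {A : 𝒯} {k l : ℤ} (h : d + l = k) (w : A⟦l⟧ ⟶ Y)
    (hw : gc h w F = 0) (hC : ∀ c : A⟦k + 1⟧ ⟶ C, c = 0) : w = 0 := by
  have h1 : gc h w (𝟙 (Y⟦d⟧)) ≫ F = 0 := by
    rw [← gc_comp, Category.id_comp, hw]
  have h2 := exists_bdry H (show 1 + k = k + 1 by ring) _ h1 hC
  refine gc_inj h ?_
  rw [h2, gc_zero_left]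

/-- `x_j` is regular in large degrees -/
theorem reg_of_van {L L' : Lv 𝒯} {j : ℕ} (hS : Stp OX e j L L') {g₀ : ℕ} (hD : Deg p g₀ D)
    (h1D : ∀ t, D t → ¬ D (t + 1)) {X : 𝒯} (hE : HasEv O X)
    (h0 : ∀ t, ¬ D t → ∀ a : P⟦t⟧ ⟶ X, a = 0) (hk : Ker OX e j L X) (hv : Van P D 0 L' X) :
    ∀ᶠ k in atTop, ∀ z ∈ grA (Sc.sys X) k,
      InB (xe OX X e) (grA (Sc.sys X)) (de p e) j (k + de p e j) (xe OX X e j z) →
        InB (xe OX X e) (grA (Sc.sys X)) (de p e) j k z := by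
  obtain ⟨d, g', rfl, hg', hX⟩ := hS
  obtain ⟨F, δ, H, hK⟩ := hX X
  filter_upwards [hk, ev_add hk (de p e j), ev_add (ev_add hv.con 1) (de p e j)]
    with k h1 h2 h3 z hz hI
  obtain ⟨a, rfl⟩ := H543.exists_of_mem_grA hz
  change P⟦k⟧ ⟶ X at a
  refine (h1 a).1 ?_
  by_cases hk : D k
  · obtain ⟨b, hb, hb'⟩ := hK hE (add_comm (de p e j) k) a
    rw [hb'] at hI
    rw [(h2 b).2 hI] at hb
    refine inj_of_van H _ _ hb (h3 ?_)
    have h4 : k + de p e j + 1 - de p e j = k + 1 := by ring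
    rw [← hD.sub_de e j, h4]
    exact h1D k hk
  · rw [h0 k hk a, zero_comp]

end part

include hT hD hg hC in
/-- **homological degrees `≥ g + 3`** -/
theorem kz_part (hn : n ≤ m + g + 1) {X : 𝒯} (hX : Cl n P D L CC m X) :
    ∀ᶠ t in atTop, ∀ s : ℤ, (g : ℤ) + 3 ≤ s →
      Ex (xe OX X e) (grA (Sc.sys X)) (de p e) (n + 1) s t := by
  have hE := hC.ev hX.cc
  have hv := hC.van hX.cc
  have hx := x_data hT hD hg hE hv hX.con
  have h1 := ev_ex_part (fun a b z => xe_comm OX hE e a b z)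
    (fun a k z hz => xe_mem OX e a k z hz) (m := min m (n + 1)) (fun b hb =>
      reg_of_van (hT.step b (by omega)) hD (hD.one hg) hE hv ((hx b (by omega)).2.1 (by omega))
        (hX.con (b + 1) (by omega) (by omega))) (n + 1 - min m (n + 1))
  have h2 : min m (n + 1) + (n + 1 - min m (n + 1)) = n + 1 := by omega
  rw [h2] at h1
  filter_upwards [h1] with t h3 s hs
  exact h3 s (by omega)

include hT hD hg hC in
/-- **Koszul exactness in high degrees** -/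
theorem exHigh_weak (hn : n ≤ m + g + 1) {X : 𝒯} (hX : Cl n P D L CC m X)
    (hz : ∀ᶠ t : ℤ in atTop, ∀ z : P⟦t⟧ ⟶ X ⊗ (L (n + 1)).V, z = 0)
    (h0 : ∀ᶠ t in atTop, ∀ z ∈ grA (Sc.sys X) t,
      InB (xo OX (Sc.sys X)) (grA (Sc.sys X)) (Vale.Agent.P221.T.sV p) (n + 1) t z) :
    ExHigh (xo OX (Sc.sys X)) (grA (Sc.sys X)) (Vale.Agent.P221.T.sV p) (n + 1) := by
  have hE := hC.ev hX.cc
  have h1 := ev_inB_pow (fun a b z => xo_comm' OX hE a b z)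
    (fun a k z hz => H543.xo_mem a k z hz) h0 e
  have h2 : ∀ᶠ t in atTop, ∀ s ∈ Finset.range (g + 1),
      Ex (xe OX X e) (grA (Sc.sys X)) (de p e) (n + 1) ((s + 1 : ℕ) : ℤ) t := by
    refine (Filter.eventually_all_finset _).2 fun s hs => ?_
    refine kz hT hD hg hC hn s (by have := Finset.mem_range.1 hs; omega) hX ?_
    filter_upwards [ev_add hz ((s + 1 : ℕ) : ℤ)] with t h3 _
    exact h3
  have h3 := kz_top hT hD hg hC hn hX hz h1
  have h4 := kz_part hT hD hg hC hn hX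
  obtain ⟨T₀, h5⟩ := eventually_atTop.1 (h1.and (h2.and (h3.and h4)))
  refine exHigh_root (i := e) (fun a b z => xo_comm' OX hE a b z)
    (fun a k z hz => H543.xo_mem a k z hz) ⟨T₀, fun t ht s => ?_⟩
  obtain ⟨h6, h7, h8, h9⟩ := h5 t ht
  by_cases hs : s < 0
  · exact ex_neg hs
  · lift s to ℕ using not_lt.1 hs
    rcases Nat.eq_zero_or_pos s with h10 | h10
    · subst h10
      exact ex_zero_iff.2 h6
    · obtain ⟨s, rfl⟩ : ∃ s', s = s' + 1 := ⟨s - 1, by omega⟩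
      rcases lt_trichotomy s (g + 1) with h11 | h11 | h11
      · exact h7 s (Finset.mem_range.2 h11)
      · subst h11
        have h12 : (((g + 1 + 1 : ℕ) : ℕ) : ℤ) = (g : ℤ) + 1 + 1 := by push_cast; ring
        rw [h12]
        exact h8
      · exact h9 _ (by push_cast; omega)

end gen

end Vale.Agent.P221.H377
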