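import Vale.Agent.P221.H377.Exact

/-!
# P221 (helper377): long exact sequences of graded maps

For a distinguished triangle `Y⟦d⟧ ⟶ Y ⟶ C ⟶` and `A`: the sequence
`[A⟦k - d⟧, Y] ⟶ [A⟦k⟧, Y] ⟶ [A⟦k⟧, C] ⟶ [A⟦k - 1 - d⟧, Y] ⟶ [A⟦k - 1⟧, Y]` is exact.
-/

open CategoryTheory MonoidalCategory MonObj Limits Pretriangulated
open Vale.Agent.P251.T Vale.Agent.P251.M Vale.Agent.P251.S

set_option linter.unusedSectionVars false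

universe u

namespace Vale.Agent.P221.H377

open Vale.Agent.P221.T

variable {𝒯 : Type u} [Category.{0} 𝒯] [Preadditive 𝒯] [HasZeroObject 𝒯]
    [HasShift 𝒯 ℤ] [∀ n : ℤ, (shiftFunctor 𝒯 n).Additive] [Pretriangulated 𝒯] [IsTriangulated 𝒯]
    [MonoidalCategory 𝒯] [SymmetricCategory 𝒯] [TensorTriangulated 𝒯] [MonoidalClosed 𝒯]
    [HasCoproducts.{0} 𝒯] [HasProducts.{0} 𝒯] [StableCat 𝒯]

section self

variable {Y C : 𝒯} {d : ℤ} {F : Y⟦d⟧ ⟶ Y} {G : Y ⟶ C} {δ : C ⟶ (Y⟦d⟧)⟦(1 : ℤ)⟧}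
  (H : Triangle.mk F G δ ∈ distTriang 𝒯) {A : 𝒯}

include H

/-- the elements killed by `G` -/
theorem exists_gc {k k' : ℤ} (h : d + k' = k) (y : A⟦k⟧ ⟶ Y) (hy : y ≫ G = 0) :
    ∃ y' : A⟦k'⟧ ⟶ Y, gc h y' F = y := by
  obtain ⟨c, hc⟩ := dist_co₂ H y hy
  obtain ⟨w, hw⟩ := gc_surj h c
  refine ⟨w, ?_⟩
  rw [gc_eq, hw, ← hc]

theorem gc_F_G {k k' : ℤ} (h : d + k' = k) (y : A⟦k'⟧ ⟶ Y) : gc h y F ≫ G = 0 := by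
  rw [← gc_comp, dist_zero₁₂ H, gc_zero_right]

/-- the boundary map -/
theorem exists_conn {k l m : ℤ} (h : d + l = m) (h1 : 1 + m = k) (c : A⟦k⟧ ⟶ C) :
    ∃ w : A⟦l⟧ ⟶ Y, gc h w F = 0 ∧ (w = 0 → ∃ y : A⟦k⟧ ⟶ Y, y ≫ G = c) := by
  obtain ⟨w', hw'⟩ := gc_surj h1 (c ≫ δ)
  obtain ⟨w, hw⟩ := gc_surj h w'
  refine ⟨w, ?_, fun h0 => ?_⟩
  · rw [gc_eq, hw]
    refine gc_inj h1 ?_
    rw [gc_zero_left, gc_map, Category.comp_id, gc_eq, hw', Category.assoc, dist_zero₃₁ H,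
      comp_zero]
  · rw [h0, gc_zero_left] at hw
    rw [← hw, gc_zero_left] at hw'
    obtain ⟨y, hy⟩ := dist_co₃ H c hw'.symm
    exact ⟨y, hy.symm⟩

end self

section tri

variable {X Y C : 𝒯} {F : X ⟶ Y} {G : Y ⟶ C} {δ : C ⟶ X⟦(1 : ℤ)⟧}
  (H : Triangle.mk F G δ ∈ distTriang 𝒯) {A : 𝒯}

include H

/-- the boundary map -/
theorem exists_conn' {k l : ℤ} (h : 1 + l = k) (c : A⟦k⟧ ⟶ C) :
    ∃ w : A⟦l⟧ ⟶ X, w ≫ F = 0 ∧ (w = 0 → ∃ y : A⟦k⟧ ⟶ Y, y ≫ G = c) := by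
  obtain ⟨w, hw⟩ := gc_surj h (c ≫ δ)
  refine ⟨w, ?_, fun h0 => ?_⟩
  · refine gc_inj h ?_
    rw [gc_zero_left, gc_map, Category.comp_id, gc_eq, hw, Category.assoc, dist_zero₃₁ H,
      comp_zero]
  · rw [h0, gc_zero_left] at hw
    obtain ⟨y, hy⟩ := dist_co₃ H c hw.symm
    exact ⟨y, hy.symm⟩

/-- the boundary map is onto the kernel -/
theorem exists_bdry {k l : ℤ} (h : 1 + l = k) (w : A⟦l⟧ ⟶ X) (hw : w ≫ F = 0)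
    (hC : ∀ c : A⟦k⟧ ⟶ C, c = 0) : w = 0 := by
  have h1 : gc h w (𝟙 (X⟦(1 : ℤ)⟧)) ≫ F⟦(1 : ℤ)⟧' = 0 := by
    have h2 := gc_map h w F (𝟙 (Y⟦(1 : ℤ)⟧))
    rw [hw, gc_zero_left, Category.comp_id] at h2
    rw [← gc_comp, Category.id_comp, ← h2]
  obtain ⟨y, hy⟩ := dist_co₁ H _ h1
  refine gc_inj h ?_
  rw [gc_zero_left, hy, hC y, zero_comp]

end tri

end Vale.Agent.P221.H377
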