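import Vale.Agent.P221.H377.Mul

/-!
# P221 (helper377): self maps of `V` and multiplications on `[Σ^k P, X ⊗ V]`

* `inc_mult` : `(P ⟶ P ⊗ V)` followed by `P ⊗ f` is the multiplication by `w` followed by
  `P ⟶ P ⊗ V`;
* `gc_inc_fm` : the self map `X ⊗ f` on the image of `[P⟦k⟧, X] ⟶ [P⟦k⟧, X ⊗ V]`.
-/

open CategoryTheory MonoidalCategory MonObj Limits Pretriangulated
open Vale.Agent.P251.T Vale.Agent.P251.M Vale.Agent.P251.S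

set_option linter.unusedSectionVars false

universe u

noncomputable section

namespace Vale.Agent.P221.H377

open Vale.Agent.P221.T

variable {𝒯 : Type u} [Category.{0} 𝒯] [Preadditive 𝒯] [HasZeroObject 𝒯]
    [HasShift 𝒯 ℤ] [∀ n : ℤ, (shiftFunctor 𝒯 n).Additive] [Pretriangulated 𝒯] [IsTriangulated 𝒯]
    [MonoidalCategory 𝒯] [SymmetricCategory 𝒯] [TensorTriangulated 𝒯] [MonoidalClosed 𝒯]
    [HasCoproducts.{0} 𝒯] [HasProducts.{0} 𝒯] [StableCat 𝒯]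

variable {p : ℕ} [Fact p.Prime] {R P W : 𝒯} [MonObj R] [IsCommMonObj R] (b : BPS p R P W)

theorem inc_isLinear {Y : 𝒯} (M : ModStr R Y) {V : 𝒯} (i₀ : 𝟙_ 𝒯 ⟶ V) :
    M.IsLinear (M.tensorRight V) (inc i₀ Y) := by
  change M.act ≫ inc i₀ Y = (R ◁ inc i₀ Y) ≫ (α_ R Y V).inv ≫ (M.act ▷ V)
  unfold inc
  rw [MonoidalCategory.whiskerLeft_comp, Category.assoc, associator_inv_naturality_right_assoc,
    whisker_exchange]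
  have h1 : (R ◁ (ρ_ Y).inv) ≫ (α_ R Y (𝟙_ 𝒯)).inv = (ρ_ (R ⊗ Y)).inv := by simp
  rw [reassoc_of% h1, rightUnitor_inv_naturality_assoc]

theorem fm_isLin {Y : 𝒯} (M : ModStr R Y) {V V' : 𝒯} {d : ℤ} (f : V⟦d⟧ ⟶ V') :
    IsLin (M.tensorRight V) (M.tensorRight V') (fm (tensorLeft Y) f) := by
  change fm (tensorLeft R) (fm (tensorLeft Y) f) ≫ (α_ R Y V').inv ≫ (M.act ▷ V') =
    ((α_ R Y V).inv ≫ (M.act ▷ V))⟦d⟧' ≫ fm (tensorLeft Y) f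
  rw [reassoc_of% (fm_assoc R Y f), fm_tlMap, Functor.map_comp, Category.assoc]

/-- **the self map and the multiplication on `P`** -/
theorem inc_mult {V : 𝒯} (hV : H395.PComplete p (P ⊗ V)) (i₀ : 𝟙_ 𝒯 ⟶ V) {d : ℤ} {f : V⟦d⟧ ⟶ V}
    {w : (𝟙_ 𝒯)⟦d⟧ ⟶ R}
    (hf : (i₀⟦d⟧' ≫ f) ≫ (λ_ V).inv ≫ η[R] ▷ V = w ≫ inc i₀ R) {g : P⟦d⟧ ⟶ P}
    (hg : IsLin b.MP b.MP g) (hgw : (η[R] ≫ b.c)⟦d⟧' ≫ g = w ≫ b.c) :
    (inc i₀ P)⟦d⟧' ≫ fm (tensorLeft P) f = g ≫ inc i₀ P := by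
  have hc : (ModStr.self R).IsLinear b.MP b.c := b.c_lin
  have l1 : IsLin b.MP (b.MP.tensorRight V) ((inc i₀ P)⟦d⟧' ≫ fm (tensorLeft P) f) :=
    IsLin.shift_comp (inc_isLinear b.MP i₀) (fm_isLin b.MP f)
  have l2 : IsLin b.MP (b.MP.tensorRight V) (g ≫ inc i₀ P) :=
    IsLin.comp hg (inc_isLinear b.MP i₀)
  refine b.ext_c hV (isLin_self_ext (IsLin.shift_comp hc l1) (IsLin.shift_comp hc l2) ?_)
  have h2 : (i₀ ≫ (λ_ V).inv ≫ (η[R] ≫ b.c) ▷ V)⟦d⟧' ≫ fm (tensorLeft P) f =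
      (w ≫ b.c) ≫ inc i₀ P := by
    rw [Functor.map_comp, Category.assoc, unit_fm, comp_whiskerRight, ← Category.assoc,
      ← Category.assoc, ← Category.assoc, Category.assoc (i₀⟦d⟧' ≫ f), hf, Category.assoc,
      Category.assoc, inc_nat]
  have h3 : (η[R] ≫ b.c) ≫ inc i₀ P = i₀ ≫ (λ_ V).inv ≫ (η[R] ≫ b.c) ▷ V := by
    rw [← inc_nat, inc_one, Category.assoc]
  rw [← Functor.map_comp_assoc, ← Functor.map_comp_assoc, ← Functor.map_comp_assoc, h3, h2,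
    ← Category.assoc ((η[R] ≫ b.c)⟦d⟧'), hgw]

/-- **the self map on `[P⟦k⟧, X ⊗ V]`** -/
theorem gc_inc_fm {V : 𝒯} (i₀ : 𝟙_ 𝒯 ⟶ V) {d : ℤ} (hd : SignProp 𝒯 d 1) {f : V⟦d⟧ ⟶ V}
    {g : P⟦d⟧ ⟶ P} (hg : (inc i₀ P)⟦d⟧' ≫ fm (tensorLeft P) f = g ≫ inc i₀ P)
    {X : 𝒯} {k k' : ℤ} (h : d + k = k') (h' : k + d = k') (a : P⟦k⟧ ⟶ X) :
    gc h (a ≫ inc i₀ X) (fm (tensorLeft X) f) = gc h' g a ≫ inc i₀ X := by
  rw [← inc_fm, ← comp_gc, gc_fm_interchange hd h h', comp_gc, hg, gc_map, inc_fm, gc_comp]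

end Vale.Agent.P221.H377
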