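import Vale.Agent.P221.H377.UniM

/-!
# P221 (helper377): missing residue classes, the degenerate cases

`mc_of_main` : the theorem on missing residue classes from the case `1 ≤ r ≤ 2p - 4` of `r` missing
classes.
-/

open CategoryTheory MonoidalCategory MonObj Limits Pretriangulated

set_option linter.unusedSectionVars false

noncomputable section

namespace Vale.Agent.P221.H377.M

open Vale.Agent.P251 Vale.Agent.P251.St Vale.Agent.P251.St.SHCat Vale.Agent.P257.St

variable {T : SHCat} {S : Susp T} {p n : ℕ}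

/-- periodic sets of degrees -/
theorem per_mul {D : ℤ → Prop} (hD : StM.Per p D) (t a : ℤ) :
    D (t + (2 * p - 2) * a) ↔ D t := by
  have hnat : ∀ (a : ℕ) (t : ℤ), D (t + (2 * p - 2) * a) ↔ D t := by
    intro a
    induction a with
    | zero => intro t; simp
    | succ a ih =>
      intro t
      rw [← ih t, ← hD (t + (2 * p - 2) * a)]
      push_cast
      ring_nf
  obtain ⟨b, rfl | rfl⟩ := Int.eq_nat_or_neg a
  · exact hnat b t
  · rw [← hnat b (t + (2 * p - 2) * -(b : ℤ))]
    have : t + (2 * (p : ℤ) - 2) * -(b : ℤ) + (2 * p - 2) * b = t := by ring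
    rw [this]

theorem per_dvd {D : ℤ → Prop} (hD : StM.Per p D) {s t : ℤ} (h : (2 * (p : ℤ) - 2) ∣ s - t) :
    D s ↔ D t := by
  obtain ⟨c, hc⟩ := h
  rw [← per_mul hD t c, ← hc, add_sub_cancel]

/-- the main case of the statement on missing residue classes -/
def McMain (S : Susp T) (p n : ℕ) (B : T.C) : Prop :=
  ∀ (X : T.C) (r i₀ N : ℤ), StM.Fp S p n X → 1 ≤ r → (n : ℤ) ≤ r + 1 → r < 2 * p - 3 →
    (∀ k ≥ N, ∀ s : ℤ, 1 ≤ s → s ≤ r → (2 * (p : ℤ) - 2) ∣ k - (i₀ - s) →
      ∀ y : (𝟙_ T.C)⟦k⟧ ⟶ X, y = 0) → St.Thick B X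

/-- **the degenerate cases** -/
theorem mc_of_main (hp : p.Prime) {B : T.C} (hB : StM.IsStandardForm S p n B)
    (hM : McMain S p n B) : Mc S p n B := by
  intro X D a hD hmiss hX hconc
  obtain ⟨N, hN⟩ := hconc
  have hp2 := hp.two_le
  by_cases hr : ((max 1 (n - 1) : ℕ) : ℤ) < 2 * p - 3
  · refine hM X (max 1 (n - 1) : ℕ) (a + (max 1 (n - 1) : ℕ)) N hX (by simp) ?_ hr
      fun k hk s hs hsr hks => hN k hk ?_
    · have := le_max_right 1 (n - 1)
      omega
    · have h1 : ((max 1 (n - 1) : ℕ) : ℤ) - s =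
          ((((max 1 (n - 1) : ℕ) : ℤ) - s).toNat : ℤ) := (Int.toNat_of_nonneg (by omega)).symm
      rw [per_dvd hD hks, add_sub_assoc, h1]
      exact hmiss _ (by omega)
  · -- at most one class is left
    have hq : 0 < 2 * (p : ℤ) - 2 := by omega
    have hone : ∀ t, D t → (2 * (p : ℤ) - 2) ∣ t - (a - 1) ∧
        ((max 1 (n - 1) : ℕ) : ℤ) < 2 * p - 2 := by
      intro t ht
      have h1 := Int.emod_nonneg (t - a) hq.ne'
      have h2 := Int.emod_lt_of_pos (t - a) hq
      have h3 : (2 * (p : ℤ) - 2) ∣ (t - a) - (t - a) % (2 * p - 2) := Int.dvd_self_sub_emod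
      have h4 : D (a + (((t - a) % (2 * p - 2)).toNat : ℤ)) := by
        rw [Int.toNat_of_nonneg h1]
        refine (per_dvd hD ?_).1 ht
        have h5 : t - a - (t - a) % (2 * (p : ℤ) - 2) = t - (a + (t - a) % (2 * p - 2)) := by ring
        rwa [h5] at h3
      have h5 : ¬ ((t - a) % (2 * (p : ℤ) - 2)).toNat < max 1 (n - 1) := fun h => hmiss _ h h4
      have h6 : (t - a) % (2 * (p : ℤ) - 2) = 2 * p - 3 := by omega
      refine ⟨?_, by omega⟩
      rw [h6] at h3
      have h7 := dvd_add h3 (dvd_refl (2 * (p : ℤ) - 2))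
      have h8 : t - a - (2 * (p : ℤ) - 3) + (2 * p - 2) = t - (a - 1) := by ring
      rwa [h8] at h7
    have hdiff : ∀ s t, D s → D t → (2 * (p : ℤ) - 2) ∣ s - t := by
      intro s t hs ht
      have h1 := dvd_sub (hone s hs).1 (hone t ht).1
      have h2 : s - (a - 1) - (t - (a - 1)) = s - t := by ring
      rwa [h2] at h1
    refine H626.thick_of_isSparse hp (standardE_of_M hB)
      (H460.isSparse_of_conc (D := D) (N := N) ⟨hD, fun s t hs ht => ?_, fun t i ht hi hin hti => ?_⟩
        (fpE_of_M hX) hN)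
    · have h1 : (2 : ℤ) ∣ 2 * (p : ℤ) - 2 := ⟨(p : ℤ) - 1, by ring⟩
      exact even_iff_two_dvd.2 (h1.trans (hdiff s t hs ht))
    · have h1 := hdiff _ _ hti ht
      rw [add_sub_cancel_left] at h1
      have h2 := Int.le_of_dvd (by omega) h1
      have h3 := (hone t ht).2
      have h4 := le_max_right 1 (n - 1)
      omega

end Vale.Agent.P221.H377.M
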