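import Vale.Agent.P221.H377.McW

/-!
# P221 (helper377): the final theorems, from the main case
-/

noncomputable section

namespace Vale.Agent.P221.H377.M

open Vale.Agent.P251 Vale.Agent.P251.St Vale.Agent.P251.St.SHCat Vale.Agent.P257.St

variable {T : SHCat} {S : Susp T} {p n : ℕ}

/-- missing residue classes -/
theorem thick_of_missing' (hp : p.Prime) {B X : T.C} (hB : StM.IsStandardForm S p n B)
    (hM : McMain S p n B) (hX : StM.Fp S p n X) {D : ℤ → Prop} {a : ℤ} (hD : StM.Per p D)
    (ha : ∀ i : ℕ, i < max 1 (n - 1) → ¬ D (a + i)) (hC : StM.Conc D X) :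
    StM.ThickOf (fun Y : T.C => Y = B) X :=
  thickM_of_E (H460.thickE_of_I (Loc.thickI_of_thick (mc_of_main hp hB hM X D a hD ha hX hC)))

/-- the characterisation -/
theorem thick_iff' (hp : p.Prime) {B X : T.C} (hB : StM.IsStandardForm S p n B)
    (hM : McMain S p n B) (hX : StM.Fp S p n X) :
    StM.ThickOf (fun Y : T.C => Y = B) X ↔ StM.Cls S p n X :=
  thick_iff_cls hp hB (mc_of_main hp hB hM) hX

end Vale.Agent.P221.H377.M
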