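import Vale.Agent.P221.H377.Ind2
import Vale.Agent.P221.T.H817.FreeP
import Vale.Agent.P221.T.H817.SpecSrc
import Vale.Agent.P221.H509.Final

/-!
# P221 (helper377): the powers of `v_j` and the multiplications on `P`

`mulHyp` : the hypothesis `MulHyp` of `reg_of_genMoore`.
-/

open CategoryTheory MonoidalCategory OnePoint Limits Pretriangulated MonObj

set_option linter.unusedSectionVars false

noncomputable section

namespace Vale.Agent.P221.H377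

open Vale.Agent.P251 Vale.Agent.P251.S Vale.Agent.P251.T Vale.Agent.P251.M Vale.Agent.P251.F
  Vale.Agent.P251.I EvenSpheres Vale.Agent.P257.H702 Vale.Agent.P257.H80 Vale.Agent.P251.Q
  Vale.Agent.P251.St Vale.Agent.P251.St.SHCat Vale.Agent.P257.St Vale.Agent.P221.H746
  Vale.Agent.P093.N0
open Vale.Agent.P221.T (BPS sV KK GG HK SrcT OpAlg Lead PiM hat gc unit_hat zr)
open Vale.Agent.P221.H460 (OpX Ev Reg)
open Vale.Agent.P221.H509 (VPhi)
open Vale.Agent.P221.H246 (vcl of_X sI sI_rfl sV_eq)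
open Vale.Agent.P221.T.H817 (Fc Fc_of Fc_Phi)

/-- the classes `b.v i` -/
theorem v_eq_vcl {T : SHCat} {R : T.C} [MonObj R] [IsCommMonObj R] {p : ℕ} [hp : Fact p.Prime]
    {Pc W : T.C} (b : BPS p R Pc W) {D : MUData T.C} {b₀ : D.R ⟶ R} [IsMonHom b₀]
    {Φ : MvPolynomial ℕ ℤ →+* HRing (stdEven T.C) R} (hb : IsBPMon p b₀)
    (hΦ : lawOf b₀ = (haz p).map Φ) (hv : VPhi b Φ) (i : ℕ) : b.v i = vcl p Φ i := by
  obtain ⟨w, hw, u, h1, h2⟩ := hv i
  have h3 : w = ((p ^ (i + 1) - 1 : ℕ) : ℤ) := by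
    have := sV_eq p i
    omega
  subst h3
  have h4 := of_X hb hΦ i
  have h5 := DirectSum.of_injective (β := (stdEven T.C).Gr R) _ (h4.trans h2.symm)
  rw [h1, vcl, h5]
  exact (Category.assoc _ _ _).symm

theorem map_vEl {p : ℕ} [hp : Fact p.Prime] (j : ℕ) :
    MvPolynomial.map (Int.castRingHom ℤ_[p]) (vEl p j) = Vale.Agent.P221.T.vK p j := by
  cases j with
  | zero =>
    change MvPolynomial.map (Int.castRingHom ℤ_[p]) (MvPolynomial.C (p : ℤ)) = ((p : ℕ) : KK p)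
    rw [MvPolynomial.map_C, eq_intCast, Int.cast_natCast, map_natCast]
  | succ j =>
    change MvPolynomial.map (Int.castRingHom ℤ_[p]) (MvPolynomial.X j) = MvPolynomial.X j
    rw [MvPolynomial.map_X]

variable {T : SHCat} {S : Susp T} {p : ℕ} [hp : Fact p.Prime] {R : RingSp T} {φ : GHom S p R}
  {D : MUData T.C} {b₀ : D.R ⟶ R.obj} [IsMonHom b₀]
  {Φ : MvPolynomial ℕ ℤ →+* HRing (stdEven T.C) R.obj} {Pc W₀ : T.C}
  (b : BPS p R.obj Pc W₀)

/-- the class of `w` -/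
theorem cls_eq (hb : IsBPMon p b₀) (hΦ : lawOf b₀ = (haz p).map Φ) (hv : VPhi b Φ)
    (hφ : ∀ (m : ℕ) (x : VPoly p m),
      Φ x = HRing.of (stdEven T.C) R.obj m ((isoE S m).inv ≫ φ m x)) {k : ℕ} (w : VPoly p k)
    (hf : HK p (2 * (k : ℤ)) (MvPolynomial.map (Int.castRingHom ℤ_[p]) (w : MvPolynomial ℕ ℤ))) :
    b.cls (2 * (k : ℤ)) (MvPolynomial.map (Int.castRingHom ℤ_[p]) (w : MvPolynomial ℕ ℤ)) =
      wcl (φ.val w) ≫ b.c := by
  apply Vale.Agent.P221.T.H598.of_inj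
  rw [Vale.Agent.P221.T.H598.of_cls b hf]
  have h1 := Fc_Phi hb hΦ b.c_lin (b.kk b.MP b.cP) (fun i _ _ h y => by
    rw [b.kk_v b.MP b.cP i h y, v_eq_vcl b hb hΦ hv i]) (w : MvPolynomial ℕ ℤ)
  rw [h1, hφ k w, Fc_of b.c (rfl : 2 * (k : ℤ) = 2 * (k : ℤ)), sI_rfl]
  congr 1
  simp only [wcl, Category.assoc, Iso.symm_hom]

variable {n : ℕ} {ld : Lead p n} {Sc : SrcT p n Pc} {O : OpAlg ld Sc.src}

/-- the right units agree -/
theorem eta_eq (A1 : b.SpecA1) (B2 : b.SpecB2)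
    (hT : ∀ (m : ℤ) (g : Pc⟦m⟧ ⟶ Pc), O.T m g = b.T g) (OX : OpX O) {k : ℤ} {f : KK p}
    (hf : HK p k f) : b.eta f = OX.eta f := by
  have h1 := (OX.low k 0 (toE Sc (b.mult k f)) fun E hE =>
    absurd (H460.dT_nonneg (p := p) E) (by omega)).2 0 (Vale.Agent.P221.T.H746.dT_zero (p := p))
  have h2 : (MvPolynomial.monomial 0 1 : GG p) = 1 := rfl
  have h3 : O.T k (toE Sc (b.mult k f)) 1 = b.eta f := by
    have h4 : O.T k (toE Sc (b.mult k f)) = b.T (b.mult k f) := hT k _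
    rw [h4, Vale.Agent.P221.T.H598.T_mult b A1 k f hf, _root_.mul_one]
  rw [h2, h3, B2.eta_zero] at h1
  exact h1

/-- **the hypothesis `MulHyp`** -/
theorem mulHyp (hb : IsBPMon p b₀) (hΦ : lawOf b₀ = (haz p).map Φ) (hv : VPhi b Φ)
    (hφ : ∀ (m : ℕ) (x : VPoly p m),
      Φ x = HRing.of (stdEven T.C) R.obj m ((isoE S m).inv ≫ φ m x))
    (hu : Sc.u = η[R.obj] ≫ b.c) (hT : ∀ (m : ℤ) (g : Pc⟦m⟧ ⟶ Pc), O.T m g = b.T g)
    (OX : OpX O) : MulHyp b φ OX := by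
  intro k j i w hw
  have A1 := b.specA1
  have B2 := Vale.Agent.P221.T.H609.specB2 b A1 (Vale.Agent.P221.T.H598.specB1 b A1)
  have h1 : MvPolynomial.map (Int.castRingHom ℤ_[p]) (w : MvPolynomial ℕ ℤ) =
      Vale.Agent.P221.T.vK p j ^ i := by rw [hw, map_pow, map_vEl]
  have hf : HK p (2 * (k : ℤ)) (Vale.Agent.P221.T.vK p j ^ i) := by
    have h2 := (show MvPolynomial.IsWeightedHomogeneous (fun i => Vale.Agent.P221.T.sV p (i + 1))
      (Vale.Agent.P221.T.vK p j) (Vale.Agent.P221.T.sV p j) from HK_vK j).pow i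
    have h3 : i • Vale.Agent.P221.T.sV p j = 2 * (k : ℤ) := by
      rw [degree_sV w hw, nsmul_eq_mul]
    rw [h3] at h2
    exact h2
  refine ⟨b.mult (2 * (k : ℤ)) (Vale.Agent.P221.T.vK p j ^ i), ?_, fun z => ?_⟩
  · rw [hu, Functor.map_comp, Category.assoc, Vale.Agent.P221.T.H598.c_mult, unit_hat, ← h1]
    exact cls_eq b hb hΦ hv hφ w (by rw [h1]; exact hf)
  · have h4 : O.T (2 * (k : ℤ)) (toE Sc (b.mult (2 * (k : ℤ)) (Vale.Agent.P221.T.vK p j ^ i))) =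
        b.T (b.mult (2 * (k : ℤ)) (Vale.Agent.P221.T.vK p j ^ i)) := hT _ _
    rw [h4, Vale.Agent.P221.T.H598.T_mult b A1 _ _ hf, map_pow,
      eta_eq b A1 B2 hT OX (HK_vK j)]

end Vale.Agent.P221.H377
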