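import Vale.Agent.P221.H377.KosT
import Mathlib.Data.Set.Card

/-!
# P221 (helper377): the tower on homotopy groups

* `SurP`, `KerP` : the homotopy versions of `Sur`, `Ker`;
* `pi_data` : they hold up to the levels `m + g` and `m + g + 1`;
* `w_top` : in large degrees every element of `⨁ A_k` lies in
  `ker (ev) + ∑_{a ≤ n} A x_a`, by counting in the finite groups `π_t (X ⊗ V_n)`.
-/

open CategoryTheory MonoidalCategory MonObj Limits Pretriangulated Filter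
open Vale.Agent.P251.T Vale.Agent.P251.M Vale.Agent.P251.S

set_option linter.unusedSectionVars false

universe u

noncomputable section

namespace Vale.Agent.P221.H377

open Vale.Agent.P221.T hiding Thick
open Vale.Agent.P221.H460
open Vale.Agent.P221.H626 (InB pw_succ_apply)
open Vale.Agent.P221.H543 (grA xo)

/-! ### counting -/

/-- a bounded monotone sequence stabilises -/
theorem exists_stable {f : ℕ → ℕ} (hf : ∀ k, f k ≤ f (k + 1)) {B : ℕ} (hB : ∀ k, f k ≤ B) :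
    ∃ K, ∀ k, K ≤ k → f (k + 1) = f k := by
  by_contra hcon
  push Not at hcon
  have h1 : ∀ N : ℕ, ∃ k, N ≤ f k := by
    intro N
    induction N with
    | zero => exact ⟨0, Nat.zero_le _⟩
    | succ N ih =>
      obtain ⟨k, hk⟩ := ih
      obtain ⟨k', hk', hne⟩ := hcon k
      have h2 := monotone_nat_of_le_succ hf hk'
      have h3 := hf k'
      exact ⟨k' + 1, by omega⟩
  obtain ⟨k, hk⟩ := h1 (B + 1)
  have := hB k
  omega

/-- a function which increases along steps of length `d` and is bounded by a periodic function -/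
theorem exists_periodic {c B : ℤ → ℕ} {T : ℤ} {d : ℕ}
    (h1 : ∀ t, T ≤ t → c t ≤ c (t + d)) (h2 : ∀ t, T ≤ t → c t ≤ B t)
    (h3 : ∀ t, T ≤ t → B (t + d) = B t) : ∃ T', ∀ t, T' ≤ t → c (t + d) = c t := by
  let C : ℕ → ℕ := fun k => ∑ i ∈ Finset.range d, c (T + k + i)
  let E : ℕ → ℕ := fun k => ∑ i ∈ Finset.range d, B (T + k + i)
  have hsum : ∀ (f : ℤ → ℕ) (k : ℕ), ∑ i ∈ Finset.range d, f (T + (k + 1 : ℕ) + i) + f (T + k) =
      ∑ i ∈ Finset.range d, f (T + k + i) + f (T + k + d) := by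
    intro f k
    have h4 := Finset.sum_range_succ (fun i : ℕ => f (T + k + i)) d
    have h5 := Finset.sum_range_succ' (fun i : ℕ => f (T + k + i)) d
    rw [h4] at h5
    rw [h5]
    congr 1
    · refine Finset.sum_congr rfl fun i _ => ?_
      congr 1
      push_cast
      ring
    · simp
  have hE : ∀ k, E k = E 0 := by
    intro k
    induction k with
    | zero => rfl
    | succ k ih =>
      rw [← ih]
      have h4 := hsum B k
      have h5 := h3 (T + k) (by omega)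
      change E (k + 1) + _ = E k + _ at h4
      omega
  obtain ⟨K, hK⟩ := exists_stable (f := C) (B := E 0) (fun k => by
    have h4 := hsum c k
    have h5 := h1 (T + k) (by omega)
    change C (k + 1) + _ = C k + _ at h4
    omega) fun k => by
      rw [← hE k]
      exact Finset.sum_le_sum fun i _ => h2 _ (by omega)
  refine ⟨T + K, fun t ht => ?_⟩
  obtain ⟨k, rfl⟩ : ∃ k : ℕ, t = T + k := ⟨(t - T).toNat, by omega⟩
  have h4 := hsum c k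
  have h5 := hK k (by omega)
  change C (k + 1) + _ = C k + _ at h4
  omega

section gen

variable {𝒯 : Type u} [Category.{0} 𝒯] [Preadditive 𝒯] [HasZeroObject 𝒯]
    [HasShift 𝒯 ℤ] [∀ n : ℤ, (shiftFunctor 𝒯 n).Additive] [Pretriangulated 𝒯] [IsTriangulated 𝒯]
    [MonoidalCategory 𝒯] [SymmetricCategory 𝒯] [TensorTriangulated 𝒯] [MonoidalClosed 𝒯]
    [HasCoproducts.{0} 𝒯] [HasProducts.{0} 𝒯] [StableCat 𝒯] {p n : ℕ} [hp : Fact p.Prime]
    {P : 𝒯} {Sc : SrcT p n P} {ld : Lead p n} {O : OpAlg ld Sc.src}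

/-- the evaluation at the unit -/
def evu (Sc : SrcT p n P) {X : 𝒯} {t : ℤ} (a : P⟦t⟧ ⟶ X) : (𝟙_ 𝒯)⟦t⟧ ⟶ X := Sc.u⟦t⟧' ≫ a

theorem evu_sub {X : 𝒯} {t : ℤ} (a b : P⟦t⟧ ⟶ X) : evu Sc (a - b) = evu Sc a - evu Sc b :=
  Preadditive.comp_sub _ _ _

/-- surjectivity on homotopy -/
def SurP (Sc : SrcT p n P) (D : ℤ → Prop) (L : Lv 𝒯) (X : 𝒯) : Prop :=
  ∀ᶠ t : ℤ in atTop, D t → ∀ z : (𝟙_ 𝒯)⟦t⟧ ⟶ X ⊗ L.V, ∃ a : P⟦t⟧ ⟶ X, evu Sc a ≫ inc L.i X = z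

/-- the kernel on homotopy -/
def KerP (OX : OpX O) (j : ℕ) (L : Lv 𝒯) (X : 𝒯) : Prop :=
  ∀ᶠ t : ℤ in atTop, ∀ a : P⟦t⟧ ⟶ X, evu Sc a ≫ inc L.i X = 0 →
    ofA (Sc.sys X) t a ∈ W (D0 (Sc.sys X)) (xx OX (Sc.sys X)) (fun _ => 1) j

variable {OX : OpX O} {D : ℤ → Prop} {e : ℕ → ℕ} {L : ℕ → Lv 𝒯} {N : ℕ} {X : 𝒯}

/-! ### level `0` -/

theorem Twr.surP_zero (hT : Twr OX e L N) (hs : ∀ k, Function.Surjective ((Sc.sys X).ev k)) :
    SurP Sc D (L 0) X := by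
  have := hT.iso X
  refine Eventually.of_forall fun t _ z => ?_
  obtain ⟨a, ha⟩ := hs t (z ≫ inv (inc (L 0).i X))
  change evu Sc a = _ at ha
  exact ⟨a, by rw [ha]; simp⟩

theorem Twr.kerP_zero (hT : Twr OX e L N) : KerP OX 0 (L 0) X := by
  have := hT.iso X
  refine Eventually.of_forall fun t a h => ?_
  refine (of_mem_D0 (Sc.sys X)).2 ?_
  change evu Sc a = 0
  have h1 : evu Sc a = (evu Sc a ≫ inc (L 0).i X) ≫ inv (inc (L 0).i X) := by simp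
  rw [h, zero_comp] at h1
  exact h1

theorem Twr.vanA_zero {A : 𝒯} (hT : Twr OX e L N)
    (h : ∀ᶠ t : ℤ in atTop, ¬ D t → ∀ a : A⟦t⟧ ⟶ X, a = 0) : Van A D 0 (L 0) X := by
  have := hT.iso X
  refine Van.of_con (h.mono fun t ht hD z => ?_)
  have h1 : z = (z ≫ inv (inc (L 0).i X)) ≫ inc (L 0).i X := by simp
  have h2 : z ≫ inv (inc (L 0).i X) = 0 := ht hD _
  rw [h1, h2, zero_comp]

/-! ### steps -/

section step

variable {L L' : Lv 𝒯} {j : ℕ} (hS : Stp OX e j L L')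

include hS in
/-- vanishing -/
theorem Van.stepA {A : 𝒯} {g₀ : ℕ} (hD : Deg p g₀ D) {k : ℕ} (h : Van A D k L X) :
    Van A D (k + 1) L' X := by
  obtain ⟨d, g, rfl, hg, hX⟩ := hS
  obtain ⟨F, δ, H, -⟩ := hX X
  filter_upwards [h, ev_sub (ev_sub h (de p e j)) 1] with t h1 h2 ht z
  obtain ⟨w, -, hw⟩ := exists_conn H (show de p e j + (t - 1 - de p e j) = t - 1 by ring)
    (show 1 + (t - 1) = t by ring) z
  have h3 : w = 0 := h2 (fun s hs hDs => by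
    have h4 : t - 1 - de p e j - (s : ℤ) = t - ((s + 1 : ℕ) : ℤ) - de p e j := by push_cast; ring
    rw [h4, hD.sub_de] at hDs
    exact ht (s + 1) (by omega) hDs) w
  obtain ⟨y, rfl⟩ := hw h3
  rw [h1 (fun s hs => ht s (by omega)) y, zero_comp]

include hS in
/-- surjectivity -/
theorem SurP.step (h : SurP Sc D L X) (hz : ∀ᶠ t : ℤ in atTop, D t →
    ∀ w : (𝟙_ 𝒯)⟦t - 1 - de p e j⟧ ⟶ X ⊗ L.V, w = 0) : SurP Sc D L' X := by
  obtain ⟨d, g, rfl, hg, hX⟩ := hS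
  obtain ⟨F, δ, H, -⟩ := hX X
  filter_upwards [h, hz] with t h1 h2 ht z
  obtain ⟨w, -, hw⟩ := exists_conn H (show de p e j + (t - 1 - de p e j) = t - 1 by ring)
    (show 1 + (t - 1) = t by ring) z
  obtain ⟨y, rfl⟩ := hw (h2 ht w)
  obtain ⟨a, rfl⟩ := h1 ht y
  exact ⟨a, by rw [Category.assoc, inc_whisker, hg]⟩

/-- the self map on the image of the evaluation -/
theorem evu_gc {V : 𝒯} {i₀ : 𝟙_ 𝒯 ⟶ V} {d : ℤ} {F : (X ⊗ V)⟦d⟧ ⟶ X ⊗ V} {k k' : ℤ}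
    (h : d + k = k') {a : P⟦k⟧ ⟶ X} {b : P⟦k'⟧ ⟶ X}
    (hb : gc h (a ≫ inc i₀ X) F = b ≫ inc i₀ X) :
    gc h (evu Sc a ≫ inc i₀ X) F = evu Sc b ≫ inc i₀ X := by
  unfold evu
  rw [Category.assoc, Category.assoc, ← hb, comp_gc]

/-- the difference -/
theorem mem_W_of_sub {t : ℤ} {a b : P⟦t⟧ ⟶ X} {j : ℕ}
    (h : ofA (Sc.sys X) t (show (Sc.sys X).A t from a - b) ∈
      W (D0 (Sc.sys X)) (xx OX (Sc.sys X)) (fun _ => 1) j) {k : ℤ} {c : P⟦k⟧ ⟶ X}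
    (hc : xe OX X e j (ofA (Sc.sys X) k c) = ofA (Sc.sys X) t b) :
    ofA (Sc.sys X) t a ∈ W (D0 (Sc.sys X)) (xx OX (Sc.sys X)) (fun _ => 1) (j + 1) := by
  have h6 : (ofA (Sc.sys X) t) (show (Sc.sys X).A t from a - b) =
    (ofA (Sc.sys X) t) a - (ofA (Sc.sys X) t) b := map_sub (ofA (Sc.sys X) _) _ _
  refine mem_W_succ.2 ⟨_, h, H626.pw (xo OX (Sc.sys X) j) (e j) (ofA (Sc.sys X) k c), ?_⟩
  rw [h6, pow_one, ← hc]
  exact sub_add_cancel _ _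

include hS in
/-- the kernel -/
theorem KerP.step {g₀ : ℕ} (hD : Deg p g₀ D) (hE : HasEv O X)
    (h0 : ∀ᶠ t : ℤ in atTop, ¬ D t → ∀ x : (𝟙_ 𝒯)⟦t⟧ ⟶ X, x = 0) (hs : SurP Sc D L X)
    (h : KerP OX j L X) : KerP OX (j + 1) L' X := by
  obtain ⟨d, g, rfl, hg, hX⟩ := hS
  obtain ⟨F, δ, H, hK⟩ := hX X
  filter_upwards [h, h0, ev_sub hs (de p e j)] with t h1 h2 h3 a ha
  by_cases ht : D t
  · rw [← hg, ← inc_whisker, ← Category.assoc] at ha
    obtain ⟨y, hy⟩ := exists_gc H (show de p e j + (t - de p e j) = t by ring) _ ha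
    obtain ⟨b, rfl⟩ := h3 ((hD.sub_de e j t).2 ht) y
    obtain ⟨b', hb', hb''⟩ := hK hE (show de p e j + (t - de p e j) = t by ring) b
    rw [evu_gc _ hb'] at hy
    refine mem_W_of_sub (h1 (a - b') ?_) hb''
    rw [evu_sub, Preadditive.sub_comp, hy, sub_self]
  · refine D_le_W _ ((of_mem_D0 (Sc.sys X)).2 ?_)
    exact h2 ht (evu Sc a)

/-- the image of `[P, X]` in `π_t (X ⊗ V)` -/
def Im (Sc : SrcT p n P) (L : Lv 𝒯) (X : 𝒯) (t : ℤ) : Set ((𝟙_ 𝒯)⟦t⟧ ⟶ X ⊗ L.V) :=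
  Set.range fun a : P⟦t⟧ ⟶ X => evu Sc a ≫ inc L.i X

include hS in
/-- **counting** -/
theorem KerP.top (hE : HasEv O X) (h : KerP OX j L X) (hj : 1 ≤ j)
    (hfin : ∀ t : ℤ, Finite ((𝟙_ 𝒯)⟦t⟧ ⟶ X ⊗ L.V))
    (hz : ∀ᶠ t : ℤ in atTop, ∀ z : (𝟙_ 𝒯)⟦t⟧ ⟶ X ⊗ L'.V, z = 0) :
    ∀ᶠ t : ℤ in atTop, ∀ a : P⟦t⟧ ⟶ X, ofA (Sc.sys X) t a ∈
      W (D0 (Sc.sys X)) (xx OX (Sc.sys X)) (fun _ => 1) (j + 1) := by
  obtain ⟨d, g, rfl, hg, hX⟩ := hS
  obtain ⟨F, δ, H, hK⟩ := hX X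
  obtain ⟨T, hT⟩ := eventually_atTop.1 hz
  have hd0 := de_nonneg (p := p) e j
  obtain ⟨d, hd⟩ : ∃ d : ℕ, de p e j = d := ⟨(de p e j).toNat, by omega⟩
  have hk : ∀ t : ℤ, de p e j + t = t + d := fun t => by rw [hd, add_comm]
  -- the self map
  let Φ : ∀ t : ℤ, ((𝟙_ 𝒯)⟦t⟧ ⟶ X ⊗ L.V) → ((𝟙_ 𝒯)⟦t + (d : ℤ)⟧ ⟶ X ⊗ L.V) :=
    fun t z => gc (hk t) z F
  have hinj : ∀ t, T ≤ t → Function.Injective (Φ t) := by
    intro t ht z z' hzz
    have h1 : gc (hk t) (z - z') F = 0 := by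
      have h2 := Vale.Agent.P221.T.gc_add_left (hk t) (z - z') z' F
      rw [sub_add_cancel] at h2
      have h3 : gc (hk t) z F = gc (hk t) z' F := hzz
      rw [h3] at h2
      exact left_eq_add.1 (h2.trans (add_comm _ _))
    exact sub_eq_zero.1 (inj_of_van H _ _ h1 (hT _ (by omega)))
  have hsur : ∀ t, T ≤ t → Function.Surjective (Φ t) := by
    intro t ht z
    exact exists_gc H (hk t) z (hT _ (by omega) _)
  have hIm : ∀ t, Φ t '' Im Sc L X t ⊆ Im Sc L X (t + d) := by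
    rintro t _ ⟨_, ⟨a, rfl⟩, rfl⟩
    obtain ⟨b, hb, -⟩ := hK hE (hk t) a
    exact ⟨b, (evu_gc _ hb).symm⟩
  obtain ⟨T', hT'⟩ := exists_periodic (c := fun t => (Im Sc L X t).ncard)
    (B := fun t => Nat.card ((𝟙_ 𝒯)⟦t⟧ ⟶ X ⊗ L.V)) (T := T) (d := d) (fun t ht => by
      have := hfin (t + d)
      rw [← Set.ncard_image_of_injective _ (hinj t ht)]
      exact Set.ncard_le_ncard (hIm t) (Set.toFinite _)) (fun t _ => by
      have := hfin t
      rw [← Set.ncard_univ]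
      exact Set.ncard_le_ncard (Set.subset_univ _) (Set.toFinite _)) (fun t ht =>
      (Nat.card_congr (Equiv.ofBijective (Φ t) ⟨hinj t ht, hsur t ht⟩)).symm)
  filter_upwards [h, eventually_ge_atTop (T + d), eventually_ge_atTop (T' + d)] with t h1 h2 h3 a
  obtain ⟨s, rfl⟩ : ∃ s : ℤ, t = s + d := ⟨t - d, by ring⟩
  have := hfin (s + d)
  have h4 : Φ s '' Im Sc L X s = Im Sc L X (s + d) :=
    Set.eq_of_subset_of_ncard_le (hIm s) (by
      rw [Set.ncard_image_of_injective _ (hinj s (by omega))]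
      exact (hT' s (by omega)).le) (Set.toFinite _)
  have h5 : evu Sc a ≫ inc L.i X ∈ Im Sc L X (s + d) := ⟨a, rfl⟩
  rw [← h4] at h5
  obtain ⟨_, ⟨b, rfl⟩, hb⟩ := h5
  obtain ⟨b', hb', hb''⟩ := hK hE (hk s) b
  refine mem_W_of_sub (h1 (a - b') ?_) hb''
  have h6 : gc (hk s) (evu Sc b ≫ inc L.i X) F = evu Sc a ≫ inc L.i X := hb
  rw [evu_gc _ hb'] at h6
  rw [evu_sub, Preadditive.sub_comp, h6, sub_self]

end step

/-! ### all levels -/

section lev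

variable (hT : Twr OX e L N) {g : ℕ} (hD : Deg p g D)

include hT hD in
theorem pi_data (hg : 1 ≤ g) (hE : HasEv O X)
    (hs : ∀ k, Function.Surjective ((Sc.sys X).ev k))
    (h0 : ∀ t, ¬ D t → ∀ x : (𝟙_ 𝒯)⟦t⟧ ⟶ X, x = 0) {m : ℕ}
    (hm : ∀ j ≤ m, j ≤ N → Van (𝟙_ 𝒯) D 0 (L j) X) : ∀ j ≤ N,
      (j ≤ m + g → SurP Sc D (L j) X) ∧ (j ≤ m + g + 1 → KerP OX j (L j) X) ∧
        Van (𝟙_ 𝒯) D (j - m) (L j) X := by
  intro j
  induction j with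
  | zero =>
    intro _
    refine ⟨fun _ => hT.surP_zero hs, fun _ => hT.kerP_zero, ?_⟩
    rw [Nat.zero_sub]
    exact hT.vanA_zero (Eventually.of_forall h0)
  | succ j ih =>
    intro hj
    obtain ⟨h1, h2, h3⟩ := ih (by omega)
    have hS := hT.step j (by omega)
    refine ⟨fun hj' => (h1 (by omega)).step hS ?_,
      fun hj' => (h2 (by omega)).step hS hD hE (Eventually.of_forall h0) (h1 (by omega)), ?_⟩
    · filter_upwards [ev_sub (ev_sub h3 (de p e j)) 1] with t h4 ht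
      refine h4 fun s hs hDs => ?_
      have h5 : t - 1 - de p e j - (s : ℤ) = t - ((s : ℤ) + 1) - de p e j := by ring
      rw [h5, hD.sub_de] at hDs
      refine hD.gap _ hDs ((s : ℤ) + 1) (by omega) (by omega) ?_
      rwa [sub_add_cancel]
    · by_cases hjm : j + 1 ≤ m
      · have h6 : j + 1 - m = 0 := by omega
        rw [h6]
        exact hm _ hjm hj
      · have h6 : j + 1 - m = j - m + 1 := by omega
        rw [h6]
        exact h3.stepA hS hD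

end lev

/-- **generation in large degrees** -/
theorem w_top (hT : Twr OX e L (n + 1)) {g : ℕ} (hD : Deg p g D) (hg : 1 ≤ g) (hE : HasEv O X)
    (hs : ∀ k, Function.Surjective ((Sc.sys X).ev k))
    (h0 : ∀ t, ¬ D t → ∀ x : (𝟙_ 𝒯)⟦t⟧ ⟶ X, x = 0) {m : ℕ}
    (hm : ∀ j ≤ m, j ≤ n + 1 → Van (𝟙_ 𝒯) D 0 (L j) X) (hn : n ≤ m + g + 1)
    (hfin : 1 ≤ n → ∀ t : ℤ, Finite ((𝟙_ 𝒯)⟦t⟧ ⟶ X ⊗ (L n).V))
    (hz : ∀ᶠ t : ℤ in atTop, ∀ z : (𝟙_ 𝒯)⟦t⟧ ⟶ X ⊗ (L (n + 1)).V, z = 0) :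
    ∀ᶠ t : ℤ in atTop, ∀ a : P⟦t⟧ ⟶ X, ofA (Sc.sys X) t a ∈
      W (D0 (Sc.sys X)) (xx OX (Sc.sys X)) (fun _ => 1) (n + 1) := by
  have h1 := pi_data hT hD hg hE hs h0 hm
  rcases Nat.lt_or_ge (m + g) n with hn' | hn'
  · exact ((h1 n (by omega)).2.1 (by omega)).top (hT.step n (by omega)) hE (by omega)
      (hfin (by omega)) hz
  · filter_upwards [(h1 (n + 1) le_rfl).2.1 (by omega), hz] with t h2 h3 a
    exact h2 a (h3 _)

end gen

end Vale.Agent.P221.H377
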