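import Mathlib.Algebra.Group.Subgroup.Lattice
import Mathlib.Algebra.Group.Submonoid.BigOperators
import Mathlib.Algebra.BigOperators.Fin
import Mathlib.Algebra.Ring.Subring.Basic
import Mathlib.Algebra.Ring.Commute
import Mathlib.Algebra.Module.Defs
import Mathlib.Algebra.Group.Hom.End
import Mathlib.Tactic.Abel

/-!
# P221 (helper377): regular sequences, from powers to generators, for systems with evaluation

`A` is an additive group with commuting endomorphisms `x 0, x 1, …`, and `D` a subgroup (the kernel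
of the evaluation; it is not stable under the `x i`).

* `W D x E m = D + ∑_{b < m} range (x b ^ E b)`;
* `Rg c V` : `c a ∈ V → a ∈ V`;
* `reg_of_pow` : if the powers `x m ^ e m` are regular modulo `W D x e m`, so are the `x m` modulo
  `W D x 1 m`.
-/

namespace Vale.Agent.P221.H377

variable {A : Type*} [AddCommGroup A]

/-- `D + ∑_{b < m} range (x b ^ E b)` -/
def W (D : AddSubgroup A) (x : ℕ → AddMonoid.End A) (E : ℕ → ℕ) : ℕ → AddSubgroup A
  | 0 => D
  | m + 1 => W D x E m ⊔ AddMonoidHom.range (x m ^ E m : AddMonoid.End A)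

/-- `c` is regular modulo `V` -/
def Rg (c : AddMonoid.End A) (V : AddSubgroup A) : Prop := ∀ a, c a ∈ V → a ∈ V

variable {D : AddSubgroup A} {x : ℕ → AddMonoid.End A} {E : ℕ → ℕ}

theorem W_succ (m : ℕ) : W D x E (m + 1) = W D x E m ⊔ AddMonoidHom.range (x m ^ E m : AddMonoid.End A) :=
  rfl

theorem mem_W_succ {m : ℕ} {a : A} :
    a ∈ W D x E (m + 1) ↔ ∃ w ∈ W D x E m, ∃ u, w + (x m ^ E m : AddMonoid.End A) u = a := by
  rw [W_succ, AddSubgroup.mem_sup]
  constructor
  · rintro ⟨w, hw, _, ⟨u, rfl⟩, h⟩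
    exact ⟨w, hw, u, h⟩
  · rintro ⟨w, hw, u, h⟩
    exact ⟨w, hw, _, ⟨u, rfl⟩, h⟩

theorem W_mono {m m' : ℕ} (h : m ≤ m') : W D x E m ≤ W D x E m' := by
  induction h with
  | refl => exact le_refl _
  | step _ ih => exact ih.trans le_sup_left

theorem D_le_W (m : ℕ) : D ≤ W D x E m := W_mono (Nat.zero_le m)

theorem range_le_W {b m : ℕ} (h : b < m) (u : A) : (x b ^ E b : AddMonoid.End A) u ∈ W D x E m :=
  W_mono (E := E) (Nat.succ_le_of_lt h) (mem_W_succ.2 ⟨0, zero_mem _, u, zero_add _⟩)

theorem W_congr {E E' : ℕ → ℕ} {m : ℕ} (h : ∀ b < m, E b = E' b) : W D x E m = W D x E' m := by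
  induction m with
  | zero => rfl
  | succ m ih => rw [W_succ, W_succ, ih fun b hb => h b (by omega), h m (by omega)]

/-- a criterion for `W ≤ V` -/
theorem W_le {m : ℕ} {V : AddSubgroup A} (hD : D ≤ V)
    (h : ∀ b < m, ∀ u, (x b ^ E b : AddMonoid.End A) u ∈ V) : W D x E m ≤ V := by
  induction m with
  | zero => exact hD
  | succ m ih =>
    refine sup_le (ih fun b hb => h b (by omega)) ?_
    rintro _ ⟨u, rfl⟩
    exact h m (by omega) u

/-- smaller exponents -/
theorem W_anti {E E' : ℕ → ℕ} {m : ℕ} (h : ∀ b < m, E' b ≤ E b) : W D x E m ≤ W D x E' m := by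
  refine W_le (D_le_W m) fun b hb u => ?_
  have h1 : (x b ^ E b : AddMonoid.End A) u = (x b ^ E' b : AddMonoid.End A)
      ((x b ^ (E b - E' b) : AddMonoid.End A) u) := by
    change _ = ((x b ^ E' b : AddMonoid.End A) * (x b ^ (E b - E' b) : AddMonoid.End A)) u
    rw [← pow_add, Nat.add_sub_cancel' (h b hb)]
  rw [h1]
  exact range_le_W hb _

theorem comm_apply {c d : AddMonoid.End A} (h : Commute c d) (u : A) : c (d u) = d (c u) := by
  have h1 : (c * d) u = (d * c) u := by rw [h.eq]
  exact h1

/-- an endomorphism which maps `D` into `V ≥ D` maps `W` into `V` -/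
theorem map_W {c : AddMonoid.End A} {m : ℕ} {V : AddSubgroup A}
    (hD : ∀ d ∈ D, c d ∈ V) (h : ∀ b < m, ∀ u, c ((x b ^ E b : AddMonoid.End A) u) ∈ V) :
    ∀ w ∈ W D x E m, c w ∈ V := by
  have h1 : W D x E m ≤ V.comap c := W_le hD h
  exact fun w hw => h1 hw

/-- a good endomorphism maps `W` into `W` -/
theorem map_W_self {c : AddMonoid.End A} (hc : ∀ b, Commute c (x b)) {m : ℕ}
    (hD : ∀ d ∈ D, c d ∈ W D x E m) : ∀ w ∈ W D x E m, c w ∈ W D x E m := by
  refine map_W hD fun b hb u => ?_
  rw [comm_apply ((hc b).pow_right _)]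
  exact range_le_W hb _

theorem pow_map {c : AddMonoid.End A} {V : AddSubgroup A} (h : ∀ w ∈ V, c w ∈ V) (j : ℕ) :
    ∀ w ∈ V, (c ^ j : AddMonoid.End A) w ∈ V := by
  induction j with
  | zero => exact fun w hw => hw
  | succ j ih =>
    intro w hw
    rw [pow_succ]
    exact ih _ (h w hw)

theorem Rg.pow {c : AddMonoid.End A} {V : AddSubgroup A} (h : Rg c V) (j : ℕ) :
    Rg (c ^ j : AddMonoid.End A) V := by
  induction j with
  | zero => exact fun a ha => ha
  | succ j ih =>
    intro a ha
    rw [pow_succ] at ha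
    exact h _ (ih _ ha)

/-- the exponents with `j` at the place `a` -/
def upd (E : ℕ → ℕ) (a j : ℕ) : ℕ → ℕ := Function.update E a j

theorem upd_self (E : ℕ → ℕ) (a j : ℕ) : upd E a j a = j := Function.update_self _ _ _

theorem upd_ne (E : ℕ → ℕ) {a b : ℕ} (h : b ≠ a) (j : ℕ) : upd E a j b = E b :=
  Function.update_of_ne h _ _

theorem upd_eq (E : ℕ → ℕ) (a : ℕ) : upd E a (E a) = E := Function.update_eq_self _ _

/-- every element of `W (upd E a j) m` is an element of `W (upd E a j') m` plus one of
`range (x a ^ j)`, for every `j'` -/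
theorem split {a m j j' : ℕ} {u : A} (hu : u ∈ W D x (upd E a j) m) :
    ∃ z ∈ W D x (upd E a j') m, ∃ u', z + (x a ^ j : AddMonoid.End A) u' = u := by
  have h1 : W D x (upd E a j) m ≤ W D x (upd E a j') m ⊔
      AddMonoidHom.range (x a ^ j : AddMonoid.End A) := by
    refine W_le ((D_le_W m).trans le_sup_left) fun b hb u => ?_
    by_cases hba : b = a
    · subst hba
      rw [upd_self]
      exact AddSubgroup.mem_sup_right ⟨u, rfl⟩
    · rw [upd_ne _ hba]
      have h2 := range_le_W (D := D) (x := x) (E := upd E a j') hb u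
      rw [upd_ne _ hba] at h2
      exact AddSubgroup.mem_sup_left h2
  obtain ⟨z, hz, _, ⟨u', rfl⟩, h⟩ := AddSubgroup.mem_sup.1 (h1 hu)
  exact ⟨z, hz, u', h⟩

section step

variable {n a : ℕ} (hx : ∀ b c, Commute (x b) (x c))
  (hE1 : ∀ b < a, E b = 1) (hEa : 1 ≤ E a)
  (hg1 : ∀ m ≤ n, ∀ d ∈ D, x m d ∈ W D x (fun _ => 1) m)
  (hg2 : ∀ m ≤ n, ∀ d ∈ D, (x m ^ E m : AddMonoid.End A) d ∈ W D x E m)
  (hr : ∀ m ≤ n, Rg (x m ^ E m : AddMonoid.End A) (W D x E m))

include hx in
theorem comm_pow (b c i j : ℕ) :
    Commute (x b ^ i : AddMonoid.End A) (x c ^ j : AddMonoid.End A) := (hx b c).pow_pow i j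

include hE1 in
theorem W_one {m : ℕ} (hm : m ≤ a) : W D x E m = W D x (fun _ => 1) m :=
  W_congr fun b hb => hE1 b (by omega)

include hx hE1 hg1 in
/-- powers of `x a` map `W 1 a` into itself -/
theorem xa_map (ha : a ≤ n) (j : ℕ) : ∀ w ∈ W D x E a, (x a ^ j : AddMonoid.End A) w ∈ W D x E a := by
  refine pow_map (map_W_self (fun b => hx a b) fun d hd => ?_) j
  rw [W_one hE1 le_rfl]
  exact hg1 a ha d hd

include hx hE1 hEa hg1 hr in
/-- `x a` is regular modulo `W 1 a` -/
theorem xa_reg (ha : a ≤ n) : Rg (x a) (W D x E a) := by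
  intro c hc
  refine hr a ha c ?_
  have h1 : (x a ^ E a : AddMonoid.End A) c =
      (x a ^ (E a - 1) : AddMonoid.End A) (x a c) := by
    change _ = ((x a ^ (E a - 1) : AddMonoid.End A) * x a) c
    rw [← pow_succ, Nat.sub_add_cancel hEa]
  rw [h1]
  exact xa_map hx hE1 hg1 ha _ _ hc

include hx hE1 hg1 in
/-- `x a ^ (N - j)` maps `W (upd E a j) m` into `W E m` -/
theorem shift_W (ha : a ≤ n) {j m : ℕ} (hj : j ≤ E a) (hm : a < m) :
    ∀ w ∈ W D x (upd E a j) m, (x a ^ (E a - j) : AddMonoid.End A) w ∈ W D x E m := by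
  refine map_W (fun d hd => ?_) fun b hb u => ?_
  · exact W_mono hm.le (xa_map hx hE1 hg1 ha _ d (D_le_W a hd))
  · by_cases hba : b = a
    · subst hba
      rw [upd_self]
      have h1 : (x b ^ (E b - j) : AddMonoid.End A) ((x b ^ j : AddMonoid.End A) u) =
          (x b ^ E b : AddMonoid.End A) u := by
        change ((x b ^ (E b - j) : AddMonoid.End A) * (x b ^ j : AddMonoid.End A)) u = _
        rw [← pow_add, Nat.sub_add_cancel hj]
      rw [h1]
      exact range_le_W hm u
    · rw [upd_ne _ hba, comm_apply (comm_pow hx a b _ _)]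
      exact range_le_W hb _

include hx hE1 hEa hg1 hg2 hr in
/-- the main induction -/
theorem main_step (ha : a ≤ n) (m : ℕ) : a < m → m ≤ n + 1 → ∀ j, 1 ≤ j → j ≤ E a →
    (∀ c, (x a ^ (E a - j) : AddMonoid.End A) c ∈ W D x E m → c ∈ W D x (upd E a j) m) ∧
    (m ≤ n → Rg (x m ^ E m : AddMonoid.End A) (W D x (upd E a j) m)) := by
  induction m with
  | zero => omega
  | succ m ih =>
    intro hm hmn
    -- the first claim
    have key : ∀ j, 1 ≤ j → j ≤ E a → ∀ c, (x a ^ (E a - j) : AddMonoid.End A) c ∈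
        W D x E (m + 1) → c ∈ W D x (upd E a j) (m + 1) := by
      intro j hj1 hj c hc
      obtain ⟨w, hw, u, hu⟩ := mem_W_succ.1 hc
      by_cases hma : m = a
      · subst hma
        have h1 : (x m ^ (E m - j) : AddMonoid.End A) (c - (x m ^ j : AddMonoid.End A) u) = w := by
          have h2 : (x m ^ (E m - j) : AddMonoid.End A) ((x m ^ j : AddMonoid.End A) u) =
              (x m ^ E m : AddMonoid.End A) u := by
            change ((x m ^ (E m - j) : AddMonoid.End A) * (x m ^ j : AddMonoid.End A)) u = _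
            rw [← pow_add, Nat.sub_add_cancel hj]
          rw [map_sub, h2, ← hu, add_sub_cancel_right]
        have h3 : c - (x m ^ j : AddMonoid.End A) u ∈ W D x E m :=
          (xa_reg hx hE1 hEa hg1 hr ha).pow _ _ (by rw [h1]; exact hw)
        refine mem_W_succ.2 ⟨c - (x m ^ j : AddMonoid.End A) u, ?_, u, ?_⟩
        · rwa [W_congr (E := upd E m j) (E' := E) fun b hb => upd_ne E (by omega) j]
        · rw [upd_self, sub_add_cancel]
      · have ham : a < m := by omega
        obtain hjN | hjN := hj.lt_or_eq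
        · have hr' := (ih ham (by omega) (E a - j) (by omega) (by omega)).2 (by omega)
          -- `u ∈ W (upd E a (N - j)) m`
          have h1 : u ∈ W D x (upd E a (E a - j)) m := by
            apply hr'
            have h2 : (x m ^ E m : AddMonoid.End A) u =
                (x a ^ (E a - j) : AddMonoid.End A) c - w := by
              rw [← hu, add_sub_cancel_left]
            rw [h2]
            refine sub_mem ?_ ?_
            · have h3 := range_le_W (D := D) (x := x) (E := upd E a (E a - j)) ham c
              rwa [upd_self] at h3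
            · have h4 := W_anti (D := D) (x := x) (E := E) (E' := upd E a (E a - j)) (m := m)
                fun b _ => by
                  by_cases hba : b = a
                  · rw [hba, upd_self]
                    omega
                  · rw [upd_ne _ hba]
              exact h4 hw
          obtain ⟨z, hz, u', hzu⟩ := split (j' := E a) h1
          rw [upd_eq] at hz
          have h5 : (x a ^ (E a - j) : AddMonoid.End A) (c - (x m ^ E m : AddMonoid.End A) u') =
              w + (x m ^ E m : AddMonoid.End A) z := by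
            rw [map_sub, comm_apply (comm_pow hx a m _ _), ← hu, ← hzu, map_add]
            abel
          have h6 : (x m ^ E m : AddMonoid.End A) z ∈ W D x E m :=
            map_W_self (fun b => (hx m b).pow_left _) (hg2 m (by omega)) z hz
          have h7 := (ih ham (by omega) j hj1 hj).1 _ (by rw [h5]; exact add_mem hw h6)
          refine mem_W_succ.2 ⟨_, h7, u', ?_⟩
          rw [upd_ne _ hma, sub_add_cancel]
        · subst hjN
          rw [Nat.sub_self] at hc
          rw [upd_eq]
          exact hc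
    intro j hj1 hj
    refine ⟨key j hj1 hj, fun hmn' c hc => key j hj1 hj c (hr (m + 1) hmn' _ ?_)⟩
    rw [comm_apply (comm_pow hx (m + 1) a _ _)]
    exact shift_W hx hE1 hg1 ha hj hm _ hc

end step

/-- the exponents `1, …, 1, e a, e (a + 1), …` -/
def mix (e : ℕ → ℕ) (a b : ℕ) : ℕ := if b < a then 1 else e b

/-- **from powers to generators** -/
theorem reg_of_pow {n : ℕ} {e : ℕ → ℕ} (hx : ∀ b c, Commute (x b) (x c)) (he : ∀ m ≤ n, 1 ≤ e m)
    (hg1 : ∀ m ≤ n, ∀ d ∈ D, x m d ∈ W D x (fun _ => 1) m)
    (hg2 : ∀ m ≤ n, ∀ d ∈ D, (x m ^ e m : AddMonoid.End A) d ∈ W D x e m)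
    (hr : ∀ m ≤ n, Rg (x m ^ e m : AddMonoid.End A) (W D x e m)) :
    ∀ m ≤ n, Rg (x m) (W D x (fun _ => 1) m) := by
  have hmix : ∀ a ≤ n + 1, ∀ m ≤ n,
      Rg (x m ^ mix e a m : AddMonoid.End A) (W D x (mix e a) m) := by
    intro a
    induction a with
    | zero =>
      intro _ m hm
      have h1 : mix e 0 = e := funext fun b => if_neg (by omega)
      rw [h1]
      exact hr m hm
    | succ a ih =>
      intro ha m hm
      have ih := ih (by omega)
      have hE1 : ∀ b < a, mix e a b = 1 := fun b hb => if_pos hb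
      have hEa : 1 ≤ mix e a a := by
        rw [mix, if_neg (by omega)]
        exact he a (by omega)
      have hle : ∀ b, mix e a b ≤ e b ∨ mix e a b = 1 := fun b => by
        by_cases hb : b < a
        · exact Or.inr (if_pos hb)
        · exact Or.inl (if_neg hb).le
      have hg2' : ∀ m ≤ n, ∀ d ∈ D, (x m ^ mix e a m : AddMonoid.End A) d ∈ W D x (mix e a) m := by
        intro m hm d hd
        by_cases hma : m < a
        · rw [hE1 m hma, pow_one, W_one (a := a) hE1 hma.le]
          exact hg1 m hm d hd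
        · have h1 : mix e a m = e m := if_neg hma
          rw [h1]
          refine W_anti (fun b hb => ?_) (hg2 m hm d hd)
          by_cases hba : b < a
          · rw [hE1 b hba]
            exact he b (by omega)
          · exact (if_neg hba).le
      have hEE : mix e (a + 1) = upd (mix e a) a 1 := by
        funext b
        by_cases hba : b = a
        · rw [hba, upd_self, mix, if_pos (by omega)]
        · rw [upd_ne _ hba, mix, mix]
          by_cases hb : b < a
          · rw [if_pos (by omega), if_pos hb]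
          · rw [if_neg (by omega), if_neg hb]
      rw [hEE]
      rcases lt_trichotomy m a with hma | rfl | hma
      · rw [upd_ne _ (by omega : m ≠ a),
          W_congr (E := upd (mix e a) a 1) (E' := mix e a) fun b hb => upd_ne _ (by omega) 1]
        exact ih m hm
      · rw [upd_self, pow_one,
          W_congr (E := upd (mix e m) m 1) (E' := mix e m) fun b hb => upd_ne _ (by omega) 1]
        exact xa_reg hx hE1 hEa hg1 ih hm
      · rw [upd_ne _ (by omega : m ≠ a)]
        exact (main_step hx hE1 hEa hg1 hg2' ih (by omega) m hma (by omega) 1 le_rfl hEa).2 hm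
  intro m hm
  have h1 := hmix (n + 1) le_rfl m hm
  rw [mix, if_pos (by omega), pow_one,
    W_congr (E := mix e (n + 1)) (E' := fun _ => 1) fun b hb => if_pos (by omega)] at h1
  exact h1

end Vale.Agent.P221.H377
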