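import Vale.Agent.P221.H377.Lin
import Vale.Agent.P221.H377.Les
import Vale.Agent.P221.H377.ExPow
import Vale.Agent.P221.H543.KA

/-!
# P221 (helper377): sparse objects and generalised Moore spectra

`D : ℤ → Prop` is a set of degrees, periodic with period `2 p - 2`, such that `D t` implies
`¬ D (t + i)` for `1 ≤ i ≤ n`; `X` is an object with `[P⟦t⟧, X] = 0` for `¬ D t`.

* `Sp` : the state of the induction over the generalised Moore spectra `V_j`, for `X ⟶ X ⊗ V_j`;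
* `Sp.zero`, `Sp.step`.
-/

open CategoryTheory MonoidalCategory MonObj Limits Pretriangulated
open Vale.Agent.P251.T Vale.Agent.P251.M Vale.Agent.P251.S

set_option linter.unusedSectionVars false

universe u

noncomputable section

namespace Vale.Agent.P221.H377

open Vale.Agent.P221.T hiding Thick
open Vale.Agent.P221.H460
open Vale.Agent.P221.H626 (InB IsReg Ex inB_zero inB_succ)
open Vale.Agent.P221.H543 (grA xo)

/-- sets of degrees -/
structure Deg (p n : ℕ) (D : ℤ → Prop) : Prop where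
  per : ∀ t a : ℤ, D (t + a * (2 * p - 2)) ↔ D t
  gap : ∀ t, D t → ∀ i : ℤ, 1 ≤ i → i ≤ n → ¬ D (t + i)

theorem sV_dvd (p : ℕ) (a : ℕ) :
    ∃ c : ℤ, Vale.Agent.P221.T.sV p a = c * (2 * p - 2) := by
  have h1 : ((p : ℤ) - 1) ∣ (p : ℤ) ^ a - 1 := by
    simpa using sub_dvd_pow_sub_pow (p : ℤ) 1 a
  obtain ⟨c, hc⟩ := h1
  refine ⟨c, ?_⟩
  rw [Vale.Agent.P221.T.sV]
  linear_combination 2 * hc

/-- the degrees of the powers -/
def de (p : ℕ) (e : ℕ → ℕ) (a : ℕ) : ℤ := ((e a + 1 : ℕ) : ℤ) * Vale.Agent.P221.T.sV p a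

section deg

variable {p n : ℕ} [hp : Fact p.Prime] {D : ℤ → Prop} (hD : Deg p n D)

include hD

theorem Deg.sub_de (e : ℕ → ℕ) (a : ℕ) (t : ℤ) : D (t - de p e a) ↔ D t := by
  obtain ⟨c, hc⟩ := sV_dvd p a
  have h1 : t - de p e a = t + (-(((e a + 1 : ℕ) : ℤ) * c)) * (2 * p - 2) := by
    rw [de, hc]
    ring
  rw [h1, hD.per]

theorem Deg.sub_sV (a : ℕ) (t : ℤ) : D (t - Vale.Agent.P221.T.sV p a) ↔ D t := by
  obtain ⟨c, hc⟩ := sV_dvd p a
  have h1 : t - Vale.Agent.P221.T.sV p a = t + (-c) * (2 * p - 2) := by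
    rw [hc]
    ring
  rw [h1, hD.per]

end deg

section gen

variable {𝒯 : Type u} [Category.{0} 𝒯] [Preadditive 𝒯] [HasZeroObject 𝒯]
    [HasShift 𝒯 ℤ] [∀ n : ℤ, (shiftFunctor 𝒯 n).Additive] [Pretriangulated 𝒯] [IsTriangulated 𝒯]
    [MonoidalCategory 𝒯] [SymmetricCategory 𝒯] [TensorTriangulated 𝒯] [MonoidalClosed 𝒯]
    [HasCoproducts.{0} 𝒯] [HasProducts.{0} 𝒯] [StableCat 𝒯] {p n : ℕ} [hp : Fact p.Prime]
    {P : 𝒯} {Sc : SrcT p n P} {ld : Lead p n} {O : OpAlg ld Sc.src} (OX : OpX O)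

/-- the powers of the operators -/
def xe (X : 𝒯) (e : ℕ → ℕ) (a : ℕ) : AA (Sc.sys X) →+ AA (Sc.sys X) :=
  H626.pw (xo OX (Sc.sys X) a) (e a + 1)

theorem xe_upd_ne (X : 𝒯) (e : ℕ → ℕ) {a j : ℕ} (h : a ≠ j) (i : ℕ) :
    xe OX X (upd e j i) a = xe OX X e a := by
  unfold xe
  rw [upd_ne e h]

theorem de_upd_ne (e : ℕ → ℕ) {a j : ℕ} (h : a ≠ j) (i : ℕ) :
    de p (upd e j i) a = de p e a := by
  unfold de
  rw [upd_ne e h]

theorem inB_congr {F : Type*} [AddCommGroup F] {x y : ℕ → F →+ F} {gr : ℤ → AddSubgroup F}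
    {dg dg' : ℕ → ℤ} {r : ℕ} (h : ∀ a < r, x a = y a) (h' : ∀ a < r, dg a = dg' a) {k : ℤ}
    {z : F} : InB x gr dg r k z ↔ InB y gr dg' r k z := by
  constructor
  · rintro ⟨w, hw, rfl⟩
    refine ⟨w, fun a ha => ?_, Finset.sum_congr rfl fun a ha => ?_⟩
    · rw [← h' a ha]
      exact hw a ha
    · rw [h a (Finset.mem_range.1 ha)]
  · rintro ⟨w, hw, rfl⟩
    refine ⟨w, fun a ha => ?_, Finset.sum_congr rfl fun a ha => ?_⟩
    · rw [h' a ha]
      exact hw a ha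
    · rw [h a (Finset.mem_range.1 ha)]

theorem inB_upd {X : 𝒯} {e : ℕ → ℕ} {j i k : ℕ} (h : k ≤ j) {t : ℤ} {z : AA (Sc.sys X)} :
    InB (xe OX X (upd e j i)) (grA (Sc.sys X)) (de p (upd e j i)) k t z ↔
      InB (xe OX X e) (grA (Sc.sys X)) (de p e) k t z :=
  inB_congr (fun a ha => xe_upd_ne OX X e (by omega) i) fun a ha => de_upd_ne e (by omega) i

theorem pw_eq_pow {A : Type*} [AddCommGroup A] (y : AddMonoid.End A) (i : ℕ) (z : A) :
    H626.pw y i z = (y ^ i : AddMonoid.End A) z := by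
  induction i with
  | zero => rfl
  | succ i ih =>
    rw [pow_succ']
    exact congrArg y ih

theorem xe_of {X : 𝒯} {M : Type} [AddCommGroup M] [Module (KK p) M] (Z : Ev O (Sc.sys X) M)
    {e : ℕ → ℕ} {j : ℕ} {d : ℤ} (hd : d = de p e j) {g : P⟦d⟧ ⟶ P}
    (hg : ∀ z, O.T d (toE Sc g) z = OX.eta (Vale.Agent.P221.T.vK p j) ^ (e j + 1) * z) {k k' : ℤ}
    (h : k + d = k') (a : P⟦k⟧ ⟶ X) :
    xe OX X e j (ofA (Sc.sys X) k a) = ofA (Sc.sys X) k' (gc h g a) := by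
  refine (pw_eq_pow (xx OX (Sc.sys X) j) (e j + 1) _).trans ?_
  refine xx_pow_of Z OX j (e j + 1) (by rw [← h, hd, de]) (show (Sc.sys X).A k from a)
    (a' := (Sc.sys X).act h a (toE Sc g)) fun z => ?_
  refine (DFunLike.congr_fun (Z.act h (show (Sc.sys X).A k from a) (toE Sc g)) z).trans ?_
  rw [LinearMap.comp_apply, hg]

variable (D : ℤ → Prop)

/-- the state of the induction -/
structure Sp {X Y : 𝒯} (κ : X ⟶ Y) (e : ℕ → ℕ) (j : ℕ) : Prop where
  van : ∀ t : ℤ, (∀ s : ℕ, s ≤ j → ¬ D (t - s)) → ∀ z : P⟦t⟧ ⟶ Y, z = 0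
  sur : j ≤ n → ∀ t, D t → ∀ z : P⟦t⟧ ⟶ Y, ∃ a : P⟦t⟧ ⟶ X, a ≫ κ = z
  ker : j ≤ n + 1 → ∀ (t : ℤ) (a : P⟦t⟧ ⟶ X), a ≫ κ = 0 ↔
    InB (xe OX X e) (grA (Sc.sys X)) (de p e) j t (ofA (Sc.sys X) t a)
  cov : j ≤ n + 1 → IsReg (xe OX X e) (grA (Sc.sys X)) (de p e) j →
    ∀ t, ¬ D t → ∀ z : P⟦t⟧ ⟶ Y, z = 0

variable {D} {OX} (hD : Deg p n D)

theorem Sp.zero {X : 𝒯} (hX : ∀ t, ¬ D t → ∀ a : P⟦t⟧ ⟶ X, a = 0) (e : ℕ → ℕ) :
    Sp OX D (𝟙 X) e 0 where
  van t ht z := hX t (by simpa using ht 0 le_rfl) z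
  sur _ t _ z := ⟨z, Category.comp_id z⟩
  ker _ t a := by
    rw [Category.comp_id, inB_zero]
    constructor
    · rintro rfl
      exact map_zero (ofA (Sc.sys X) t)
    · intro h
      exact H543.ofA_inj (Y := Sc.sys X) t (h.trans (map_zero (ofA (Sc.sys X) t)).symm)
  cov _ _ := hX

include hD in
/-- **the induction step** -/
theorem Sp.step {X Y C : 𝒯} {κ : X ⟶ Y} {e : ℕ → ℕ} {j : ℕ} (h : Sp OX D κ e j)
    (hX : ∀ t, ¬ D t → ∀ a : P⟦t⟧ ⟶ X, a = 0) {i : ℕ} {d : ℤ}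
    (hd : d = ((i + 1 : ℕ) : ℤ) * Vale.Agent.P221.T.sV p j)
    {F : Y⟦d⟧ ⟶ Y} {G : Y ⟶ C} {δ : C ⟶ (Y⟦d⟧)⟦(1 : ℤ)⟧} (H : Triangle.mk F G δ ∈ distTriang 𝒯)
    (hK : ∀ {k k' : ℤ} (h : d + k = k') (a : P⟦k⟧ ⟶ X), ∃ b : P⟦k'⟧ ⟶ X,
      gc h (a ≫ κ) F = b ≫ κ ∧
        xe OX X (upd e j i) j (ofA (Sc.sys X) k a) = ofA (Sc.sys X) k' b) :
    Sp OX D (κ ≫ G) (upd e j i) (j + 1) := by
  have hde : d = de p (upd e j i) j := by rw [de, upd_self, hd]
  have hDd : ∀ t, D (t - d) ↔ D t := fun t => by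
    rw [hde]
    exact hD.sub_de _ _ t
  have hsub : ∀ {t : ℤ} (a a' : P⟦t⟧ ⟶ X), (ofA (Sc.sys X) t) a - (ofA (Sc.sys X) t) a' =
      (ofA (Sc.sys X) t) (show (Sc.sys X).A t from a - a') := fun a a' =>
    (map_sub (ofA (Sc.sys X) _) _ _).symm
  have hker : j + 1 ≤ n + 1 → ∀ (t : ℤ) (a : P⟦t⟧ ⟶ X), a ≫ κ ≫ G = 0 ↔
      InB (xe OX X (upd e j i)) (grA (Sc.sys X)) (de p (upd e j i)) (j + 1) t
        (ofA (Sc.sys X) t a) := by
    intro hj t a
    rw [inB_succ]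
    constructor
    · intro ha
      by_cases ht : D t
      · obtain ⟨y, hy⟩ := exists_gc H (show d + (t - d) = t by ring) (a ≫ κ) (by
          rw [Category.assoc, ha])
        obtain ⟨b, rfl⟩ := h.sur (by omega) (t - d) ((hDd t).2 ht) y
        obtain ⟨b', hb', hb''⟩ := hK (show d + (t - d) = t by ring) b
        rw [hb'] at hy
        refine ⟨ofA (Sc.sys X) (t - d) b, ?_, ?_⟩
        · rw [← hde]
          exact H543.of_mem_grA _ _ _
        · rw [hb'', inB_upd OX le_rfl, hsub]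
          refine (h.ker (by omega) t _).1 ?_
          rw [Preadditive.sub_comp, hy, sub_self]
      · refine ⟨0, AddSubgroup.zero_mem _, ?_⟩
        rw [hX t ht a, map_zero, sub_zero]
        refine ⟨fun _ => 0, fun _ _ => AddSubgroup.zero_mem _, ?_⟩
        have h1 : (ofA (Sc.sys X) t) (0 : P⟦t⟧ ⟶ X) = 0 := map_zero (ofA (Sc.sys X) t)
        rw [h1]
        exact (Finset.sum_eq_zero fun a _ => map_zero _).symm
    · rintro ⟨w, hw, hI⟩
      rw [← hde] at hw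
      obtain ⟨b, rfl⟩ := H543.exists_of_mem_grA hw
      obtain ⟨b', hb', hb''⟩ := hK (show d + (t - d) = t by ring) b
      rw [hb'', inB_upd OX le_rfl, hsub] at hI
      have h2 := (h.ker (by omega) t _).2 hI
      rw [Preadditive.sub_comp, sub_eq_zero, ← hb'] at h2
      rw [← Category.assoc, h2, gc_F_G H]
  refine ⟨fun t ht z => ?_, fun hj t ht z => ?_, hker, fun hj hR t ht z => ?_⟩
  · obtain ⟨w, -, hw⟩ := exists_conn H (show d + (t - 1 - d) = t - 1 by ring)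
      (show 1 + (t - 1) = t by ring) z
    have h1 : w = 0 := h.van _ (fun s hs hDs => by
      have h2 : t - 1 - d - (s : ℤ) = t - ((s + 1 : ℕ) : ℤ) - d := by push_cast; ring
      rw [h2, hDd] at hDs
      exact ht (s + 1) (by omega) hDs) w
    obtain ⟨y, rfl⟩ := hw h1
    rw [h.van t (fun s hs => ht s (by omega)) y, zero_comp]
  · obtain ⟨w, -, hw⟩ := exists_conn H (show d + (t - 1 - d) = t - 1 by ring)
      (show 1 + (t - 1) = t by ring) z
    have h1 : w = 0 := h.van _ (fun s hs hDs => by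
      have h2 : t - 1 - d - (s : ℤ) = t - ((s : ℤ) + 1) - d := by ring
      rw [h2, hDd] at hDs
      refine hD.gap _ hDs ((s : ℤ) + 1) (by omega) (by omega) ?_
      rwa [sub_add_cancel]) w
    obtain ⟨y, rfl⟩ := hw h1
    obtain ⟨a, rfl⟩ := h.sur (by omega) t ht y
    exact ⟨a, (Category.assoc _ _ _).symm⟩
  · obtain ⟨w, hwF, hw⟩ := exists_conn H (show d + (t - 1 - d) = t - 1 by ring)
      (show 1 + (t - 1) = t by ring) z
    have hR' : IsReg (xe OX X e) (grA (Sc.sys X)) (de p e) j := by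
      intro b hb k z hz hI
      have h1 := hR b (by omega) k z hz
      rw [inB_upd OX hb.le, inB_upd OX hb.le, xe_upd_ne OX X e (by omega),
        de_upd_ne e (by omega)] at h1
      exact h1 hI
    have h1 : w = 0 := by
      by_cases hDt : D (t - 1 - d)
      · obtain ⟨a, rfl⟩ := h.sur (by omega) _ hDt w
        obtain ⟨b', hb', hb''⟩ := hK (show d + (t - 1 - d) = t - 1 by ring) a
        rw [hb'] at hwF
        refine (h.ker (by omega) _ _).2 ?_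
        have h2 := (h.ker (by omega) _ _).1 hwF
        rw [← hb'', ← inB_upd OX (i := i) le_rfl] at h2
        rw [← inB_upd OX (i := i) le_rfl]
        refine hR j (by omega) _ _ (H543.of_mem_grA _ _ _) ?_
        rw [← hde]
        have h3 : t - 1 - d + d = t - 1 := by ring
        rw [h3]
        exact h2
      · exact h.cov (by omega) hR' _ hDt w
    obtain ⟨y, rfl⟩ := hw h1
    rw [h.cov (by omega) hR' t ht y, zero_comp]

end gen

end Vale.Agent.P221.H377
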