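import Vale.Agent.P221.H377.Shift

/-!
# P221 (helper377): towers of generalised Moore spectra

`L j` : an object `V_j` with `𝟙 ⟶ V_j`; `Twr OX e L N` : `V_{j+1}` is the cofibre of a self map of
`V_j` which induces a power of `v_j`, `j < N`.

All statements hold in large degrees (`∀ᶠ t in atTop`):

* `Sur P D i X` : `[P⟦t⟧, X] ⟶ [P⟦t⟧, X ⊗ V]` is onto for `D t`;
* `Ker OX e j i X` : its kernel is `∑_{a < j} [P, X] x_a^{e_a + 1}`;
* `Van P D k V X` : `[P⟦t⟧, X ⊗ V] = 0` if `¬ D (t - s)` for all `s ≤ k`.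
-/

open CategoryTheory MonoidalCategory MonObj Limits Pretriangulated Filter
open Vale.Agent.P251.T Vale.Agent.P251.M Vale.Agent.P251.S

set_option linter.unusedSectionVars false

universe u

noncomputable section

namespace Vale.Agent.P221.H377

open Vale.Agent.P221.T hiding Thick
open Vale.Agent.P221.H460
open Vale.Agent.P221.H626 (InB IsReg Ex inB_zero inB_succ)
open Vale.Agent.P221.H543 (grA xo)

theorem ev_sub {Q : ℤ → Prop} (h : ∀ᶠ t in atTop, Q t) (c : ℤ) : ∀ᶠ t in atTop, Q (t - c) := by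
  obtain ⟨T, hT⟩ := eventually_atTop.1 h
  exact eventually_atTop.2 ⟨T + c, fun t ht => hT _ (by omega)⟩

theorem ev_add {Q : ℤ → Prop} (h : ∀ᶠ t in atTop, Q t) (c : ℤ) : ∀ᶠ t in atTop, Q (t + c) := by
  obtain ⟨T, hT⟩ := eventually_atTop.1 h
  exact eventually_atTop.2 ⟨T - c, fun t ht => hT _ (by omega)⟩

/-- a level of the tower -/
structure Lv (𝒯 : Type u) [Category.{0} 𝒯] [MonoidalCategory 𝒯] where
  V : 𝒯
  i : 𝟙_ 𝒯 ⟶ V

section gen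

variable {𝒯 : Type u} [Category.{0} 𝒯] [Preadditive 𝒯] [HasZeroObject 𝒯]
    [HasShift 𝒯 ℤ] [∀ n : ℤ, (shiftFunctor 𝒯 n).Additive] [Pretriangulated 𝒯] [IsTriangulated 𝒯]
    [MonoidalCategory 𝒯] [SymmetricCategory 𝒯] [TensorTriangulated 𝒯] [MonoidalClosed 𝒯]
    [HasCoproducts.{0} 𝒯] [HasProducts.{0} 𝒯] [StableCat 𝒯] {p n : ℕ} [hp : Fact p.Prime]
    {P : 𝒯} {Sc : SrcT p n P} {ld : Lead p n} {O : OpAlg ld Sc.src}

theorem inc_whisker {V W X : 𝒯} (i₀ : 𝟙_ 𝒯 ⟶ V) (g : V ⟶ W) :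
    inc i₀ X ≫ (X ◁ g) = inc (i₀ ≫ g) X := by
  unfold inc
  rw [Category.assoc, MonoidalCategory.whiskerLeft_comp]

variable (OX : OpX O)

/-- a step of the tower -/
def Stp (e : ℕ → ℕ) (j : ℕ) (L L' : Lv 𝒯) : Prop :=
  ∃ (d : ℤ) (g : L.V ⟶ L'.V), d = de p e j ∧ L.i ≫ g = L'.i ∧
    ∀ X : 𝒯, ∃ (F : (X ⊗ L.V)⟦d⟧ ⟶ X ⊗ L.V) (δ : X ⊗ L'.V ⟶ ((X ⊗ L.V)⟦d⟧)⟦(1 : ℤ)⟧),
      Triangle.mk F (X ◁ g) δ ∈ distTriang 𝒯 ∧
      (HasEv O X → ∀ {k k' : ℤ} (h : d + k = k') (a : P⟦k⟧ ⟶ X), ∃ b : P⟦k'⟧ ⟶ X,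
        gc h (a ≫ inc L.i X) F = b ≫ inc L.i X ∧
          xe OX X e j (ofA (Sc.sys X) k a) = ofA (Sc.sys X) k' b)

/-- a tower -/
structure Twr (e : ℕ → ℕ) (L : ℕ → Lv 𝒯) (N : ℕ) : Prop where
  iso : ∀ X : 𝒯, IsIso (inc (L 0).i X)
  step : ∀ j < N, Stp OX e j (L j) (L (j + 1))

variable (P)

/-- `[P, X] ⟶ [P, X ⊗ V]` is onto in large degrees in `D` -/
def Sur (D : ℤ → Prop) (L : Lv 𝒯) (X : 𝒯) : Prop :=
  ∀ᶠ t in atTop, D t → ∀ z : P⟦t⟧ ⟶ X ⊗ L.V, ∃ a : P⟦t⟧ ⟶ X, a ≫ inc L.i X = z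

/-- `[P, X ⊗ V]` vanishes in large degrees `t` with `¬ D (t - s)`, `s ≤ k` -/
def Van (D : ℤ → Prop) (k : ℕ) (L : Lv 𝒯) (X : 𝒯) : Prop :=
  ∀ᶠ t in atTop, (∀ s : ℕ, s ≤ k → ¬ D (t - s)) → ∀ z : P⟦t⟧ ⟶ X ⊗ L.V, z = 0

variable {P}

/-- the kernel of `[P, X] ⟶ [P, X ⊗ V]` in large degrees -/
def Ker (e : ℕ → ℕ) (j : ℕ) (L : Lv 𝒯) (X : 𝒯) : Prop :=
  ∀ᶠ t in atTop, ∀ a : P⟦t⟧ ⟶ X, a ≫ inc L.i X = 0 ↔
    InB (xe OX X e) (grA (Sc.sys X)) (de p e) j t (ofA (Sc.sys X) t a)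

variable {OX} {D : ℤ → Prop} {e : ℕ → ℕ} {L : ℕ → Lv 𝒯} {N : ℕ} {X : 𝒯}

theorem Van.con {L : Lv 𝒯} (h : Van P D 0 L X) :
    ∀ᶠ t in atTop, ¬ D t → ∀ z : P⟦t⟧ ⟶ X ⊗ L.V, z = 0 :=
  h.mono fun t ht hD => ht fun s hs => by
    obtain rfl : s = 0 := by omega
    simpa using hD

theorem Van.of_con {L : Lv 𝒯}
    (h : ∀ᶠ t in atTop, ¬ D t → ∀ z : P⟦t⟧ ⟶ X ⊗ L.V, z = 0) : Van P D 0 L X :=
  h.mono fun t ht hD => ht (by simpa using hD 0 le_rfl)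

/-! ### level `0` -/

theorem Twr.sur_zero (hT : Twr OX e L N) : Sur P D (L 0) X := by
  have := hT.iso X
  exact Eventually.of_forall fun t _ z => ⟨z ≫ inv (inc (L 0).i X), by simp⟩

theorem Twr.ker_zero (hT : Twr OX e L N) : Ker OX e 0 (L 0) X := by
  have := hT.iso X
  refine Eventually.of_forall fun t a => ?_
  rw [inB_zero]
  constructor
  · intro h
    have h1 : a = (a ≫ inc (L 0).i X) ≫ inv (inc (L 0).i X) := by simp
    rw [h, zero_comp] at h1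
    rw [h1]
    exact map_zero (ofA (Sc.sys X) t)
  · intro h
    have h1 : a = 0 :=
      H543.ofA_inj (Y := Sc.sys X) t (h.trans (map_zero (ofA (Sc.sys X) t)).symm)
    rw [h1, zero_comp]

theorem Twr.van_zero (hT : Twr OX e L N)
    (h : ∀ᶠ t in atTop, ¬ D t → ∀ a : P⟦t⟧ ⟶ X, a = 0) : Van P D 0 (L 0) X := by
  have := hT.iso X
  refine Van.of_con (h.mono fun t ht hD z => ?_)
  have h1 : z = (z ≫ inv (inc (L 0).i X)) ≫ inc (L 0).i X := by simp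
  have h2 : z ≫ inv (inc (L 0).i X) = 0 := ht hD _
  rw [h1, h2, zero_comp]

/-! ### steps -/

section step

variable {L L' : Lv 𝒯} {j : ℕ} (hS : Stp OX e j L L')

include hS in
/-- surjectivity -/
theorem Sur.step (h : Sur P D L X) (hz : ∀ᶠ t in atTop, D t →
    ∀ w : P⟦t - 1 - de p e j⟧ ⟶ X ⊗ L.V, w = 0) : Sur P D L' X := by
  obtain ⟨d, g, rfl, hg, hX⟩ := hS
  obtain ⟨F, δ, H, -⟩ := hX X
  filter_upwards [h, hz] with t h1 h2 ht z
  obtain ⟨w, -, hw⟩ := exists_conn H (show de p e j + (t - 1 - de p e j) = t - 1 by ring)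
    (show 1 + (t - 1) = t by ring) z
  obtain ⟨y, rfl⟩ := hw (h2 ht w)
  obtain ⟨a, rfl⟩ := h1 ht y
  exact ⟨a, by rw [Category.assoc, inc_whisker, hg]⟩

include hS in
/-- vanishing -/
theorem Van.step {g₀ : ℕ} (hD : Deg p g₀ D) {k : ℕ} (h : Van P D k L X) :
    Van P D (k + 1) L' X := by
  obtain ⟨d, g, rfl, hg, hX⟩ := hS
  obtain ⟨F, δ, H, -⟩ := hX X
  filter_upwards [h, ev_sub (ev_sub h (de p e j)) 1] with t h1 h2 ht z
  obtain ⟨w, -, hw⟩ := exists_conn H (show de p e j + (t - 1 - de p e j) = t - 1 by ring)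
    (show 1 + (t - 1) = t by ring) z
  have h3 : w = 0 := h2 (fun s hs hDs => by
    have h4 : t - 1 - de p e j - (s : ℤ) = t - ((s + 1 : ℕ) : ℤ) - de p e j := by push_cast; ring
    rw [h4, hD.sub_de] at hDs
    exact ht (s + 1) (by omega) hDs) w
  obtain ⟨y, rfl⟩ := hw h3
  rw [h1 (fun s hs => ht s (by omega)) y, zero_comp]

include hS in
/-- the kernel -/
theorem Ker.step {g₀ : ℕ} (hD : Deg p g₀ D) (hE : HasEv O X)
    (h0 : ∀ᶠ t in atTop, ¬ D t → ∀ a : P⟦t⟧ ⟶ X, a = 0) (hs : Sur P D L X)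
    (h : Ker OX e j L X) : Ker OX e (j + 1) L' X := by
  obtain ⟨d, g, rfl, hg, hX⟩ := hS
  obtain ⟨F, δ, H, hK⟩ := hX X
  filter_upwards [h, h0, ev_sub hs (de p e j)] with t h1 h2 h3 a
  rw [← hg, ← inc_whisker, inB_succ]
  constructor
  · intro ha
    by_cases ht : D t
    · obtain ⟨y, hy⟩ := exists_gc H (show de p e j + (t - de p e j) = t by ring)
        (a ≫ inc L.i X) (by rw [Category.assoc, ha])
      obtain ⟨b, rfl⟩ := h3 ((hD.sub_de e j t).2 ht) y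
      obtain ⟨b', hb', hb''⟩ := hK hE (show de p e j + (t - de p e j) = t by ring) b
      rw [hb'] at hy
      refine ⟨ofA (Sc.sys X) (t - de p e j) b, H543.of_mem_grA _ _ _, ?_⟩
      rw [hb'']
      have h5 := (h1 (a - b')).1 (by rw [Preadditive.sub_comp, hy, sub_self])
      have h6 : (ofA (Sc.sys X) t) a - (ofA (Sc.sys X) t) b' =
        (ofA (Sc.sys X) t) (show (Sc.sys X).A t from a - b') :=
        (map_sub (ofA (Sc.sys X) _) _ _).symm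
      rw [h6]
      exact h5
    · refine ⟨0, AddSubgroup.zero_mem _, ?_⟩
      rw [h2 ht a, map_zero, sub_zero]
      refine ⟨fun _ => 0, fun _ _ => AddSubgroup.zero_mem _, ?_⟩
      have h1 : (ofA (Sc.sys X) t) (0 : P⟦t⟧ ⟶ X) = 0 := map_zero (ofA (Sc.sys X) t)
      rw [h1]
      exact (Finset.sum_eq_zero fun a _ => map_zero _).symm
  · rintro ⟨w, hw, hI⟩
    obtain ⟨b, rfl⟩ := H543.exists_of_mem_grA hw
    obtain ⟨b', hb', hb''⟩ := hK hE (show de p e j + (t - de p e j) = t by ring) b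
    have h6 : (ofA (Sc.sys X) t) a - (ofA (Sc.sys X) t) b' =
      (ofA (Sc.sys X) t) (show (Sc.sys X).A t from a - b') :=
      (map_sub (ofA (Sc.sys X) _) _ _).symm
    rw [hb'', h6] at hI
    have h5 := (h1 (a - b')).2 hI
    rw [Preadditive.sub_comp, sub_eq_zero, ← hb'] at h5
    rw [← Category.assoc, h5, gc_F_G H]

include hS in
/-- regular sequences -/
theorem Van.step_reg (hE : HasEv O X) (hs : Sur P D L X)
    (hk : Ker OX e j L X) (h : Van P D 0 L X) {r : ℕ} (hj : j < r)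
    (hR : IsReg (xe OX X e) (grA (Sc.sys X)) (de p e) r) : Van P D 0 L' X := by
  obtain ⟨d, g, rfl, hg, hX⟩ := hS
  obtain ⟨F, δ, H, hK⟩ := hX X
  refine Van.of_con ?_
  filter_upwards [h.con, ev_sub (ev_sub h.con (de p e j)) 1, ev_sub (ev_sub hs (de p e j)) 1,
    ev_sub hk 1, ev_sub (ev_sub hk (de p e j)) 1] with t h1 h2 h3 h4 h5 ht z
  obtain ⟨w, hwF, hw⟩ := exists_conn H (show de p e j + (t - 1 - de p e j) = t - 1 by ring)
    (show 1 + (t - 1) = t by ring) z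
  have h6 : w = 0 := by
    by_cases hDt : D (t - 1 - de p e j)
    · obtain ⟨a, rfl⟩ := h3 hDt w
      obtain ⟨b', hb', hb''⟩ := hK hE (show de p e j + (t - 1 - de p e j) = t - 1 by ring) a
      rw [hb'] at hwF
      refine (h5 _).2 (hR j hj _ _ (H543.of_mem_grA _ _ _) ?_)
      rw [hb'', sub_add_cancel]
      exact (h4 _).1 hwF
    · exact h2 hDt w
  obtain ⟨y, rfl⟩ := hw h6
  rw [h1 ht y, zero_comp]

end step

end gen

end Vale.Agent.P221.H377
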