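import Vale.Agent.P221.H377.Tower

/-!
# P221 (helper377): towers, regular objects and syzygies

* `reg_data` : `Sur`, `Ker`, `Van` for an object with a regular sequence;
* `x_data` : for an object `X` with `[P, X ⊗ V_j]` concentrated in `D` for `j ≤ m`, where `D` has gaps
  of length `g`: surjectivity up to level `m + g`, the kernel up to level `m + g + 1`;
* `syz_data` : one more level for the first syzygy.
-/

open CategoryTheory MonoidalCategory MonObj Limits Pretriangulated Filter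
open Vale.Agent.P251.T Vale.Agent.P251.M Vale.Agent.P251.S

set_option linter.unusedSectionVars false

universe u

noncomputable section

namespace Vale.Agent.P221.H377

open Vale.Agent.P221.T hiding Thick
open Vale.Agent.P221.H460
open Vale.Agent.P221.H626 (InB IsReg Ex inB_zero inB_succ)
open Vale.Agent.P221.H543 (grA xo)

section gen

variable {𝒯 : Type u} [Category.{0} 𝒯] [Preadditive 𝒯] [HasZeroObject 𝒯]
    [HasShift 𝒯 ℤ] [∀ n : ℤ, (shiftFunctor 𝒯 n).Additive] [Pretriangulated 𝒯] [IsTriangulated 𝒯]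
    [MonoidalCategory 𝒯] [SymmetricCategory 𝒯] [TensorTriangulated 𝒯] [MonoidalClosed 𝒯]
    [HasCoproducts.{0} 𝒯] [HasProducts.{0} 𝒯] [StableCat 𝒯] {p n : ℕ} [hp : Fact p.Prime]
    {P : 𝒯} {Sc : SrcT p n P} {ld : Lead p n} {O : OpAlg ld Sc.src}

section tri

variable {X Y C : 𝒯} {F : X ⟶ Y} {G : Y ⟶ C} {δ : C ⟶ X⟦(1 : ℤ)⟧}
  (H : Triangle.mk F G δ ∈ distTriang 𝒯) {A : 𝒯}

include H in
/-- the boundary map is onto the kernel -/
theorem exists_bdry' {k l : ℤ} (h : 1 + l = k) (w : A⟦l⟧ ⟶ X) (hw : w ≫ F = 0)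
    (hC : ∀ c : A⟦k⟧ ⟶ C, c ≫ δ = 0) : w = 0 := by
  have h1 : gc h w (𝟙 (X⟦(1 : ℤ)⟧)) ≫ F⟦(1 : ℤ)⟧' = 0 := by
    have h2 := gc_map h w F (𝟙 (Y⟦(1 : ℤ)⟧))
    rw [hw, gc_zero_left, Category.comp_id] at h2
    rw [← gc_comp, Category.id_comp, ← h2]
  obtain ⟨y, hy⟩ := dist_co₁ H _ h1
  refine gc_inj h ?_
  rw [gc_zero_left, hy, hC y]

include H in
/-- the boundary map vanishes on the image of `[A, X] ⟶ [A, X ⊗ V]` -/
theorem bdry_zero (hl : ∀ {k : ℤ} (a : A⟦k⟧ ⟶ C), ∃ a' : A⟦k⟧ ⟶ Y, a' ≫ G = a) {V : 𝒯}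
    {i₀ : 𝟙_ 𝒯 ⟶ V} {k l : ℤ} (h : 1 + l = k)
    (hs : ∀ z : A⟦k⟧ ⟶ C ⊗ V, ∃ a : A⟦k⟧ ⟶ C, a ≫ inc i₀ C = z) (w : A⟦l⟧ ⟶ X ⊗ V)
    (hw : w ≫ (F ▷ V) = 0) : w = 0 := by
  have hTV := dist_whiskerRight V H
  obtain ⟨δ', hTV⟩ : ∃ δ', Triangle.mk (F ▷ V) (G ▷ V) δ' ∈ distTriang 𝒯 := ⟨_, hTV⟩
  refine exists_bdry' hTV h w hw fun c => ?_
  obtain ⟨a, rfl⟩ := hs c
  obtain ⟨a', rfl⟩ := hl a
  rw [Category.assoc a', ← inc_nat, Category.assoc, Category.assoc, dist_zero₂₃ hTV, comp_zero,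
    comp_zero]

end tri

variable {OX : OpX O} {D : ℤ → Prop} {e : ℕ → ℕ} {L : ℕ → Lv 𝒯} {N : ℕ} {X : 𝒯}
  (hT : Twr OX e L N) {g : ℕ} (hD : Deg p g D)

include hT hD in
/-- objects with a regular sequence -/
theorem reg_data (h1D : ∀ t, D t → ¬ D (t + 1)) (hE : HasEv O X)
    (h0 : ∀ t, ¬ D t → ∀ a : P⟦t⟧ ⟶ X, a = 0) {r : ℕ} (hN : N ≤ r)
    (hR : IsReg (xe OX X e) (grA (Sc.sys X)) (de p e) r) : ∀ j ≤ N,
      Sur P D (L j) X ∧ Ker OX e j (L j) X ∧ Van P D 0 (L j) X := by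
  intro j
  induction j with
  | zero => exact fun _ => ⟨hT.sur_zero, hT.ker_zero, hT.van_zero (Eventually.of_forall h0)⟩
  | succ j ih =>
    intro hj
    obtain ⟨h1, h2, h3⟩ := ih (by omega)
    have hS := hT.step j (by omega)
    refine ⟨h1.step hS ?_, h2.step hS hD hE (Eventually.of_forall h0) h1,
      h3.step_reg hS hE h1 h2 (by omega) hR⟩
    filter_upwards [ev_sub (ev_sub h3.con (de p e j)) 1] with t h4 ht
    refine h4 fun h5 => ?_
    rw [hD.sub_de] at h5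
    have h6 := h1D _ h5
    rw [sub_add_cancel] at h6
    exact h6 ht

include hT hD in
/-- objects with few homotopy groups -/
theorem x_data (hg : 1 ≤ g) (hE : HasEv O X) (h0 : ∀ t, ¬ D t → ∀ a : P⟦t⟧ ⟶ X, a = 0) {m : ℕ}
    (hm : ∀ j ≤ m, j ≤ N → Van P D 0 (L j) X) : ∀ j ≤ N,
      (j ≤ m + g → Sur P D (L j) X) ∧ (j ≤ m + g + 1 → Ker OX e j (L j) X) ∧
        Van P D (j - m) (L j) X := by
  intro j
  induction j with
  | zero =>
    intro _
    refine ⟨fun _ => hT.sur_zero, fun _ => hT.ker_zero, ?_⟩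
    rw [Nat.zero_sub]
    exact hT.van_zero (Eventually.of_forall h0)
  | succ j ih =>
    intro hj
    obtain ⟨h1, h2, h3⟩ := ih (by omega)
    have hS := hT.step j (by omega)
    refine ⟨fun hj' => (h1 (by omega)).step hS ?_,
      fun hj' => (h2 (by omega)).step hS hD hE (Eventually.of_forall h0) (h1 (by omega)), ?_⟩
    · filter_upwards [ev_sub (ev_sub h3 (de p e j)) 1] with t h4 ht
      refine h4 fun s hs hDs => ?_
      have h5 : t - 1 - de p e j - (s : ℤ) = t - ((s : ℤ) + 1) - de p e j := by ring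
      rw [h5, hD.sub_de] at hDs
      refine hD.gap _ hDs ((s : ℤ) + 1) (by omega) (by omega) ?_
      rwa [sub_add_cancel]
    · by_cases hjm : j + 1 ≤ m
      · have h6 : j + 1 - m = 0 := by omega
        rw [h6]
        exact hm _ hjm hj
      · have h6 : j + 1 - m = j - m + 1 := by omega
        rw [h6]
        exact h3.step hS hD

section syz

variable (h1D : ∀ t, D t → ¬ D (t + 1)) {X₁ P₀ : 𝒯} {i : X₁ ⟶ P₀} {q : P₀ ⟶ X}
  {δ : X ⟶ X₁⟦(1 : ℤ)⟧} (H : Triangle.mk i q δ ∈ distTriang 𝒯)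
  (hl : ∀ {k : ℤ} (a : P⟦k⟧ ⟶ X), ∃ a' : P⟦k⟧ ⟶ P₀, a' ≫ q = a)

include H hl in
/-- the syzygy, vanishing -/
theorem Van.syz {L : Lv 𝒯} (hP : Van P D 0 L P₀) (hX : Van P D 0 L X) (hs : Sur P D L X) :
    Van P D 0 L X₁ := by
  refine Van.of_con ?_
  filter_upwards [hP.con, ev_add hX.con 1, ev_add hs 1] with t h1 h2 h3 ht w
  refine bdry_zero H hl (i₀ := L.i) (show 1 + t = t + 1 by ring) (fun z => ?_) w (h1 ht _)
  by_cases ht' : D (t + 1)
  · exact h3 ht' z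
  · exact ⟨0, by rw [zero_comp, h2 ht' z]⟩

include hT hD h1D H hl in
/-- **one more level for the first syzygy** -/
theorem syz_data (hE : HasEv O X₁) (h0 : ∀ t, ¬ D t → ∀ a : P⟦t⟧ ⟶ X₁, a = 0) {N₀ : ℕ}
    (hX : ∀ j ≤ N₀, j ≤ N → Sur P D (L j) X) (hP : ∀ j ≤ N, Van P D 0 (L j) P₀) : ∀ j ≤ N,
      (j ≤ N₀ + 1 → Sur P D (L j) X₁) ∧ (j ≤ N₀ + 2 → Ker OX e j (L j) X₁) := by
  intro j
  induction j with
  | zero => exact fun _ => ⟨fun _ => hT.sur_zero, fun _ => hT.ker_zero⟩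
  | succ j ih =>
    intro hj
    obtain ⟨h1, h2⟩ := ih (by omega)
    have hS := hT.step j (by omega)
    refine ⟨fun hj' => (h1 (by omega)).step hS ?_,
      fun hj' => (h2 (by omega)).step hS hD hE (Eventually.of_forall h0) (h1 (by omega))⟩
    filter_upwards [ev_sub (ev_sub (hP j (by omega)).con (de p e j)) 1,
      ev_sub (hX j (by omega) (by omega)) (de p e j)] with t h4 h5 ht w
    refine bdry_zero H hl (show 1 + (t - 1 - de p e j) = t - de p e j by ring)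
      (h5 ((hD.sub_de e j t).2 ht)) w (h4 ?_ _)
    rw [hD.sub_de]
    intro h6
    have h7 := h1D _ h6
    rw [sub_add_cancel] at h7
    exact h7 ht

end syz

end gen

end Vale.Agent.P221.H377
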