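import Vale.Agent.P221.H377.PiT

/-!
# P221 (helper377): towers from generalised Moore spectra

* `STw φ E j V` : `V` is a generalised Moore spectrum of type `j`, and its stages `V_l`, `l < j`,
  satisfy `E l V_l`;
* `twr_of_stw` : the tower.
-/

open CategoryTheory MonoidalCategory OnePoint Limits Pretriangulated MonObj

set_option linter.unusedSectionVars false

noncomputable section

namespace Vale.Agent.P221.H377

open Vale.Agent.P251 Vale.Agent.P251.S Vale.Agent.P251.T Vale.Agent.P251.M Vale.Agent.P251.F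
  Vale.Agent.P251.I EvenSpheres Vale.Agent.P257.H702 Vale.Agent.P257.H80 Vale.Agent.P251.Q
  Vale.Agent.P251.St Vale.Agent.P251.St.SHCat Vale.Agent.P257.St Vale.Agent.P221.H746
  Vale.Agent.P093.N0
open Vale.Agent.P221.St
open Vale.Agent.P221.T (BPS sV KK GG HK SrcT OpAlg Lead PiM hat gc unit_hat zr IsLin fm)
open Vale.Agent.P221.H460 (OpX Ev Reg)

variable {T : SHCat} {S : Susp T} {p : ℕ} {R : RingSp T}

/-- generalised Moore spectra with conditions on the stages -/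
inductive STw (φ : GHom S p R) (E : ℕ → T.C → Prop) : ℕ → T.C → Prop
  | base {i : ℕ} {V : T.C} {g : Hom T.one V} {h : Hom V (sus T.one)} :
      E 0 T.one → 0 < i → Dist (zmul ((p : ℤ) ^ i) (ident T.one)) g h → STw φ E 1 V
  | step {j k i : ℕ} {V W : T.C} {f : Hom (ten (S.obj (Cn k)) V) V} {g : Hom V W}
      {h : Hom W (sus (ten (S.obj (Cn k)) V))} {w : VPoly p k} :
      STw φ E j V → E j V → 0 < i → (w : MvPolynomial ℕ ℤ) = vEl p j ^ i →
        InducesMul (φ.val w) f → Dist f g h → STw φ E (j + 1) W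

theorem STw.gen {φ : GHom S p R} {E : ℕ → T.C → Prop} {j : ℕ} {V : T.C} (h : STw φ E j V) :
    IsGenMoore φ j V := by
  induction h with
  | base _ h1 h2 => exact .base h1 h2
  | step _ _ h2 h3 h4 h5 ih => exact .step ih h2 h3 h4 h5

theorem STw.mono {φ : GHom S p R} {E E' : ℕ → T.C → Prop} (hE : ∀ j V, E j V → E' j V) {j : ℕ}
    {V : T.C} (h : STw φ E j V) : STw φ E' j V := by
  induction h with
  | base h0 h1 h2 => exact .base (hE _ _ h0) h1 h2
  | step _ h0 h2 h3 h4 h5 ih => exact .step ih (hE _ _ h0) h2 h3 h4 h5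

/-- the triangle of `p ^ i`, tensored with `X` -/
theorem base_tri' {a : ℤ} {V : T.C} {g : Hom T.one V} {h : Hom V (sus T.one)}
    (hT : Dist (zmul a (ident T.one)) g h) (X : T.C) :
    ∃ δ, Triangle.mk (pw (X ⊗ 𝟙_ T.C) a) (X ◁ g) δ ∈ distTriang T.C := by
  have h3 := dist_whiskerLeft X hT
  have h4 := dist_iso₁ h3 ((shiftFunctorZero T.C ℤ).app (X ⊗ 𝟙_ T.C))
  have h5 : ((shiftFunctorZero T.C ℤ).app (X ⊗ 𝟙_ T.C)).hom ≫ X ◁ (a • 𝟙 (𝟙_ T.C)) =
      pw (X ⊗ 𝟙_ T.C) a := by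
    have h4 : X ◁ (a • 𝟙 (𝟙_ T.C)) = a • 𝟙 (X ⊗ 𝟙_ T.C) := by
      have h5 := map_zsmul ((tensorLeft X).mapAddHom (X := 𝟙_ T.C) (Y := 𝟙_ T.C)) a (𝟙 _)
      change X ◁ (a • 𝟙 (𝟙_ T.C)) = a • (X ◁ 𝟙 (𝟙_ T.C)) at h5
      rw [h5, MonoidalCategory.whiskerLeft_id]
    rw [h4]
    rfl
  have h6 : ∃ δ, Triangle.mk (((shiftFunctorZero T.C ℤ).app (X ⊗ 𝟙_ T.C)).hom ≫
      X ◁ (a • 𝟙 (𝟙_ T.C))) (X ◁ g) δ ∈ distTriang T.C := ⟨_, h4⟩
  rwa [h5] at h6

variable [hp : Fact p.Prime] {φ : GHom S p R} {Pc W₀ : T.C} {b : BPS p R.obj Pc W₀} {n : ℕ}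
  {ld : Lead p n} {Sc : SrcT p n Pc} {O : OpAlg ld Sc.src} {OX : OpX O}

theorem Stp.congr {e e' : ℕ → ℕ} {j : ℕ} {L L' : Lv T.C} (h : Stp OX e j L L') (he : e j = e' j) :
    Stp OX e' j L L' := by
  obtain ⟨d, g, hd, hg, hX⟩ := h
  refine ⟨d, g, by rw [hd, de, de, he], hg, fun X => ?_⟩
  obtain ⟨F, δ, H, hK⟩ := hX X
  refine ⟨F, δ, H, fun hE k k' h a => ?_⟩
  obtain ⟨c, hc, hc'⟩ := hK hE h a
  refine ⟨c, hc, ?_⟩
  rw [← hc', xe, xe, he]

/-- **the tower** -/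
theorem twr_of_stw (hu : Sc.u = η[R.obj] ≫ b.c) (hmul : MulLin b φ OX) {E : ℕ → T.C → Prop}
    {j : ℕ} {V : T.C} (hV : STw φ E j V) : H395.PComplete p (Pc ⊗ V) ∧
      ∃ (L : ℕ → Lv T.C) (e : ℕ → ℕ), Twr OX e L j ∧ (L j).V = V ∧ (∀ l < j, E l (L l).V) ∧
        ∀ l, 1 ≤ l → l ≤ j → IsGenMoore φ l (L l).V := by
  induction hV with
  | @base i V g h hE hi hT =>
    obtain ⟨i, rfl⟩ : ∃ i', i = i' + 1 := ⟨i - 1, by omega⟩
    refine ⟨?_, fun l => Nat.casesOn l ⟨𝟙_ T.C, 𝟙 _⟩ fun _ => ⟨V, g⟩, fun _ => i, ⟨fun X => ?_,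
      fun l hl => ?_⟩, rfl, fun l hl => ?_, fun l hl hl' => ?_⟩
    · obtain ⟨δ, hδ⟩ := base_tri hT Pc
      exact H395.PComplete.ext₃ _ hδ (b.cP.shift 0) b.cP
    · change IsIso ((ρ_ X).inv ≫ X ◁ 𝟙 (𝟙_ T.C))
      rw [MonoidalCategory.whiskerLeft_id, Category.comp_id]
      infer_instance
    · obtain rfl : l = 0 := by omega
      have hd0 : de p (fun _ => i) 0 = 0 := by simp [de, Vale.Agent.P221.T.sV]
      refine ⟨0, g, hd0.symm, Category.id_comp g, fun X => ?_⟩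
      obtain ⟨δ, hδ⟩ := base_tri' hT X
      refine ⟨_, δ, hδ, fun ⟨M, _, _, ⟨Z⟩⟩ k k' h' a => ?_⟩
      obtain rfl : k = k' := by omega
      refine ⟨(p ^ (i + 1) : ℕ) • a, ?_, ?_⟩
      · change gc h' (a ≫ inc (𝟙 (𝟙_ T.C)) X) (pw (X ⊗ 𝟙_ T.C) ((p : ℤ) ^ (i + 1))) =
          ((p ^ (i + 1) : ℕ) • a) ≫ inc (𝟙 (𝟙_ T.C)) X
        rw [gc_pw', ← natCast_zsmul, Preadditive.zsmul_comp]
        push_cast
        rfl
      · have h0 : Vale.Agent.P221.T.sV p 0 = 0 := by simp [Vale.Agent.P221.T.sV]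
        refine (pw_eq_pow (xx OX (Sc.sys X) 0) (i + 1) _).trans ?_
        refine xx_pow_of Z OX 0 (i + 1) (by rw [h0]; ring)
          (show (Sc.sys X).A k from a) (a' := (p ^ (i + 1) : ℕ) • (show (Sc.sys X).A k from a))
          fun z => ?_
        have h1 : OX.eta (Vale.Agent.P221.T.vK p 0) = ((p : ℕ) : GG p) := map_natCast OX.eta p
        rw [map_nsmul, LinearMap.smul_apply, h1, ← Nat.cast_pow, ← nsmul_eq_mul, map_nsmul]
    · obtain rfl : l = 0 := by omega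
      exact hE
    · obtain rfl : l = 1 := by omega
      exact .base hi hT
  | @step j k i V W f g h w hV hE hi hw hf hT ih =>
    obtain ⟨i, rfl⟩ : ∃ i', i = i' + 1 := ⟨i - 1, by omega⟩
    obtain ⟨hPV, L, e, hL, rfl, hEL, hgen⟩ := ih
    have hne : ∀ l, l ≤ j → Function.update L (j + 1) ⟨W, (L j).i ≫ g⟩ l = L l := fun l hl =>
      Function.update_of_ne (by omega) _ _
    have hself : Function.update L (j + 1) ⟨W, (L j).i ≫ g⟩ (j + 1) = ⟨W, (L j).i ≫ g⟩ :=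
      Function.update_self _ _ _
    refine ⟨?_, Function.update L (j + 1) ⟨W, (L j).i ≫ g⟩, upd e j i, ⟨fun X => ?_,
      fun l hl => ?_⟩, ?_, fun l hl => ?_, fun l hl hl' => ?_⟩
    · obtain ⟨δ, hδ⟩ := self_tri hT Pc
      exact H395.PComplete.ext₃ _ hδ (hPV.shift _) hPV
    · rw [hne 0 (by omega)]
      exact hL.iso X
    · by_cases hlj : l = j
      · subst hlj
        rw [hne l le_rfl, hself]
        refine ⟨2 * (k : ℤ), g, ?_, rfl, fun X => ?_⟩
        · rw [de, upd_self]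
          exact degree_sV w hw
        obtain ⟨δ, hδ⟩ := self_tri hT X
        obtain ⟨q, hq1, hq2, hq3⟩ := hmul k l (i + 1) w hw
        rw [hu] at hq2
        have hq4 := inc_mult b hPV (L l).i (induces_unit hf (L l).i) hq1 hq2
        refine ⟨_, δ, hδ, fun ⟨M, _, _, ⟨Z⟩⟩ k₁ k₂ h' a =>
          ⟨gc (show k₁ + 2 * (k : ℤ) = k₂ by omega) q a, ?_, ?_⟩⟩
        · exact gc_inc_fm (L l).i (signProp_two_mul (T := T.C) k) hq4 h' _ a
        · exact xe_of OX Z (by rw [de, upd_self]; exact degree_sV w hw)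
            (by rw [upd_self]; exact hq3) _ a
      · rw [hne l (by omega), hne (l + 1) (by omega)]
        exact (hL.step l (by omega)).congr (upd_ne e hlj i).symm
    · rw [hself]
    · by_cases hlj : l = j
      · subst hlj
        rw [hne l le_rfl]
        exact hE
      · rw [hne l (by omega)]
        exact hEL l (by omega)
    · by_cases hlj : l = j + 1
      · subst hlj
        rw [hself]
        exact .step hV.gen (by omega) hw hf hT
      · rw [hne l (by omega)]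
        exact hgen l hl (by omega)

end Vale.Agent.P221.H377
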