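import Vale.Agent.P221.St.Mc
import Vale.Agent.P221.H460.ConvE
import Vale.Agent.P221.E.H509.Iff2
import Vale.Agent.P221.H626.Fin

/-!
# P221 (helper377): the statement layer `StM`

* conversions from and to the layers `StE`, `StI`;
* `thick_of_cls` : an fp-spectrum of fp-type at most `n` which belongs to `StM.Cls` is in `Thick B`,
  from the theorem on missing residue classes;
* `cls_of_thick` : the converse.
-/

open CategoryTheory MonoidalCategory MonObj Limits Pretriangulated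

set_option linter.unusedSectionVars false

noncomputable section

namespace Vale.Agent.P221.H377.M

open Vale.Agent.P251 Vale.Agent.P251.S Vale.Agent.P251.T Vale.Agent.P251.M Vale.Agent.P251.F
  Vale.Agent.P251.I EvenSpheres Vale.Agent.P257.H702 Vale.Agent.P257.H80 Vale.Agent.P251.Q
  Vale.Agent.P251.St Vale.Agent.P251.St.SHCat Vale.Agent.P257.St
  Vale.Agent.P221.H746 Vale.Agent.P093.N0 Vale.Agent.P221.Loc

variable {T : SHCat} {S : Susp T} {p n : ℕ}

/-! ### conversions -/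

theorem thickE_of_M {Q : T.C → Prop} {X : T.C} (h : StM.ThickOf Q X) : StE.ThickOf Q X := by
  induction h with
  | base h => exact StE.ThickOf.base h
  | zero h0 => exact StE.ThickOf.zero h0
  | susp k _ ih => exact StE.ThickOf.susp k ih
  | cof hd _ _ ih₁ ih₂ => exact StE.ThickOf.cof hd ih₁ ih₂
  | retract i r hir _ ih => exact StE.ThickOf.retract i r hir ih

theorem thickM_of_E {Q : T.C → Prop} {X : T.C} (h : StE.ThickOf Q X) : StM.ThickOf Q X := by
  induction h with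
  | base h => exact StM.ThickOf.base h
  | zero h0 => exact StM.ThickOf.zero h0
  | susp k _ ih => exact StM.ThickOf.susp k ih
  | cof hd _ _ ih₁ ih₂ => exact StM.ThickOf.cof hd ih₁ ih₂
  | retract i r hir _ ih => exact StM.ThickOf.retract i r hir ih

theorem standardE_of_M {B : T.C} (h : StM.IsStandardForm S p n B) : StE.IsStandardForm S p n B := by
  obtain ⟨P, o, φ, x, C, a, q, c, h1, h2, h3, h4⟩ := h
  exact ⟨P, o, φ, x, C, a, q, c, h1, h2, ⟨h3.act, h3.map, h3.surj, h3.ker⟩, h4⟩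

variable {R : RingSp T}

theorem towerE_of_M {φ : GHom S p R} {E : ℕ → T.C → Prop} {j : ℕ} {V : T.C}
    (h : StM.IsTower φ E j V) : StE.IsTower φ E j V := by
  induction h with
  | base h0 h1 h2 => exact StE.IsTower.base h0 h1 h2
  | step _ h0 h2 h3 h4 h5 ih => exact StE.IsTower.step ih h0 h2 h3 h4 h5

theorem towerM_of_E {φ : GHom S p R} {E : ℕ → T.C → Prop} {j : ℕ} {V : T.C}
    (h : StE.IsTower φ E j V) : StM.IsTower φ E j V := by
  induction h with
  | base h0 h1 h2 => exact StM.IsTower.base h0 h1 h2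
  | step _ h0 h2 h3 h4 h5 ih => exact StM.IsTower.step ih h0 h2 h3 h4 h5

theorem towerE_mono {φ : GHom S p R} {E E' : ℕ → T.C → Prop} (hE : ∀ j V, E j V → E' j V)
    {j : ℕ} {V : T.C} (h : StE.IsTower φ E j V) : StE.IsTower φ E' j V := by
  induction h with
  | base h0 h1 h2 => exact StE.IsTower.base (hE _ _ h0) h1 h2
  | step _ h1 h2 h3 h4 h5 ih => exact StE.IsTower.step ih (hE _ _ h1) h2 h3 h4 h5

theorem fpE_of_M {E : ℕ → T.C → Prop} {X : T.C} (h : StM.IsFp S p n E X) :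
    StE.IsFp S p n E X := by
  obtain ⟨h1, h2, P, o, φ, V, N, h3, h4, h5⟩ := h
  exact ⟨h1, h2, P, o, φ, V, N, h3, towerE_of_M h4, h5⟩

theorem fpM_of_E {E : ℕ → T.C → Prop} {X : T.C} (h : StE.IsFp S p n E X) :
    StM.IsFp S p n E X := by
  obtain ⟨h1, h2, P, o, φ, V, N, h3, h4, h5⟩ := h
  exact ⟨h1, h2, P, o, φ, V, N, h3, towerM_of_E h4, h5⟩

theorem towerE_of_I {φ : GHom S p R} {j : ℕ} {V : T.C} (h : StI.IsGenMoore φ j V) :
    StE.IsTower φ (fun _ _ => True) j V := by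
  induction h with
  | base h1 h2 => exact StE.IsTower.base trivial h1 h2
  | step _ h2 h3 h4 h5 ih => exact StE.IsTower.step ih trivial h2 h3 h4 h5

theorem fpI_of_M {X : T.C} (h : StM.Fp S p n X) : StI.IsFpType S p n X :=
  H460.isFpType_of_E (fpE_of_M h)

theorem fpM_of_I {X : T.C} (h : StI.IsFpType S p n X) : StM.Fp S p n X := by
  obtain ⟨h1, h2, P, o, φ, V, N, h3, h4, h5⟩ := h
  exact fpM_of_E ⟨h1, h2, P, o, φ, V, N, h3, towerE_of_I h4, h5⟩

/-- the bounds of the stages of a tower -/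
theorem exists_unif {φ : GHom S p R} {X : T.C} {D : ℤ → Prop} {m j : ℕ} {V : T.C}
    (h : StM.IsTower φ (fun j W => j ≤ m → StM.Conc D (ten X W)) j V) :
    ∃ N : ℤ, StE.IsTower φ (fun j W => j ≤ m → StE.Conc D N (ten X W)) j V := by
  have hmono : ∀ {N N' : ℤ}, N ≤ N' → ∀ (j : ℕ) (W : T.C),
      (j ≤ m → StE.Conc D N (ten X W)) → j ≤ m → StE.Conc D N' (ten X W) :=
    fun hN j W h hj k hk => h hj k (le_trans hN hk)
  have hex : ∀ {j : ℕ} {W : T.C}, (j ≤ m → StM.Conc D (ten X W)) →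
      ∃ N : ℤ, j ≤ m → StE.Conc D N (ten X W) := by
    intro j W h
    by_cases hj : j ≤ m
    · obtain ⟨N, hN⟩ := h hj
      exact ⟨N, fun _ => hN⟩
    · exact ⟨0, fun h' => absurd h' hj⟩
  induction h with
  | base h0 h1 h2 =>
    obtain ⟨N, hN⟩ := hex h0
    exact ⟨N, StE.IsTower.base hN h1 h2⟩
  | step _ h1 h2 h3 h4 h5 ih =>
    obtain ⟨N, hN⟩ := ih
    obtain ⟨N', hN'⟩ := hex h1
    exact ⟨max N N', StE.IsTower.step (towerE_mono (hmono (le_max_left _ _)) hN)
      (hmono (le_max_right _ _) _ _ hN') h2 h3 h4 h5⟩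

/-- the `sparse` constructor -/
theorem isSparse_of_M {X : T.C} {D : ℤ → Prop} {m : ℕ} (h1 : StM.Per p D)
    (h2 : ∀ s t, D s → D t → Even (s - t))
    (h3 : ∀ (t : ℤ) (i : ℕ), D t → 0 < i → i + m < n → ¬ D (t + i))
    (h : StM.IsFp S p n (fun j W => j ≤ m → StM.Conc D (ten X W)) X) : StE.IsSparse S p n X := by
  obtain ⟨h4, h5, P, o, φ, V, N, h6, h7, h8⟩ := h
  obtain ⟨N', hN'⟩ := exists_unif h7
  exact ⟨m, D, N', ⟨h1, h2, fun t i ht hi hin => h3 t i ht hi (by omega)⟩, h4, h5, P, o, φ, V, N,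
    h6, hN', h8⟩

/-- the statement on missing residue classes -/
def Mc (S : Susp T) (p n : ℕ) (B : T.C) : Prop :=
  ∀ (X : T.C) (D : ℤ → Prop) (a : ℤ), StM.Per p D → (∀ i : ℕ, i < max 1 (n - 1) → ¬ D (a + i)) →
    StM.Fp S p n X → StM.Conc D X → St.Thick B X

/-- **the theorem on the class `Cls`** -/
theorem thick_of_cls (hp : p.Prime) {B X : T.C} (hB : StM.IsStandardForm S p n B)
    (hMc : Mc S p n B) (hX : StM.Fp S p n X) (h : StM.Cls S p n X) :
    StM.ThickOf (fun Y : T.C => Y = B) X := by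
  have : Fact p.Prime := ⟨hp⟩
  obtain ⟨D, hD, hA, ⟨U⟩⟩ := H924.exists_mu S.toSpaceFunctor (P251.M.lineIso S.toSpaceFunctor)
  have hBE := standardE_of_M hB
  have hBI := H460.isStandardForm_of_E hBE
  have hB' : St.IsForm S p n B :=
    H924.isForm_of_isStandardForm hD hA U (isStandardForm_iff.1 (isStandardFormI_iff.1 hBI))
  obtain ⟨C, i, δ, hC⟩ := H746.exists_moore (𝒯 := T.C) (p : ℤ)
  have h0 : Conn (0 : ℤ) (𝟙_ T.C) := D.conn_unit
  have hX' := isFpTypeI_of (fpI_of_M hX)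
  have hT : ∀ X : T.C, St.IsBPFinite S p n X → St.Thick B X := fun X hX =>
    H509.thick_of_isBPFinite hB' hX
  have hcov : ∀ (k : ℤ) {Y Z : T.C} (c : Y ⟶ Z), IsCov k c → Good p C Z → Good p C Y :=
    fun k _ _ c hc h => hc.good hC D.conn_unit h
  have hmod : ∀ (k : ℤ) {Y Z : T.C} (c : Y ⟶ Z), IsCov k c → ModStr D.R Z →
      Nonempty (ModStr D.R Y) := fun k _ _ c hc M => hc.modStr M
  have hsing : ∀ (k : ℤ) (E : T.C), BigCell T.C k E →
      (∀ j, k < j → ∀ x : (𝟙_ T.C)⟦j⟧ ⟶ E, x = 0) → Nonempty (ModStr D.R E) :=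
    fun k E h1 h2 => modStr_of_single D h1 h2
  have hgood : ∀ X : T.C, St.IsFpType S p n X → Good p C X := fun X hX => good_of_fpType hp hC hX
  have htf : ∀ {P : RingSp T} (φ : P257.St.GHom S p P) (m : ℕ) (W V : T.C), Good p C W →
      (∃ k : ℤ, ∀ j, k ≤ j → ∀ x : (𝟙_ T.C)⟦j⟧ ⟶ W, x = 0) → St.IsGenMoore φ m V →
        St.TotallyFinite (ten W V) := fun φ m W V h1 h2 h3 => totallyFinite_of_good hC h1 h2 h3
  have hCT := covThick (C := C) (B := B) hp hD U hT hcov hsing htf hX'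
  have hGB : Good p C B := good_of_isForm hC hB'
  have key : ∀ {Z W : T.C} (f : Z ⟶ W) {K : ℤ}, BijGe K f → StM.Fp S p n Z →
      EvG (fun Z : T.C => Good p C Z ∧ St.Thick B Z) W → St.Thick B Z := by
    intro Z W f K hf hZ hW
    obtain ⟨k₀, hk₀⟩ := hW.exists_cov hCT h0
    obtain ⟨X', d, hd⟩ := exists_cov (max K k₀) Z
    have h2 := hk₀ _ (le_max_right K k₀) (hd.comp_bijGe (hf.mono (le_max_left K k₀)))
    exact thick_of_cov h0 hcov (thick_single hp hD U hT hsing htf hX') hd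
      (hgood Z (isFpTypeI_of (fpI_of_M hZ))) h2.2
  have hof : ∀ {Z : T.C}, St.Thick B Z → EvG (fun Z : T.C => Good p C Z ∧ St.Thick B Z) Z :=
    fun h => EvG.of ⟨good_of_thick hGB h, h⟩
  have main : EvG (fun Z : T.C => Good p C Z ∧ St.Thick B Z) X := by
    clear hX hX'
    induction h with
    | missing h1 h2 h3 h4 => exact hof (hMc _ _ _ h1 h2 h3 h4)
    | sparse h1 h2 h3 h4 => exact hof (H626.thick_of_isSparse hp hBE (isSparse_of_M h1 h2 h3 h4))
    | module c hc hY hX =>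
      obtain ⟨K, hK⟩ := hc
      exact evG_of_module hp hD U hT hcov hmod hgood htf hX (c := c) (K := K) hK
        (isFpTypeI_of (fpI_of_M hY))
    | @thick Q X _ hX ih =>
      induction hX with
      | base h => exact ih _ h
      | zero h => exact EvG.of (hCT.zero ((IsZero.iff_id_eq_zero _).2 h))
      | susp k _ ih => exact ih.shift hCT k
      | cof hd _ _ ih₁ ih₂ => exact EvG.cof hCT h0 hd ih₁ ih₂
      | retract i r hir _ ih => exact EvG.retract hCT h0 i r hir ih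
    | high c hc _ ih =>
      obtain ⟨K, hK⟩ := hc
      exact ih.of_bijGe (k := K) (f := c) hK
    | low c hc hX _ ih =>
      obtain ⟨K, hK⟩ := hc
      exact hof (key c (K := K) hK hX ih)
    | ten hW hX _ ih =>
      exact hof (H521.thick_of_ten (H460.thick_of_thickI (H460.thickI_of_E (thickE_of_M hW)))
        (key (𝟙 _) (BijGe.of_isIso 0 (𝟙 _)) hX ih))
  exact thickM_of_E (H460.thickE_of_I
    (thickI_of_thick (key (𝟙 X) (BijGe.of_isIso 0 (𝟙 X)) hX main)))

/-- **the converse** -/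
theorem cls_of_thick (hp : p.Prime) {B X : T.C} (hB : StM.IsStandardForm S p n B)
    (hX : StM.Fp S p n X) (h : StM.ThickOf (fun Y : T.C => Y = B) X) : StM.Cls S p n X := by
  refine StM.Cls.thick (Q := fun Y : T.C => Y = B) (fun Y hY => ?_) h
  rw [hY]
  have hBI := H460.isStandardForm_of_E (standardE_of_M hB)
  have h1 := E.H903.isFpType_of_isStandardForm hp (E.H509.fpConv hp) hBI (fpI_of_M hX)
  have : Fact p.Prime := ⟨hp⟩
  obtain ⟨D, hD, hA, ⟨U⟩⟩ := H924.exists_mu S.toSpaceFunctor (P251.M.lineIso S.toSpaceFunctor)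
  obtain ⟨P, o, φ, x, a, q, h1', h2, h3, h4, -⟩ : St.IsForm S p n B :=
    H924.isForm_of_isStandardForm hD hA U (isStandardForm_iff.1 (isStandardFormI_iff.1 hBI))
  exact StM.Cls.module (ident B) (E.H903.evIso_ident B) (fpM_of_I h1) ⟨P, o, a, h4⟩

/-- `X` is in `Thick B` if and only if it belongs to `Cls` -/
theorem thick_iff_cls (hp : p.Prime) {B X : T.C} (hB : StM.IsStandardForm S p n B)
    (hMc : Mc S p n B) (hX : StM.Fp S p n X) :
    StM.ThickOf (fun Y : T.C => Y = B) X ↔ StM.Cls S p n X :=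
  ⟨cls_of_thick hp hB hX, thick_of_cls hp hB hMc hX⟩

end Vale.Agent.P221.H377.M
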